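import Crest.Agent.N221.A1.Defs

/-!
Row 221, block Ni (helper84): the NB instance on the real objects.

Unit vectors of the cover are pairs `p : Euc n × Euc N` with `C.Un p.1 p.2`; `du` is their
distance, `fu t` the geodesic flow, `mv g t = g ∘ fu t`.  `ZL m = ZZ m × ℝ` is the lifted chart,
`Ps f (z, s) = fu s (hy f q, uv f z)`, `Lt f f' t` represents `fu t` from the chart `f` to the
chart `f'`; `lif z v = (v, -⟪p, v_q⟫)` is the lift to the contact plane `ds + p dq = 0`.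
`PolyS` is what the glue consumes (from the core `NC`); the other `Prop`s are its leaves.
-/

set_option autoImplicit false

open Set Filter Topology Metric
open scoped ContDiff RealInnerProductSpace
open Crest.GeometryTopology.Submanifold
open Crest.Agent.R241.DDefs Crest.Agent.R241.D2
open Crest.Agent.R208.J Crest.Agent.R208.L

noncomputable section

namespace Crest.Agent.N221

/-- lifted Darboux coordinates `((q, p), s)` -/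
abbrev ZL (m : ℕ) := ZZ m × ℝ

/-- lift of a vector at `z` to the contact plane -/
def lif {m : ℕ} (z : ZZ m) : ZZ m →L[ℝ] ZL m :=
  (ContinuousLinearMap.id ℝ (ZZ m)).prod
    (-(innerSL ℝ z.2).comp (ContinuousLinearMap.fst ℝ (Euc m) (Euc m)))

lemma lif_apply {m : ℕ} (z v : ZZ m) : lif z v = (v, -⟪z.2, v.1⟫) := rfl

namespace Cov

variable {n N m : ℕ} {a : ℝ} {S : Set (Euc N)} {G : Geo n N (-(a ^ 2)) S} (C : Cov G)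

/-- distance of unit vectors -/
def du (p q : Euc n × Euc N) : ℝ := max (C.dd p.1 q.1) ‖p.2 - q.2‖

/-- the geodesic flow of the cover -/
def fu (t : ℝ) (p : Euc n × Euc N) : Euc n × Euc N := (C.gd p.1 p.2 t, C.vel p.1 p.2 t)

/-- flow, then deck map -/
def mv (g : Euc n → Euc n) (t : ℝ) (p : Euc n × Euc N) : Euc n × Euc N :=
  (g (C.gd p.1 p.2 t), C.vel p.1 p.2 t)

/-- same strong stable leaf -/
def Sss (p q : Euc n × Euc N) : Prop :=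
  C.ep q.1 q.2 = C.ep p.1 p.2 ∧ C.b (C.ep p.1 p.2) q.1 = C.b (C.ep p.1 p.2) p.1

/-- same strong unstable leaf -/
def Suu (p q : Euc n × Euc N) : Prop :=
  C.ep q.1 (-q.2) = C.ep p.1 (-p.2) ∧ C.b (C.ep p.1 (-p.2)) q.1 = C.b (C.ep p.1 (-p.2)) p.1

/-- base vector of a frame -/
def bv (f : FF n N m) : Euc n × Euc N := (f.1, f.2.1)

/-- the lifted chart -/
def Ps (f : FF n N m) (y : ZL m) : Euc n × Euc N := C.fu y.2 (C.hy f y.1.1, C.uv f y.1)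

/-- the flow `fu t` read from the chart `f` to the chart `f'` -/
def Lt (f f' : FF n N m) (t : ℝ) (y : ZL m) : ZL m :=
  (C.Tf f f' y.1, y.2 - C.tm f f' y.1 + t)

/-- strong stable plaque of the centre -/
def Lf (f : FF n N m) : Set (ZL m) := {y | ‖y.1‖ < C.rr m ∧ C.Sss (bv f) (C.Ps f y)}

/-- `w ∈ E^uu` at `y` -/
def Euu (f : FF n N m) (y w : ZL m) : Prop := ∃ e, w = lif y.1 (e, C.Su f y.1 e)

end Cov

open Cov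

/-- the flow is Lipschitz and contracts the strong leaves (`gd_close`, `up_close`, for `du ≥ 1`
the triangle inequality; `asy_tail`, `Tw.sinh_le`) -/
def FlS : Prop := ∀ (n N : ℕ) (a : ℝ) (S : Set (Euc N)) (G : Geo n N (-(a ^ 2)) S) (C : Cov G),
  Hyp n N a S → ∃ K Λ : ℝ, 1 ≤ K ∧ 0 < Λ ∧ ∀ p q : Euc n × Euc N, C.Un p.1 p.2 → C.Un q.1 q.2 →
    (∀ t, C.du (C.fu t p) (C.fu t q) ≤ K * Real.exp (Λ * |t|) * C.du p q) ∧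
    (C.Sss p q → C.du p q ≤ 1 → ∀ t, 0 ≤ t →
      C.du (C.fu t p) (C.fu t q) ≤ K * Real.exp (-(a * t)) * C.du p q) ∧
    (C.Suu p q → C.du p q ≤ 1 → ∀ t, 0 ≤ t →
      C.du (C.fu (-t) p) (C.fu (-t) q) ≤ K * Real.exp (-(a * t)) * C.du p q)

/-- the lifted charts are uniformly Lipschitz (`contDiffAt_uv`, compactness of frames modulo deck
maps) and contain a uniform ball (`near_chart`) -/
def PsS : Prop := ∀ (n N m : ℕ) (a : ℝ) (S : Set (Euc N)) (G : Geo n N (-(a ^ 2)) S) (C : Cov G),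
  Hyp n N a S → m + 1 = n → ∃ K δ : ℝ, 1 ≤ K ∧ 0 < δ ∧ ∀ f : FF n N m, C.Frm f →
    (∀ y y' : ZL m, ‖y.1‖ ≤ C.rr m → ‖y'.1‖ ≤ C.rr m → |y.2| ≤ 1 → |y'.2| ≤ 1 →
      C.du (C.Ps f y) (C.Ps f y') ≤ K * ‖y - y'‖) ∧
    ∀ p : Euc n × Euc N, C.Un p.1 p.2 → C.du (bv f) p ≤ δ →
      ∃ y : ZL m, ‖y‖ ≤ K * C.du (bv f) p ∧ C.Ps f y = p

/-- backward contraction: `y'' = (gu f η q', s + bq f η q' - bq f η q)` is on the strong unstable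
leaf of `y = ((q, p), s)`, `‖y'' - y'‖ ≤ K (‖y' - y - w‖ + ‖y' - y‖²)` (Taylor, `ub_pq`), `FlS`,
`PsS` -/
def BkS : Prop := ∀ (n N m : ℕ) (a : ℝ) (S : Set (Euc N)) (G : Geo n N (-(a ^ 2)) S) (C : Cov G),
  Hyp n N a S → m + 1 = n → ∃ K Λ δ : ℝ, 1 ≤ K ∧ 0 < Λ ∧ 0 < δ ∧
  ∀ (f : FF n N m) (y y' w : ZL m) (t : ℝ), C.Frm f → ‖y‖ ≤ δ → ‖y'‖ ≤ δ → C.Euu f y w → 0 ≤ t →
    C.du (C.fu (-t) (C.Ps f y')) (C.fu (-t) (C.Ps f y)) ≤ K * (Real.exp (-(a * t)) * ‖w‖ +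
      Real.exp (Λ * t) * ‖y' - y - w‖ + Real.exp (Λ * t) * ‖y' - y‖ ^ 2)

/-- one backward step `Φ = Lt (fw f L) f (-L)` of the chains (`chain_lf` or `push_s`, `step`,
`ub_Tf`, `jb_tm`, `fderiv_Tf_symm`), and the change of chart `Lt f' f 0` between close frames -/
def ChnS : Prop := ∀ (n N m : ℕ) (a : ℝ) (S : Set (Euc N)) (G : Geo n N (-(a ^ 2)) S) (C : Cov G),
  Hyp n N a S → m + 1 = n → ∃ (L Λ K R0 δ : ℝ) (c : ℕ → ℝ), 1 ≤ L ∧ 0 < Λ ∧ 1 ≤ K ∧ 0 < R0 ∧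
    R0 ≤ C.rr m ∧ 0 < δ ∧ (∀ j, 1 ≤ c j) ∧ ∀ f : FF n N m, C.Frm f →
    (∀ y ∈ ball (0 : ZL m) R0, y.1 ∈ C.dm (C.fw f L) f ∧
      ContDiffAt ℝ ∞ (C.Lt (C.fw f L) f (-L)) y ∧
      ‖fderiv ℝ (C.Lt (C.fw f L) f (-L)) y‖ ≤ Real.exp Λ ∧
      (∀ j, 1 ≤ j → ‖iteratedFDeriv ℝ j (C.Lt (C.fw f L) f (-L)) y‖ ≤ c j) ∧
      (∀ v, ‖v‖ ≤ Real.exp Λ * ‖fderiv ℝ (C.Lt (C.fw f L) f (-L)) y v‖) ∧
      (y ∈ C.Lf (C.fw f L) → C.Lt (C.fw f L) f (-L) y ∈ C.Lf f ∧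
        2 * ‖y.1.1‖ ≤ ‖(C.Lt (C.fw f L) f (-L) y).1.1‖) ∧
      (y ∈ C.Lf f → ‖y‖ ≤ K * ‖y.1.1‖)) ∧
    C.Lt (C.fw f L) f (-L) 0 = 0 ∧
    ∀ f' : FF n N m, C.Frm f' → C.du (bv f) (bv f') ≤ δ → ∀ y ∈ ball (0 : ZL m) R0,
      y.1 ∈ C.dm f' f ∧ ContDiffAt ℝ ∞ (C.Lt f' f 0) y ∧
      ∀ j, 1 ≤ j → ‖iteratedFDeriv ℝ j (C.Lt f' f 0) y‖ ≤ c j

/-- THE POLYGON: curves `c i` in strong stable leaves, flat at their return `mv (γ i) (t i)` to the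
box, neighbours on the known part differ by a vector of the lifted `range nu ⊆ E^u` -/
def PolyS : Prop := ∀ (n N m : ℕ) (a : ℝ) (S : Set (Euc N)) (G : Geo n N (-(a ^ 2)) S) (C : Cov G)
  (f : FF n N m) (z0 : ZZ m), Hyp n N a S → m + 1 = n → C.Frm f → ‖z0‖ < C.rr m →
  ∃ ρ : ℝ, 0 < ρ ∧ ∀ (l : ℕ) (nu : ZZ m → (Fin l → ℝ) →L[ℝ] ZZ m) (U : Set (ZZ m)) (r : ℝ),
    r ≤ ρ → IsOpen U → closedBall z0 r ⊆ U → ContDiffOn ℝ ∞ nu U →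
    (∀ z ∈ U, Function.Injective (nu z)) → (∀ z ∈ U, ∀ b, nu z b ∈ (C.pd f).E true z) →
    (∀ z ∈ U, ∀ T, (C.pd f).R z T false → T z ∈ U → ∀ b, ∃ b',
      fderiv ℝ T z (nu z b) = nu (T z) b') →
  ∀ (τ0 c1 g K η : ℝ) (d : ℕ → ℝ), 0 < τ0 → τ0 ≤ 1 → 0 < c1 → 0 < g → 0 < η →
  ∃ T0 : ℝ, ∀ T, T0 ≤ T → ∀ (k : ℕ) (γ : ℕ → Euc n → Euc n) (t : ℕ → ℝ)
    (c : ℕ → ℝ → Euc n × Euc N) (e z : ℕ → ℝ → ZL m), k * Real.exp (-(c1 * T)) ≤ K →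
    (∀ i ≤ k, C.Deck (γ i) ∧ |t i - T| ≤ K ∧
      (∀ τ ∈ Icc (0 : ℝ) 1, C.Un (c i τ).1 (c i τ).2 ∧ C.Sss (c i 0) (c i τ) ∧
        e i τ ∈ closedBall ((z0, 0) : ZL m) r ∧ C.mv (γ i) (t i) (c i τ) = C.Ps f (e i τ) ∧
        ContDiffAt ℝ ∞ (e i) τ ∧
        ∀ j, 1 ≤ j → ‖iteratedDeriv j (e i) τ‖ ≤ d j * Real.exp (-(g * T)) ^ j) ∧
      ∀ τ ∈ Icc (0 : ℝ) τ0, z i τ ∈ closedBall ((z0, 0) : ZL m) r ∧ c i τ = C.Ps f (z i τ)) →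
    (∀ i < k, ∀ τ ∈ Icc (0 : ℝ) τ0, ‖z (i + 1) τ - z i τ‖ ≤ K * Real.exp (-(c1 * T)) ∧
      ∃ b, ‖z (i + 1) τ - z i τ - lif (z i τ).1 (nu (z i τ).1 b)‖ ≤
        K * Real.exp (-(c1 * T)) ^ 2) →
    ∃ τ ∈ Icc (0 : ℝ) 1, 1 - η ≤ τ ∧ ∃ s : ℝ, C.du (C.fu s (c k τ)) (C.fu s (c 0 τ)) ≤ η

end Crest.Agent.N221
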