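import Crest.Agent.N221.Ni.Bas
import Crest.Agent.N221.Ch.Dmb
import Crest.Agent.N221.NB.Defs
import Crest.Agent.N221.A1.Bas

/-! Row 221, Ni (helper50): the fields `cont`, `bil`, `opn`, `loc` of `NB.Box` on the real
objects. -/

set_option autoImplicit false

open Set Filter Topology Metric
open scoped ContDiff RealInnerProductSpace
open Crest.GeometryTopology.Submanifold
open Crest.Agent.R241.DDefs Crest.Agent.R241.D2
open Crest.Agent.R208.J Crest.Agent.R208.L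

noncomputable section

namespace Crest.Agent.N221.Cov

variable {n N m : ℕ} {a : ℝ} {S : Set (Euc N)} {G : Geo n N (-(a ^ 2)) S} (C : Cov G)
variable {f : FF n N m} {y y' : ZL m} {g : Euc n → Euc n} {t : ℝ}
variable (H : Hyp n N a S) (hm : m + 1 = n)
include H hm

/-- `Ps f` is locally Lipschitz -/
lemma lip_Ps (h1 : FlS) (h2 : PsS) (hf : C.Frm f) (s : ℝ) : ∃ K > 0, ∀ y y' : ZL m,
    ‖y.1‖ < C.rr m → ‖y'.1‖ < C.rr m → |y.2 - s| ≤ 1 → |y'.2 - s| ≤ 1 →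
    C.du (C.Ps f y) (C.Ps f y') ≤ K * ‖y - y'‖ := by
  obtain ⟨K, Λ, K1, -, h⟩ := h1 n N a S G C H
  obtain ⟨K', δ, K1', -, h'⟩ := h2 n N m a S G C H hm
  refine ⟨K * Real.exp (Λ * |s|) * K', by positivity, fun y y' a1 a2 a3 a4 => ?_⟩
  have e : ∀ y : ZL m, ‖y.1‖ < C.rr m → C.Ps f y = C.fu s (C.Ps f (y.1, y.2 - s)) := fun y hy => by
    rw [← C.Ps_add (y := (y.1, y.2 - s)) (C.un_uv H hf (C.Dm_lt H hm hf hy)), sub_add_cancel]
  have b := (h' f hf).1 (y.1, y.2 - s) (y'.1, y'.2 - s) a1.le a2.le a3 a4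
  rw [Prod.mk_sub_mk, sub_sub_sub_cancel_right] at b
  rw [e y a1, e y' a2, mul_assoc]
  exact ((h _ _ (C.un_Ps' H hm hf (y := (y.1, y.2 - s)) a1)
    (C.un_Ps' H hm hf (y := (y'.1, y'.2 - s)) a2)).1 s).trans
    (mul_le_mul_of_nonneg_left b (by positivity))

/-- CONT -/
lemma cont_Ps (h1 : FlS) (h2 : PsS) (hf : C.Frm f) (hy : ‖y.1‖ < C.rr m) :
    Tendsto (fun x => C.du (C.Ps f x) (C.Ps f y)) (𝓝 y) (𝓝 0) := by
  obtain ⟨K, -, h⟩ := C.lip_Ps H hm h1 h2 hf y.2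
  refine squeeze_zero' (.of_forall fun _ => C.du_nonneg _ _) (g := fun x => K * ‖x - y‖) ?_
    ((by fun_prop : Continuous fun x : ZL m => K * ‖x - y‖).tendsto' _ _ (by simp))
  filter_upwards [(by fun_prop : Continuous fun x : ZL m => ‖x.1‖).continuousAt.eventually_lt
    continuousAt_const hy, (by fun_prop : Continuous fun x : ZL m =>
    |x.2 - y.2|).continuousAt.eventually_lt continuousAt_const
    (show |y.2 - y.2| < 1 by simp)] with x a1 a2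
  exact h x y a1 hy a2.le (by simp)

/-- OPN -/
lemma opn_Ps (h2 : PsS) (hf : C.Frm f) (hy : ‖y.1‖ < C.rr m) {V : Set (ZL m)} (hV : V ∈ 𝓝 y) :
    ∃ δ > 0, ∀ p : Euc n × Euc N, C.Un p.1 p.2 → C.du p (C.Ps f y) < δ →
      ∃ x ∈ V, ‖x.1‖ < C.rr m ∧ C.Ps f x = p := by
  obtain ⟨K, δ, K1, δ0, h⟩ := h2 n N m a S G C H hm
  obtain ⟨f', hf', e⟩ := C.exists_bv hm (C.un_Ps' H hm hf hy)
  obtain ⟨a1, a2⟩ := C.loc H hm (t := 0) (y := 0) hf' hf (by simpa using C.rr_pos H hm) hy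
    (by rw [C.fu_zero, C.Ps_zero H hf', e])
  obtain ⟨ε, ε0, hε⟩ := Metric.eventually_nhds_iff.1 ((C.ev_dmL H hm hf' hf a1).and
    ((C.contDiffAt_Lt H hm hf' hf a1 0).continuousAt.eventually (a2.symm ▸ hV)))
  refine ⟨min δ (ε / K), by positivity, fun p hp hd => ?_⟩
  rw [C.du_comm, ← e, lt_min_iff, lt_div_iff₀' (by positivity)] at hd
  obtain ⟨w, b1, rfl⟩ := (h f' hf').2 p hp hd.1.le
  obtain ⟨c1, c2⟩ := hε (y := w) (by rw [dist_zero_right]; linarith [hd.2])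
  exact ⟨_, c2, C.norm_Lt H hm hf c1 0, by rw [C.Ps_Lt H hm hf' hf c1, C.fu_zero]⟩

/-- BIL -/
lemma bil_Ps (h1 : FlS) (h2 : PsS) (hf : C.Frm f) (hy : ‖y.1‖ < C.rr m) :
    ∃ K > 0, ∃ V ∈ 𝓝 y, ∀ x ∈ V, ∀ x' ∈ V, ‖x.1‖ < C.rr m ∧
      C.du (C.Ps f x) (C.Ps f x') ≤ K * ‖x - x'‖ ∧ ‖x - x'‖ ≤ K * C.du (C.Ps f x) (C.Ps f x') := by
  obtain ⟨K₀, K0, h₀⟩ := C.lip_Ps H hm h1 h2 hf y.2
  obtain ⟨K, δ, K1, δ0, h⟩ := h2 n N m a S G C H hm
  obtain ⟨ρ, r1, r2⟩ := exists_between hy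
  obtain ⟨r, L, r0, L1, hL⟩ := C.dm_ball H hm (C.du (C.Ps f y) (bv f) + 1) r2
  have rp := C.rr_pos H hm
  obtain ⟨ε, ε0, e1, e2, e3, e4, e5, e6⟩ : ∃ ε > 0, ε ≤ ρ - ‖y.1‖ ∧ ε ≤ 1 ∧ K₀ * ε ≤ 1 ∧
      K₀ * (2 * ε) ≤ δ ∧ K * (K₀ * (2 * ε)) < r ∧ K * (K₀ * (2 * ε)) < C.rr m := by
    have t : ∀ {F : ℝ → ℝ} {c : ℝ}, Continuous F → F 0 < c → ∀ᶠ ε in 𝓝[>] (0 : ℝ), F ε < c :=
      fun hF hc => mem_nhdsWithin_of_mem_nhds (hF.continuousAt.eventually_lt continuousAt_const hc)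
    obtain ⟨ε, b1, b2, b3, b4, b5, b6, b7⟩ := ((t (F := id) (c := ρ - ‖y.1‖) continuous_id
      (by simpa using r1)).and ((t (F := id) continuous_id one_pos).and
      ((t (F := fun ε => K₀ * ε) (c := 1) (by fun_prop) (by simp)).and
      ((t (F := fun ε => K₀ * (2 * ε)) (c := δ) (by fun_prop) (by simpa)).and
      ((t (F := fun ε => K * (K₀ * (2 * ε))) (c := r) (by fun_prop) (by simpa)).and
      ((t (F := fun ε => K * (K₀ * (2 * ε))) (c := C.rr m) (by fun_prop) (by simpa)).and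
      self_mem_nhdsWithin)))))).exists
    exact ⟨ε, b7, b1.le, b2.le, b3.le, b4.le, b5, b6⟩
  have b : ∀ x ∈ ball y ε, ‖x.1‖ ≤ ρ ∧ |x.2 - y.2| ≤ 1 := fun x hx => by
    rw [mem_ball_iff_norm] at hx
    exact ⟨by linarith [norm_sub_norm_le x.1 y.1, (norm_fst_le (x - y)).trans hx.le,
      show ‖(x - y).1‖ = ‖x.1 - y.1‖ from rfl], ((norm_snd_le (x - y)).trans hx.le).trans e2⟩
  refine ⟨max K₀ ((1 + L) * K), by positivity, _, ball_mem_nhds y ε0, fun x hx x' hx' => ?_⟩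
  have x1 := (b x hx).1.trans_lt r2
  have x2 := (b x' hx').1.trans_lt r2
  have d := h₀ x x' x1 x2 (b x hx).2 (b x' hx').2
  refine ⟨x1, d.trans (by gcongr; exact le_max_left _ _), ?_⟩
  have d' : C.du (C.Ps f x) (C.Ps f x') ≤ K₀ * (2 * ε) := d.trans (by
    gcongr; linarith [dist_triangle_right x x' y, mem_ball.1 hx, mem_ball.1 hx', dist_eq_norm x x'])
  obtain ⟨f', hf', e⟩ := C.exists_bv hm (C.un_Ps' H hm hf x1)
  obtain ⟨w, w1, w2⟩ := (h f' hf').2 _ (C.un_Ps' H hm hf x2) (by rw [e]; linarith)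
  rw [e] at w1
  have w3 : ‖w.1‖ ≤ K * (K₀ * (2 * ε)) := (norm_fst_le w).trans (w1.trans (by gcongr))
  obtain ⟨a1, a2⟩ := C.loc H hm (t := 0) (y := 0) hf' hf (by simpa using rp) x1
    (by rw [C.fu_zero, C.Ps_zero H hf', e])
  obtain ⟨-, a3⟩ := C.loc H hm (t := 0) hf' hf (w3.trans_lt e6) x2 (by rw [C.fu_zero, w2])
  obtain ⟨c1, c2⟩ := (hL f' f 0 hf' hf (by
    have := h₀ x y x1 hy (b x hx).2 (by simp)
    have := mul_le_mul_of_nonneg_left (mem_ball_iff_norm.1 hx).le K0.le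
    have := C.du_triangle H.a_pos.le (C.Ps f x) (C.Ps f y) (bv f)
    have := C.dd_le_du (bv f') (bv f)
    rw [e] at this
    refine le_trans (by rw [← e]; rfl) (this.trans (by linarith))) a1 (by simp [r1.le.trans' (norm_nonneg _)])
    (by rw [← Prod.fst_zero (N := ℝ), ← C.Lt_fst f' f 0, a2]; exact (b x hx).1)).2 0
    (mem_ball_self r0) w.1 (mem_ball_zero_iff.2 (w3.trans_lt e5))
  rw [zero_sub, norm_neg] at c1 c2
  have w4 := mul_le_mul_of_nonneg_left (norm_fst_le w) (zero_le_one.trans L1)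
  have c3 : ‖x - x'‖ ≤ (1 + L) * ‖w‖ := by
    rw [← a2, ← a3]
    refine norm_prod_le_iff.2 ⟨c1.trans (by linarith [norm_nonneg w]), ?_⟩
    have := abs_le.1 (norm_snd_le w)
    have := abs_le.1 c2
    simp only [Lt, Prod.snd_sub, Prod.snd_zero, Prod.fst_zero, Real.norm_eq_abs, abs_le]
    constructor <;> linarith
  refine c3.trans ((mul_le_mul_of_nonneg_left w1 (by positivity)).trans ?_)
  rw [← mul_assoc]
  exact mul_le_mul_of_nonneg_right (le_max_right _ _) (C.du_nonneg _ _)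

/-- LOC; `Q` = any property of the returns between points of `O` -/
lemma loc_Ps (hf : C.Frm f) (hg : C.Deck g) {O : Set (ZZ m)} (hO : IsOpen O) (hW : O ⊆ (C.pd f).W)
    (hy : y.1 ∈ O) (hy' : y'.1 ∈ O) (h : C.mv g t (C.Ps f y) = C.Ps f y') :
    ∃ h : ZL m → ZL m, ContDiffAt ℝ ∞ h y ∧ h y = y' ∧ ∀ᶠ x in 𝓝 y, x.1 ∈ O ∧ (h x).1 ∈ O ∧
      C.mv g t (C.Ps f x) = C.Ps f (h x) ∧
      (∀ v w, NB.pull (omL m) (fderiv ℝ h x v) (fderiv ℝ h x w) = NB.pull (omL m) v w) ∧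
      ∀ (F : Type) [NormedAddCommGroup F] [NormedSpace ℝ F] (io : ZZ m → F →L[ℝ] ZZ m),
        (∀ z ∈ O, ∀ T, (C.pd f).R z T false → T z ∈ O → ∀ b, ∃ b',
          fderiv ℝ T z (io z b) = io (T z) b') →
        NB.Rg (fderiv ℝ h x) (lif x.1 ∘L io x.1) (lif (h x).1 ∘L io (h x).1) := by
  obtain ⟨k, hk, e1, e2⟩ := hg.inv C
  have hf' := hf.fg C hk
  obtain ⟨a1, a2⟩ := C.loc_mv H hm hf hf hk e1 (mem_ball_zero_iff.1 (hW hy))
    (mem_ball_zero_iff.1 (hW hy')) h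
  have c := C.contDiffAt_Lt H hm hf hf' a1 t
  refine ⟨_, c, a2, ?_⟩
  filter_upwards [C.ev_dmL H hm hf hf' a1, continuous_fst.continuousAt.eventually (hO.mem_nhds hy),
    (continuous_fst.continuousAt.comp c.continuousAt).eventually
      (hO.mem_nhds (show (C.Lt _ _ _ y).1 ∈ O from a2.symm ▸ hy'))] with x b1 b2 b3
  refine ⟨b2, b3, ?_, fun v w => ?_, fun F _ _ io hio b => ?_⟩
  · rw [mv_eq, ← C.Ps_Lt H hm hf hf' b1, C.Ps_fg H hf hk (C.Dm_lt H hm hf (C.norm_Lt H hm hf' b1 t)),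
      dg_inv e2]
  · simpa [NB.pull, C.fderiv_Lt H hm hf hf' b1] using C.om_Tf H hm hf hf' b1 v.1 w.1
  · obtain ⟨b', hb⟩ := hio _ b2 (C.Tf f (fg k f)) ⟨k, hk, b1, EventuallyEq.rfl⟩ b3 b
    exact ⟨b', by
      rw [ContinuousLinearMap.comp_apply, C.fderiv_Lt_lif H hm hf hf' b1, hb]; rfl⟩

end Crest.Agent.N221.Cov
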