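import Crest.Agent.N221.Ni.Defs
import Crest.Agent.N221.C.Two

/-! Row 221, block Ni (helper93): `flS : FlS`. -/

set_option autoImplicit false

open Set Filter Topology Metric
open Crest.GeometryTopology.Submanifold
open Crest.Agent.R241.DDefs Crest.Agent.R241.D2
open Crest.Agent.R208.J Crest.Agent.R208.L

noncomputable section

namespace Crest.Agent.N221

namespace Cov.Fl

variable {n N : ℕ} {a : ℝ} {S : Set (Euc N)} {G : Geo n N (-(a ^ 2)) S} (C : Cov G)
  {p q : Euc n × Euc N}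

lemma dd_le (p q : Euc n × Euc N) : C.dd p.1 q.1 ≤ C.du p q := le_max_left _ _
lemma nm_le (p q : Euc n × Euc N) : ‖p.2 - q.2‖ ≤ C.du p q := le_max_right _ _
lemma nn (p q : Euc n × Euc N) : 0 ≤ C.du p q := (norm_nonneg _).trans (nm_le C p q)

lemma un (hp : C.Un p.1 p.2) (t : ℝ) : C.Un (C.fu t p).1 (C.fu t p).2 := hp.vel C t

lemma add (hp : C.Un p.1 p.2) (s t : ℝ) : C.fu t (C.fu s p) = C.fu (s + t) p :=
  Prod.ext (C.gd_add (hp.mem C) s t) (C.vel_add (hp.mem C) s t)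

lemma zero (p : Euc n × Euc N) : C.fu 0 p = p := Prod.ext (C.gd_zero _ _) (C.vel_zero _ _)

variable (H : Hyp n N a S)
include H

/-- `du` is controlled by two positions -/
lemma up : ∃ K : ℝ, 1 ≤ K ∧ ∀ p q : Euc n × Euc N, C.Un p.1 p.2 → C.Un q.1 q.2 → ∀ t B : ℝ,
    C.dd (C.gd p.1 p.2 t) (C.gd q.1 q.2 t) ≤ B →
    C.dd (C.gd p.1 p.2 (t + 1)) (C.gd q.1 q.2 (t + 1)) ≤ B →
    C.du (C.fu t p) (C.fu t q) ≤ K * B := by
  obtain ⟨K, K0, h⟩ := C.up_close H
  refine ⟨2 * K + 1, by linarith, fun p q hp hq t B h1 h2 => ?_⟩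
  have B0 : 0 ≤ B := (C.dd_nonneg _ _).trans h1
  have h3 := (le_max_right _ _).trans (h _ _ _ _ (hp.vel C t) (hq.vel C t) 1 (Or.inl rfl))
  rw [C.gd_add (hp.mem C), C.gd_add (hq.mem C), dist_eq_norm] at h3
  refine max_le (h1.trans (by nlinarith)) (h3.trans ?_)
  nlinarith [mul_le_mul_of_nonneg_left (add_le_add h1 h2) K0.le]

lemma short : ∃ K : ℝ, 1 ≤ K ∧ ∀ p q : Euc n × Euc N, C.Un p.1 p.2 → C.Un q.1 q.2 → ∀ t : ℝ,
    |t| ≤ 1 → C.du (C.fu t p) (C.fu t q) ≤ K * C.du p q := by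
  have ha := H.a_pos.le
  obtain ⟨K, K0, h⟩ := C.gd_close H 2
  obtain ⟨K', K1, h'⟩ := up C H
  refine ⟨K' * (2 * K + 3), by nlinarith, fun p q hp hq t ht => ?_⟩
  have key : ∀ s : ℝ, |s| ≤ 2 →
      C.dd (C.gd p.1 p.2 s) (C.gd q.1 q.2 s) ≤ (2 * K + 3) * C.du p q := fun s hs => by
    have a1 := dd_le C p q; have a2 := nm_le C p q; have a3 := nn C p q
    by_cases hd : C.dd p.1 q.1 ≤ 2
    · refine (h _ _ _ _ hp hq hd s hs).trans ?_
      nlinarith [mul_le_mul_of_nonneg_left (add_le_add a1 a2) K0.le]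
    · have b1 := C.dd_triangle ha (C.gd p.1 p.2 s) p.1 (C.gd q.1 q.2 s)
      have b2 := C.dd_triangle ha p.1 q.1 (C.gd q.1 q.2 s)
      rw [C.dd_comm _ p.1, hp.dd_gd_zero] at b1
      rw [hq.dd_gd_zero] at b2
      nlinarith [mul_nonneg K0.le a3]
  rw [mul_assoc]
  exact h' p q hp hq t _ (key t (by linarith)) (key _ ((abs_add_le _ _).trans (by
    rw [abs_one]; linarith)))

lemma long : ∃ K Λ : ℝ, 1 ≤ K ∧ 0 < Λ ∧ ∀ p q : Euc n × Euc N, C.Un p.1 p.2 → C.Un q.1 q.2 →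
    ∀ t, C.du (C.fu t p) (C.fu t q) ≤ K * Real.exp (Λ * |t|) * C.du p q := by
  obtain ⟨K, K1, h⟩ := short C H
  have l0 := Real.log_nonneg K1
  refine ⟨K, Real.log K + 1, K1, by linarith, fun p q hp hq t => ?_⟩
  have key : ∀ (k : ℕ) (t : ℝ), |t| ≤ k → C.du (C.fu t p) (C.fu t q) ≤ K ^ k * C.du p q := by
    intro k
    induction k with
    | zero => intro t ht; rw [Nat.cast_zero, abs_nonpos_iff] at ht; simp [ht, zero]
    | succ k ih =>
      intro t ht
      have k0 : (0 : ℝ) < k + 1 := by positivity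
      have e : t = k * (t / (k + 1)) + t / (k + 1) := by field_simp
      have h1 : |t / (k + 1)| ≤ 1 := by
        rw [abs_div, abs_of_pos k0, div_le_one k0]; exact_mod_cast ht
      rw [e, ← add C hp, ← add C hq, pow_succ', mul_assoc]
      refine (h _ _ (un C hp _) (un C hq _) _ h1).trans (mul_le_mul_of_nonneg_left (ih _ ?_)
        (by linarith))
      rw [abs_mul, Nat.abs_cast]
      exact mul_le_of_le_one_right k.cast_nonneg h1
  refine (key _ t (Nat.le_ceil _)).trans (mul_le_mul_of_nonneg_right ?_ (nn C p q))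
  have h1 := (Nat.ceil_lt_add_one (abs_nonneg t)).le
  calc K ^ ⌈|t|⌉₊ = Real.exp (Real.log K * ⌈|t|⌉₊) := by
        rw [mul_comm, Real.exp_nat_mul, Real.exp_log (by linarith)]
    _ ≤ Real.exp (Real.log K + (Real.log K + 1) * |t|) := by
        refine Real.exp_le_exp.2 ?_
        nlinarith [mul_le_mul_of_nonneg_left h1 l0, abs_nonneg t]
    _ = _ := by rw [Real.exp_add, Real.exp_log (by linarith)]

lemma ss : ∃ K : ℝ, 1 ≤ K ∧ ∀ p q : Euc n × Euc N, C.Un p.1 p.2 → C.Un q.1 q.2 → C.Sss p q →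
    C.du p q ≤ 1 → ∀ t, 0 ≤ t →
      C.du (C.fu t p) (C.fu t q) ≤ K * Real.exp (-(a * t)) * C.du p q := by
  have ha := H.a_pos
  obtain ⟨K, K1, h⟩ := up C H
  have e1 := Real.one_le_exp ha.le
  refine ⟨K * (2 * Real.exp a), by nlinarith, fun p q hp hq hs hd t ht => ?_⟩
  have h1 : C.asy p.1 p.2 q.1 = q.2 := by rw [← C.W_ep ha hp, ← hs.1, C.W_ep_self ha hq]
  have h2 : C.bus p.1 p.2 q.1 = 0 := by
    have a1 := hs.2
    have a2 := C.bus_gd ha hp 0
    rw [C.gd_zero] at a2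
    rw [C.b_ep ha hp, C.b_ep ha hp] at a1
    linarith
  have key : ∀ s, t ≤ s → C.dd (C.gd p.1 p.2 s) (C.gd q.1 q.2 s) ≤
      2 * Real.exp a * Real.exp (-(a * t)) * C.du p q := fun s hs => by
    have a1 := C.asy_tail ha hp q.1 (ht.trans hs)
    rw [h1, h2, sub_zero, C.dd_comm] at a1
    have d0 := C.dd_nonneg p.1 q.1
    have a2 := Tw.sinh_le ha d0 ((dd_le C p q).trans hd)
    have a3 := dd_le C p q
    calc _ ≤ 2 / a * Real.exp (-(a * t)) * (a * Real.exp a * C.du p q) := by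
          refine a1.trans ?_
          have : 0 ≤ Real.sinh (a * C.dd p.1 q.1) := Real.sinh_nonneg_iff.2 (by positivity)
          gcongr
          exact a2.trans (by gcongr)
      _ = _ := by field_simp
  refine (h p q hp hq t _ (key t le_rfl) (key _ (by linarith))).trans_eq (by ring)

end Cov.Fl

open Cov Cov.Fl in
theorem flS : FlS := by
  intro n N a S G C H
  obtain ⟨K, Λ, K1, hΛ, h⟩ := long C H
  obtain ⟨K', K1', h'⟩ := ss C H
  refine ⟨max K K', Λ, le_max_of_le_left K1, hΛ, fun p q hp hq => ⟨fun t => (h p q hp hq t).trans ?_,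
    fun hs hd t ht => (h' p q hp hq hs hd t ht).trans ?_, fun hs hd t ht => ?_⟩⟩
  · have := nn C p q; gcongr; exact le_max_left _ _
  · have := nn C p q; gcongr; exact le_max_right _ _
  · have e : ∀ p q : Euc n × Euc N, C.du (p.1, -p.2) (q.1, -q.2) = C.du p q := fun p q => by
      simp only [du, neg_sub_neg, norm_sub_rev q.2]
    have e' : ∀ p : Euc n × Euc N, C.Un p.1 p.2 →
        C.fu t (p.1, -p.2) = ((C.fu (-t) p).1, -(C.fu (-t) p).2) := fun p hp =>
      Prod.ext (C.gd_neg _ _ _) (C.vel_neg (hp.mem C) _)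
    have := h' (p.1, -p.2) (q.1, -q.2) (hp.neg C) (hq.neg C) hs (by rwa [e]) t ht
    rw [e' p hp, e' q hq, e, e] at this
    refine this.trans ?_
    have := nn C p q; gcongr; exact le_max_right _ _

end Crest.Agent.N221
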