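import Crest.Agent.N221.NB.Stay
import Crest.Agent.N221.Ni.Bas
import Crest.Agent.N221.Dy.Sp

/-! Row 221, Ni (helper50): the fields `leaf`, `per`, `trv` of `NB.Box` on the real objects. -/

set_option autoImplicit false

open Set Filter Topology Metric
open scoped ContDiff RealInnerProductSpace
open Crest.GeometryTopology.Submanifold
open Crest.Agent.R241.DDefs Crest.Agent.R241.D2
open Crest.Agent.R208.J Crest.Agent.R208.L

noncomputable section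

namespace Crest.Agent.N221

lemma hd_fst {A B : Type} [NormedAddCommGroup A] [NormedSpace ℝ A] [NormedAddCommGroup B]
    [NormedSpace ℝ B] {x : ℝ → A × B} {w : A × B} {t : ℝ} (h : HasDerivAt x w t) :
    HasDerivAt (fun t => (x t).1) w.1 t := (ContinuousLinearMap.fst ℝ A B).hasFDerivAt.comp_hasDerivAt t h

lemma hd_snd {A B : Type} [NormedAddCommGroup A] [NormedSpace ℝ A] [NormedAddCommGroup B]
    [NormedSpace ℝ B] {x : ℝ → A × B} {w : A × B} {t : ℝ} (h : HasDerivAt x w t) :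
    HasDerivAt (fun t => (x t).2) w.2 t := (ContinuousLinearMap.snd ℝ A B).hasFDerivAt.comp_hasDerivAt t h

namespace Cov

variable {n N m : ℕ} {a : ℝ} {S : Set (Euc N)} {G : Geo n N (-(a ^ 2)) S} (C : Cov G)
variable {f : FF n N m} {F : Type} [NormedAddCommGroup F] [NormedSpace ℝ F]
  {io : ZZ m → F →L[ℝ] ZZ m} {O : Set (ZZ m)} {c : ℝ → ZZ m} {σ : ℝ → ℝ} {v : ℝ → F} {s t : ℝ}
variable (H : Hyp n N a S) (hm : m + 1 = n)
include H hm

/-- a curve driven by a `C¹` frame of `E^s` vectors keeps its forward end point -/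
lemma stay_s (hf : C.Frm f) (hO : IsOpen O) (hW : O ⊆ ball 0 (C.rr m)) (hio : ContDiffOn ℝ 1 io O)
    (hE : ∀ z ∈ O, ∀ g, (io z g).2 = C.Ss f z (io z g).1) (hc : ContinuousOn c (Icc s t))
    (hv : ContinuousOn v (Icc s t)) (hcO : ∀ τ ∈ Icc s t, c τ ∈ O)
    (hd : ∀ τ ∈ Ico s t, HasDerivWithinAt c (io (c τ) (v τ)) (Ici τ) τ) :
    ∀ τ ∈ Icc s t, (C.ge f (c τ)).1 = (C.ge f (c s)).1 := by
  intro τ hτ
  have r := C.rr_pos H hm
  have b : ∀ z ∈ O, ‖z‖ ≤ 2 * C.rr m := fun z hz => by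
    linarith [mem_ball_zero_iff.1 (hW hz)]
  have s0 := hcO s ⟨le_rfl, hτ.1.trans hτ.2⟩
  have fw := (C.rad H hm).front f hf _ (b _ s0)
  have d := C.contDiff_pq H (bas_ne0 fw.1) f
  have h := NB.stay_gr (F := C.pq f (C.ge f (c s)).1) (d.of_le (by norm_cast)) hc hv hd
    (fun τ hτ h => ?_) (congrArg Prod.snd (C.eq_gs H hf (C.Dm_of_le H hm hf (b _ s0)))).symm τ hτ
  · have h1 := (C.ge_gs H hm hf fw ((norm_fst_le _).trans (b _ (hcO τ hτ)))).2.2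
    rwa [gs, ← h] at h1
  · have h1 := hcO τ (Ico_subset_Icc_self hτ)
    refine ⟨hio.contDiffAt (hO.mem_nhds h1), ?_⟩
    have h2 : ∀ᶠ q in 𝓝 (c τ).1, (q, C.pq f (C.ge f (c s)).1 q) ∈ O :=
      (continuous_id.prodMk d.continuous).continuousAt.eventually (hO.mem_nhds (by
        simpa only [id, ← h] using h1))
    filter_upwards [h2] with q hq g
    rw [hE _ hq, Ss]
    exact congrArg (fun ξ => C.HH f ξ q _)
      (C.ge_gs H hm hf fw ((norm_fst_le (q, _)).trans (b _ hq))).2.2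

/-- the lifted curve `(c, σ)`, `σ' = -⟪p, q'⟫`, keeps the Busemann level of `φ_σ (hy, uv)` -/
lemma stay_lev (hf : C.Frm f) (hO : IsOpen O) (hW : O ⊆ ball 0 (C.rr m))
    (hio : ContDiffOn ℝ 1 io O) (hE : ∀ z ∈ O, ∀ g, (io z g).2 = C.Ss f z (io z g).1)
    (hc : ContinuousOn c (Icc s t)) (hv : ContinuousOn v (Icc s t)) (hcO : ∀ τ ∈ Icc s t, c τ ∈ O)
    (hd : ∀ τ ∈ Ico s t, HasDerivWithinAt c (io (c τ) (v τ)) (Ici τ) τ)
    (hσ : ContinuousOn σ (Icc s t))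
    (hd' : ∀ τ ∈ Ico s t, HasDerivWithinAt σ (-⟪(c τ).2, (io (c τ) (v τ)).1⟫) (Ici τ) τ) :
    ∀ τ ∈ Icc s t, σ τ + C.bq f (C.ge f (c s)).1 (c τ).1 =
      σ s + C.bq f (C.ge f (c s)).1 (c s).1 := by
  intro τ hτ
  have h := C.stay_s H hm hf hO hW hio hE hc hv hcO hd
  have d : ∀ τ ∈ Icc s t, c τ ∈ C.Dm f := fun τ hτ =>
    C.Dm_lt H hm hf (mem_ball_zero_iff.1 (hW (hcO τ hτ)))
  have x0 := bas_ne0 (C.ge_GG H hf (d s ⟨le_rfl, hτ.1.trans hτ.2⟩)).1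
  have h1 := constant_of_has_deriv_right_zero (f := fun τ => C.bq f (C.ge f (c s)).1 (c τ).1 + σ τ)
    (((C.contDiff_bq H x0 f).continuous.comp_continuousOn hc.fst).add hσ) (fun τ hτ => by
      have h2 := ((C.hasFDerivAt_bq H x0 f (c τ).1).comp (c τ)
        (hasFDerivAt_fst (𝕜 := ℝ))).comp_hasDerivWithinAt τ (hd τ hτ)
      have h3 := congrArg Prod.snd (C.eq_gs H hf (d τ (Ico_subset_Icc_self hτ)))
      rw [h τ (Ico_subset_Icc_self hτ)] at h3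
      refine (h2.add (hd' τ hτ)).congr_deriv ?_
      rw [← h3]; exact add_neg_cancel _) τ hτ
  linarith

/-- LEAF -/
lemma leaf_Ps (hf : C.Frm f) (hO : IsOpen O) (hW : O ⊆ (C.pd f).W) (hio : ContDiffOn ℝ ∞ io O)
    (hE : ∀ z ∈ O, ∀ g, io z g ∈ (C.pd f).E false z) {x : ℝ → ZL m} {g : F}
    (hx : ∀ t ∈ Icc (0 : ℝ) 1, (x t).1 ∈ O ∧ HasDerivAt x (lif (x t).1 (io (x t).1 g)) t) :
    C.Sss (C.Ps f (x 0)) (C.Ps f (x 1)) := by
  have hc : ContinuousOn x (Icc 0 1) := fun t ht => (hx t ht).2.continuousAt.continuousWithinAt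
  have d : ∀ t ∈ Icc (0 : ℝ) 1, (x t).1 ∈ C.Dm f := fun t ht =>
    C.Dm_lt H hm hf (mem_ball_zero_iff.1 (hW (hx t ht).1))
  have h1 : ∀ τ ∈ Ico (0 : ℝ) 1,
      HasDerivWithinAt (fun t => (x t).1) (io (x τ).1 g) (Ici τ) τ := fun τ hτ =>
    (hd_fst (hx τ (Ico_subset_Icc_self hτ)).2).hasDerivWithinAt
  have hio' := hio.of_le (m := 1) (by norm_cast)
  have e1 := C.stay_s H hm hf hO hW hio' hE hc.fst continuousOn_const (fun t ht => (hx t ht).1) h1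
    1 ⟨zero_le_one, le_rfl⟩
  have e2 := C.stay_lev H hm hf hO hW hio' hE hc.fst continuousOn_const (fun t ht => (hx t ht).1) h1
    hc.snd (fun τ hτ => (hd_snd (hx τ (Ico_subset_Icc_self hτ)).2).hasDerivWithinAt) 1 ⟨zero_le_one, le_rfl⟩
  exact (C.sss_iff H hf (d 0 ⟨le_rfl, zero_le_one⟩) (d 1 ⟨zero_le_one, le_rfl⟩)).2 ⟨e1, e2⟩

/-- PER -/
lemma per_Ps (hf : C.Frm f) (hO : IsOpen O) (hne : O.Nonempty) (hW : O ⊆ (C.pd f).W) :
    ∃ z₀ ∈ O, ∃ (γ : Euc n → Euc n) (l : ℝ), C.Deck γ ∧ 0 < l ∧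
      C.mv γ l (C.Ps f (z₀, 0)) = C.Ps f (z₀, 0) := by
  obtain ⟨z, hz⟩ := hne
  obtain ⟨z₀, h1, -, g, l, h⟩ := C.per_ch H hm hf (mem_ball_zero_iff.1 (hW hz)) (hO.mem_nhds hz)
  obtain ⟨k, hk, e, -⟩ := h.deck.inv C
  refine ⟨z₀, h1, k, l, hk, h.pos, ?_⟩
  simp only [Ps, fu, mv, C.gd_zero, C.vel_zero, ← h.eq, h.vel, e]

/-- TRV -/
lemma trv_Ps (hf : C.Frm f) {z₀ w : ZZ m} (hz : z₀ ∈ (C.pd f).W) (hw : w ∈ (C.pd f).E true z₀)
    (h0 : w ≠ 0) {x : ℝ → ZL m} {σ₀ σ' : ℝ} (hx : x 0 = (z₀, σ₀)) (hd : HasDerivAt x (w, σ') 0) :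
    ∃ᶠ t in 𝓝[>] (0 : ℝ), C.ep (C.Ps f (x t)).1 (C.Ps f (x t)).2 ≠
      C.ep (C.Ps f (z₀, σ₀)).1 (C.Ps f (z₀, σ₀)).2 := by
  intro h
  have r := C.rr_pos H hm
  have b : ‖z₀‖ ≤ 2 * C.rr m := by linarith [mem_ball_zero_iff.1 hz]
  have d := C.Dm_of_le H hm hf b
  have h1 : HasDerivAt (fun t => (x t).1) w 0 := hd_fst hd
  have x0 : (x 0).1 = z₀ := by rw [hx]
  have h2 : (fun t => (x t).1.2) =ᶠ[𝓝[>] 0] fun t => C.pq f (C.ge f z₀).1 (x t).1.1 := by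
    filter_upwards [h, mem_nhdsWithin_of_mem_nhds (h1.continuousAt.eventually
      ((C.isOpen_Dm H hf).mem_nhds (show (x 0).1 ∈ _ from x0.symm ▸ d)))] with t h2 h3
    rw [not_not, C.ep_Ps H hf h3, C.ep_Ps H hf (y := (z₀, σ₀)) d] at h2
    rw [← h2]
    exact (congrArg Prod.snd (C.eq_gs H hf h3)).symm
  have h3 := ((C.hasFDerivAt_pq H (bas_ne0 (C.ge_GG H hf d).1) f (x 0).1.1).comp_hasDerivAt 0
    (hd_fst h1)).hasDerivWithinAt (s := Ioi 0)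
  have h4 := (uniqueDiffWithinAt_Ioi (0 : ℝ)).eq_deriv _ (h3.congr_of_eventuallyEq h2 (by
    simp only [Function.comp, x0]; exact (congrArg Prod.snd (C.eq_gs H hf d)).symm))
    (hd_snd h1).hasDerivWithinAt
  have h5 : w.2 = -C.HH f (C.ge f z₀).2 z₀.1 w.1 := hw
  have h6 := (C.rad H hm).neg f hf _ ((C.rad H hm).front f hf _ b) _ ((norm_fst_le _).trans b) w.1
  have h7 := (C.rad H hm).neg _ (hf.fp C) _ (C.back H hm hf b) _ ((norm_fst_le _).trans b) w.1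
  rw [x0] at h4
  rw [show C.HH f (C.ge f z₀).1 z₀.1 w.1 = w.2 from h4, h5, inner_neg_left] at h6
  rw [C.HH_fp] at h7
  have h8 : w.1 = 0 := norm_eq_zero.1 (pow_eq_zero_iff two_ne_zero |>.1 (by
    nlinarith [H.a_pos, sq_nonneg ‖w.1‖]))
  exact h0 (Prod.ext h8 (by rw [h5, h8, map_zero, neg_zero]; rfl))

end Cov

end Crest.Agent.N221
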