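import Crest.Agent.N221.Ni.Fl
import Crest.Agent.N221.Dy.Hol

/-! Row 221, block Ni (helper93): `psS : PsS`. -/

set_option autoImplicit false

open Set Filter Topology Metric
open Crest.GeometryTopology.Submanifold
open Crest.Agent.R241.DDefs Crest.Agent.R241.D2
open Crest.Agent.R208.J Crest.Agent.R208.L

noncomputable section

namespace Crest.Agent.N221

namespace Cov.Fl

variable {n N m : ℕ} {a : ℝ} {S : Set (Euc N)} {G : Geo n N (-(a ^ 2)) S} (C : Cov G)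
  (H : Hyp n N a S)
include H

lemma tri (p q r : Euc n × Euc N) : C.du p r ≤ C.du p q + C.du q r :=
  max_le ((C.dd_triangle H.a_pos.le _ q.1 _).trans (add_le_add (dd_le C p q) (dd_le C q r)))
    ((norm_sub_le_norm_sub_add_norm_sub _ q.2 _).trans (add_le_add (nm_le C p q) (nm_le C q r)))

/-- the flow is Lipschitz in the time -/
lemma time : ∃ K : ℝ, 1 ≤ K ∧ ∀ p : Euc n × Euc N, C.Un p.1 p.2 → ∀ s t : ℝ,
    C.du (C.fu s p) (C.fu t p) ≤ K * |s - t| := by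
  obtain ⟨K, K1, h⟩ := up C H
  refine ⟨K, K1, fun p hp s t => ?_⟩
  have := h (C.fu s p) (C.fu t p) (un C hp s) (un C hp t) 0 |s - t| (by
    rw [C.gd_zero, C.gd_zero, abs_sub_comm]; exact (hp.dd_gd C s t).le) (by
    change C.dd (C.fu (0 + 1) (C.fu s p)).1 (C.fu (0 + 1) (C.fu t p)).1 ≤ _
    rw [add C hp, add C hp, abs_sub_comm]
    exact (hp.dd_gd C _ _).trans_le (by ring_nf; rfl))
  rwa [zero, zero] at this

lemma hy_lip (hm : m + 1 = n) {f : FF n N m} (hf : C.Frm f) {q q' : Euc m}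
    (hq : ‖q‖ ≤ 2 * C.rr m) (hq' : ‖q'‖ ≤ 2 * C.rr m) :
    C.dd (C.hy f q) (C.hy f q') ≤ 2 * ‖q - q'‖ := by
  have hd : ∀ u : ℝ, HasDerivAt (fun u : ℝ => q + u • (q' - q)) (q' - q) u := fun u => by
    simpa using ((hasDerivAt_id u).smul_const (q' - q)).const_add q
  have := C.dd_le_of_deriv H.a_pos.le (c := fun u : ℝ => C.hy f (q + u • (q' - q)))
    (c' := fun u => fderiv ℝ (C.hy f) (q + u • (q' - q)) (q' - q)) (L := 2 * ‖q - q'‖) zero_le_one
    (fun u _ => (((C.contDiff_hy' f).differentiable (by simp) _).hasFDerivAt.comp_hasDerivAt u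
      (hd u)).hasDerivWithinAt) fun u hu => by
      have h1 : ‖q + u • (q' - q)‖ ≤ 2 * C.rr m := mem_closedBall_zero_iff.1
        ((convex_closedBall (0 : Euc m) _).add_smul_sub_mem (mem_closedBall_zero_iff.2 hq)
          (mem_closedBall_zero_iff.2 hq') hu)
      have h2 := (C.Jh f (q + u • (q' - q))).le_of_opNorm_le ((C.rad H hm).J_le f hf _ h1) (q' - q)
      rw [C.Jh_eq, norm_sub_rev q'] at h2
      exact h2
  simpa using this

end Cov.Fl

open Cov Cov.Fl in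
theorem psS : PsS := by
  intro n N m a S G C H hm
  obtain ⟨K1, h1, a1⟩ := short C H
  obtain ⟨K2, h2, a2⟩ := time C H
  obtain ⟨K3, h3, a3⟩ := C.uv_lip H hm
  obtain ⟨K4, δ, h4, hδ, a4⟩ := C.near_chart H hm
  have r0 := C.rr_pos H hm
  refine ⟨K2 + K1 * (K3 + 2) + K4, δ, by nlinarith, hδ, fun f hf =>
    ⟨fun y y' hy hy' hs hs' => ?_, fun p hp hd => ?_⟩⟩
  · have b1 : ‖y.1‖ ≤ 2 * C.rr m := by linarith
    have b2 : ‖y'.1‖ ≤ 2 * C.rr m := by linarith
    have u1 := C.un_uv H hf (C.Dm_of_le H hm hf b1)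
    have u2 := C.un_uv H hf (C.Dm_of_le H hm hf b2)
    have n0 := norm_nonneg (y - y')
    have n1 : ‖y.1 - y'.1‖ ≤ ‖y - y'‖ := norm_fst_le (y - y')
    have n2 : |y.2 - y'.2| ≤ ‖y - y'‖ := norm_snd_le (y - y')
    have n3 : ‖y.1.1 - y'.1.1‖ ≤ ‖y.1 - y'.1‖ := norm_fst_le (y.1 - y'.1)
    have c1 := a2 (C.hy f y.1.1, C.uv f y.1) u1 y.2 y'.2
    have c2 := a1 (C.hy f y.1.1, C.uv f y.1) (C.hy f y'.1.1, C.uv f y'.1) u1 u2 y'.2 hs'
    have c3 : C.du (C.hy f y.1.1, C.uv f y.1) (C.hy f y'.1.1, C.uv f y'.1) ≤ (K3 + 2) * ‖y - y'‖ :=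
      max_le ((hy_lip C H hm hf ((norm_fst_le _).trans b1) ((norm_fst_le _).trans b2)).trans
        (by nlinarith)) ((a3 f _ _ hf b1 b2).trans (by nlinarith))
    refine (tri C H _ _ _).trans ((add_le_add c1 c2).trans ?_)
    nlinarith [mul_le_mul_of_nonneg_left c3 (zero_le_one.trans h1),
      mul_le_mul_of_nonneg_left n2 (zero_le_one.trans h2)]
  · obtain ⟨z, t, b1, b2, b3, b4⟩ := a4 f p.1 p.2 _ hf hp hd (dd_le C (bv f) p)
      ((norm_sub_rev _ _).trans_le (nm_le C (bv f) p))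
    have n0 := nn C (bv f) p
    have e : K4 * C.du (bv f) p ≤ (K2 + K1 * (K3 + 2) + K4) * C.du (bv f) p :=
      mul_le_mul_of_nonneg_right (by nlinarith) n0
    refine ⟨(z, -t), max_le (b1.trans e) (by simpa using b2.trans e), ?_⟩
    have : (C.hy f z.1, C.uv f z) = C.fu t p := Prod.ext b3 b4
    rw [Ps, this, add C hp, add_neg_cancel, zero]

end Crest.Agent.N221
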