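import Crest.Agent.N221.Ni.Gl1
import Crest.Agent.N221.Ni.Bx
import Crest.Agent.N221.Ni.Lf
import Crest.Agent.N221.Ni.Fl
import Crest.Agent.N221.Ni.Ps
import Crest.Agent.N221.NB.Lift

/-! Row 221, block Ni (helper34): the flow box `NB.Box` on the real objects, and `NpS`. -/

set_option autoImplicit false
set_option linter.unusedSectionVars false
set_option linter.unusedVariables false
set_option maxSynthPendingDepth 3

open Set Filter Topology Metric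
open scoped ContDiff RealInnerProductSpace
open Crest.GeometryTopology.Submanifold
open Crest.Agent.R241.DDefs Crest.Agent.R241.D2
open Crest.Agent.R208.J Crest.Agent.R208.L

noncomputable section

namespace Crest.Agent.N221

namespace Cov

variable {n N m : ℕ} {a : ℝ} {S : Set (Euc N)} {G : Geo n N (-(a ^ 2)) S} {C : Cov G}
variable {f : FF n N m} {U : Set (ZZ m)} {r k l : ℕ} {io : ZZ m → (Fin r → ℝ) →L[ℝ] ZZ m}
  {ze : ZZ m → (Fin k → ℝ) →L[ℝ] ZZ m} {nu : ZZ m → (Fin l → ℝ) →L[ℝ] ZZ m} {z0 : ZZ m}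

lemma frs_lt (hF : (C.pd f).Frs U io ze nu) {y : ZL m} (hy : y ∈ U ×ˢ (univ : Set ℝ)) :
    ‖y.1‖ < C.rr m := mem_ball_zero_iff.1 (hF.sub hy.1)

/-- the field `pol` -/
lemma pol_of (hP : PolyS) (H : Hyp n N a S) (hm : m + 1 = n) (hf : C.Frm f)
    (hF : (C.pd f).Frs U io ze nu) (hz : z0 ∈ U) :
    NB.Pol (C.dat H) (U ×ˢ univ) (lX nu) (PsiU H hf) (z0, 0) := by
  obtain ⟨ρ, ρ0, h⟩ := hP n N m a S G C f z0 H hm hf (mem_ball_zero_iff.1 (hF.sub hz))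
  refine ⟨ρ, ρ0, fun r hr hU τ₀ c₁ g K ε b h1 h2 h3 h4 h5 => ?_⟩
  have hU' : closedBall z0 r ⊆ U := fun z hz =>
    (hU (show (z, (0 : ℝ)) ∈ closedBall (z0, (0 : ℝ)) r by
      rw [mem_closedBall, Prod.dist_eq, dist_self]
      exact max_le hz (dist_nonneg.trans hz))).1
  obtain ⟨T0, hT⟩ := h l nu U r hr hF.op hU' hF.snu hF.inu hF.nu_E hF.mnu τ₀ c₁ g K ε b h1 h2 h3
    h4 h5
  refine ⟨T0, fun T hT0 j F t c e z hj hi hl => ?_⟩
  have ex : ∀ i, ∃ γ : Euc n → Euc n, i ≤ j → C.Deck γ ∧ ∀ p, (F i p).v = C.mv γ (t i) p.v :=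
    fun i => by
      by_cases h : i ≤ j
      · obtain ⟨γ, hγ⟩ := (hi i h).1
        exact ⟨γ, fun _ => hγ⟩
      · exact ⟨id, fun h' => absurd h' h⟩
  choose γ hγ using ex
  obtain ⟨τ, t1, t2, s, hs⟩ := hT T hT0 j γ t (fun i τ => (c i τ).v) e z hj (fun i hij => by
    obtain ⟨-, a2, a3, a4⟩ := hi i hij
    refine ⟨(hγ i hij).1, a2, fun τ hτ => ?_, fun τ hτ => ?_⟩
    · obtain ⟨b1, b2, b3, b4, b5⟩ := a3 τ hτ
      refine ⟨(c i τ).un, ss_iff.1 b1, b2, ?_, b4, b5⟩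
      rw [← (hγ i hij).2, b3, PsiU_v hm hf (frs_lt hF (hU b2))]
    · obtain ⟨b1, b2⟩ := a4 τ hτ
      exact ⟨b1, by rw [b2, PsiU_v hm hf (frs_lt hF (hU b1))]⟩) hl
  obtain ⟨e', he', h'⟩ := exists_mv (H := H) C.deck_id s
  refine ⟨τ, t1, t2, s, e', he', ?_⟩
  change C.du _ _ ≤ ε
  rw [h', h']
  exact hs

/-- the flow box -/
lemma box_of (H : Hyp n N a S) (hm : m + 1 = n) (hf : C.Frm f) (ok : (C.pd f).Ok)
    (hF : (C.pd f).Frs U io ze nu) (hz : z0 ∈ U)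
    (per : ∃ (γ : Euc n → Euc n) (l : ℝ), C.Deck γ ∧ 0 < l ∧
      C.mv γ l (C.Ps f (z0, 0)) = C.Ps f (z0, 0))
    (pol : NB.Pol (C.dat H) (U ×ˢ univ) (lX nu) (PsiU H hf) (z0, 0)) :
    NB.Box (C.dat H) (NB.pull (omL m)) (U ×ˢ univ) (lX io) (lX ze) (lX nu) (PsiU H hf)
      (z0, 0) := by
  have m0 : ((z0, 0) : ZL m) ∈ U ×ˢ (univ : Set ℝ) := ⟨hz, trivial⟩
  have oU : IsOpen (U ×ˢ (univ : Set ℝ)) := hF.op.prod isOpen_univ
  have pv : ∀ y ∈ U ×ˢ (univ : Set ℝ), (PsiU H hf y).v = C.Ps f y := fun y hy =>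
    PsiU_v hm hf (frs_lt hF hy)
  refine ⟨PD.Frs.lift ok hF, ?_, ?_, m0, ?_, ?_, ?_, ?_, ?_, ?_, ?_, pol⟩
  · haveI : Nonempty (Fin k) := ⟨⟨0, hF.k0⟩⟩
    infer_instance
  · haveI : Nonempty (Fin l) := ⟨⟨0, hF.l0⟩⟩
    infer_instance
  · intro y hy
    refine ContinuousAt.continuousWithinAt (tendsto_iff_dist_tendsto_zero.2 ?_)
    refine (C.cont_Ps H hm flS psS hf (frs_lt hF hy)).congr' ?_
    filter_upwards [oU.mem_nhds hy] with x hx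
    change _ = C.du _ _
    rw [pv x hx, pv y hy]
  · obtain ⟨K, K0, V, hV, h⟩ := C.bil_Ps H hm flS psS hf (frs_lt hF m0)
    refine ⟨K, K0, V ∩ U ×ˢ univ, inter_mem hV (oU.mem_nhds m0), fun x hx x' hx' => ?_⟩
    change C.du _ _ ≤ _ ∧ _ ≤ K * C.du _ _
    rw [pv x hx.2, pv x' hx'.2]
    exact (h x hx.1 x' hx'.1).2
  · intro V hV
    obtain ⟨δ, δ0, h⟩ := C.opn_Ps H hm psS hf (frs_lt hF m0) hV
    refine mem_of_superset (ball_mem_nhds _ δ0) fun p hp => ?_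
    obtain ⟨x, hx, h1, h2⟩ := h p.v p.un (by rw [← pv _ m0]; exact hp)
    exact ⟨x, hx, UV.ext' (by rw [PsiU_v hm hf h1, h2])⟩
  · rintro T e ⟨g, hg, he⟩ y hy y' hy' h
    obtain ⟨φ, h1, h2, h3⟩ := C.loc_Ps H hm (t := T) hf hg hF.op hF.sub hy.1 hy'.1
      (by rw [← pv y hy, ← he, h, pv y' hy'])
    refine ⟨φ, h1, h2, ?_⟩
    filter_upwards [h3] with x ⟨b1, b2, b3, b4, b5⟩
    exact ⟨UV.ext' (by rw [he, pv x ⟨b1, trivial⟩, b3, pv _ ⟨b2, trivial⟩]), b4,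
      b5 _ io hF.mio, b5 _ ze hF.mze⟩
  · intro c g h
    rw [ss_iff, pv _ (h 0 ⟨le_rfl, zero_le_one⟩).1, pv _ (h 1 ⟨zero_le_one, le_rfl⟩).1]
    exact C.leaf_Ps H hm hf hF.op hF.sub hF.sio hF.io_E fun t ht => ⟨(h t ht).1.1, (h t ht).2⟩
  · intro c g g0 c0 hd
    have h := C.trv_Ps H hm hf (hF.sub hz) (hF.nu_E z0 hz g)
      (fun e => g0 (hF.inu z0 hz (by rw [e, map_zero]))) c0 hd
    have ev : ∀ᶠ t in 𝓝[>] (0 : ℝ), c t ∈ U ×ˢ (univ : Set ℝ) :=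
      nhdsWithin_le_nhds (hd.continuousAt.eventually (oU.mem_nhds (c0 ▸ m0)))
    refine (h.and_eventually ev).mono fun t ⟨h1, h2⟩ => ?_
    simp only [dat]
    rw [pv _ h2, pv _ m0]
    exact h1
  · obtain ⟨γ, T, hγ, T0, h⟩ := per
    obtain ⟨e, he, h'⟩ := exists_mv (H := H) hγ T
    exact ⟨T, T0, e, he, UV.ext' (by rw [h', pv _ m0, h])⟩

end Cov

/-- NO BRANCHING from the abstract block and the polygon -/
theorem npS_of (h1 : NB.NoS) (h2 : PolyS) : NpS := by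
  rintro n N m a S G C f H hm - hf ok ⟨O, Y, hY⟩
  obtain ⟨U, r, k, l, io, ze, nu, -, hF⟩ := hY.frs ok
  obtain ⟨z0, hz, per⟩ := C.per_Ps H hm hf hF.op hF.ne hF.sub
  exact h1 _ _ _ _ _ _ _ a _ _ _ _ _ _ _ Cov.dyn
    (Cov.box_of H hm hf ok hF hz per (Cov.pol_of h2 H hm hf hF hz))

end Crest.Agent.N221
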