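import Crest.Agent.N221.Ni.Defs
import Crest.Agent.N221.Dy.Hol

/-!
Row 221, block Ni (helper72): backward contraction `BkS`.
-/

set_option autoImplicit false

open Set Filter Topology Metric
open scoped ContDiff RealInnerProductSpace
open Crest.GeometryTopology.Submanifold
open Crest.Agent.R241.DDefs Crest.Agent.R241.D2
open Crest.Agent.R208.J Crest.Agent.R208.L

noncomputable section

namespace Crest.Agent.N221

namespace BkP

lemma tay2 {E V : Type} [NormedAddCommGroup E] [NormedSpace ℝ E] [NormedAddCommGroup V]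
    [NormedSpace ℝ V] {f : E → V} {f' : E → E →L[ℝ] V} {L : ℝ} (hL : 0 ≤ L)
    (hf : ∀ x, HasFDerivAt f (f' x) x)
    (h : ∀ x x', ‖x‖ ≤ 1 → ‖x'‖ ≤ 1 → ‖f' x - f' x'‖ ≤ L * ‖x - x'‖) {q q' : E} (hq : ‖q‖ ≤ 1)
    (hq' : ‖q'‖ ≤ 1) : ‖f q' - f q - f' q (q' - q)‖ ≤ L * ‖q' - q‖ ^ 2 := by
  rw [sq, ← mul_assoc]
  exact ((convex_closedBall (0 : E) 1).inter
    (convex_closedBall q ‖q' - q‖)).norm_image_sub_le_of_norm_hasFDerivWithin_le'
    (fun x _ => (hf x).hasFDerivWithinAt) (fun x hx => (h x q (by simpa using hx.1) hq).trans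
      (by gcongr; exact mem_closedBall_iff_norm.1 hx.2)) ⟨by simpa, by simp⟩
    ⟨by simpa, mem_closedBall_iff_norm.2 le_rfl⟩

variable {n N m : ℕ} {a : ℝ} {S : Set (Euc N)} {G : Geo n N (-(a ^ 2)) S} (C : Cov G)

lemma du_tri (ha : 0 < a) (p q r : Euc n × Euc N) : C.du p r ≤ C.du p q + C.du q r :=
  max_le ((C.dd_triangle ha.le _ q.1 _).trans (add_le_add (le_max_left _ _) (le_max_left _ _)))
    ((norm_sub_le_norm_sub_add_norm_sub _ q.2 _).trans
      (add_le_add (le_max_right _ _) (le_max_right _ _)))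

lemma du_symm (p q : Euc n × Euc N) : C.du p q = C.du q p := by
  rw [Cov.du, Cov.du, C.dd_comm, norm_sub_rev]

/-- the lifted unstable graph lies in one strong unstable leaf -/
lemma ps_gu (H : Hyp n N a S) (hm : m + 1 = n) {f : FF n N m} {η : Euc n} {q : Euc m}
    (hf : C.Frm f) (hη : C.Fw (fp f) η) (hq : ‖q‖ ≤ 2 * C.rr m) (s : ℝ) :
    C.Un (C.Ps f (C.gu f η q, s)).1 (C.Ps f (C.gu f η q, s)).2 ∧
    C.ep (C.Ps f (C.gu f η q, s)).1 (-(C.Ps f (C.gu f η q, s)).2) = η ∧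
    C.b η (C.Ps f (C.gu f η q, s)).1 = C.b η f.1 - C.bq f η q + s := by
  obtain ⟨h1, h2, h3⟩ := C.ge_gu H hm hf hη hq
  have u := C.un_uv H hf h1
  refine ⟨Cov.Un.vel C u s, (C.ep_gd_neg H.a_pos u s).trans h3, ?_⟩
  show C.b η (C.gd (C.hy f q) (C.uv f (C.gu f η q)) s) = _
  rw [h2, C.gd_neg, C.b_gd H.a_pos (Cov.bas_ne0 hη.1), Cov.bq]; ring

end BkP

open BkP in
theorem bkS (h1 : FlS) (h2 : PsS) : BkS := by
  intro n N m a S G C H hm
  have ha := H.a_pos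
  obtain ⟨K₁, Λ, hK₁, hΛ, hfl⟩ := h1 n N a S G C H
  obtain ⟨K₂, δ₂, hK₂, -, hps⟩ := h2 n N m a S G C H hm
  obtain ⟨B, hB, hpq⟩ := C.pq_lip H hm
  obtain ⟨L, hL, hHH⟩ := C.HH_lip H (m := m) 1
  have r0 := C.rr_pos H hm
  have r1 := (C.rad H hm).le
  set M := 2 + B + L with hM
  obtain ⟨δ, hδ, d1, d2⟩ : ∃ δ > 0, 3 * M * δ ≤ C.rr m ∧ K₂ * (2 * M * δ) ≤ 1 := by
    refine ⟨min (C.rr m / (3 * M)) (1 / (K₂ * (2 * M))), by positivity, ?_, ?_⟩
    · rw [mul_comm, ← le_div_iff₀ (by positivity)]; exact min_le_left _ _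
    · rw [← mul_assoc, mul_comm, ← le_div_iff₀ (by positivity)]; exact min_le_right _ _
  have M2 : 2 ≤ M := by linarith
  refine ⟨2 * (K₁ * K₂ * M), Λ, δ, by nlinarith [mul_le_mul hK₁ hK₂ zero_le_one (by linarith)], hΛ,
    hδ, ?_⟩
  rintro f ⟨z, s⟩ ⟨z', s'⟩ w t hf hy hy' ⟨e, rfl⟩ ht
  have dr : 6 * δ ≤ C.rr m := by linarith [mul_le_mul_of_nonneg_right M2 hδ.le]
  have hz : ‖z‖ ≤ δ := (norm_fst_le (z, s)).trans hy
  have hz' : ‖z'‖ ≤ δ := (norm_fst_le (z', s')).trans hy'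
  have hq : ‖z.1‖ ≤ δ := (norm_fst_le z).trans hz
  have hq' : ‖z'.1‖ ≤ δ := (norm_fst_le z').trans hz'
  have hp : ‖z.2‖ ≤ 1 := (norm_snd_le z).trans (by linarith)
  set η := (C.ge f z).2
  have hη : C.Fw (fp f) η := C.back H hm hf (by linarith)
  have h0 := Cov.bas_ne0 hη.1
  have ez : C.gu f η z.1 = z := C.eq_gu H hf (C.Dm_of_le H hm hf (by linarith))
  have ep : C.pq f η z.1 = -z.2 := by rw [← congrArg Prod.snd ez]; simp [Cov.gu]
  set y'' : ZL m := (C.gu f η z'.1, s + C.bq f η z'.1 - C.bq f η z.1) with hy''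
  set D := ‖((z', s') : ZL m) - (z, s) - lif z (e, C.Su f z e)‖ with hD
  set Q := ‖((z', s') : ZL m) - (z, s)‖ with hQ
  set W := ‖lif z (e, C.Su f z e)‖
  have q1 : ‖z'.1 - z.1‖ ≤ Q := (norm_fst_le (z' - z)).trans (norm_fst_le ((z', s') - (z, s)))
  have D1 : ‖z'.1 - z.1 - e‖ ≤ D := (norm_fst_le (z' - z - (e, C.Su f z e))).trans
    (norm_fst_le ((z', s') - (z, s) - lif z (e, C.Su f z e)))
  have D2 : ‖z'.2 - z.2 - C.Su f z e‖ ≤ D := (norm_snd_le (z' - z - (e, C.Su f z e))).trans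
    (norm_fst_le ((z', s') - (z, s) - lif z (e, C.Su f z e)))
  have D3 : ‖s' - s - -⟪z.2, e⟫‖ ≤ D := norm_snd_le ((z', s') - (z, s) - lif z (e, C.Su f z e))
  have W1 : ‖e‖ ≤ W := (norm_fst_le (e, C.Su f z e)).trans (norm_fst_le (lif z (e, C.Su f z e)))
  have D0 : 0 ≤ D := norm_nonneg _
  have b1 := hpq f η z'.1 z.1 hf hη.1 (by linarith) (by linarith)
  have t1 := tay2 hL.le (C.hasFDerivAt_pq H h0 f) (fun x x' => hHH f η x x' hf hη.1)
    (q := z.1) (q' := z'.1) (by linarith) (by linarith)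
  have t2 := tay2 hB.le (C.hasFDerivAt_bq H h0 f) (fun x x' hx hx' => by
    rw [← map_sub, innerSL_apply_norm]; exact (hpq f η x x' hf hη.1 hx hx').2)
    (q := z.1) (q' := z'.1) (by linarith) (by linarith)
  rw [ep] at t1 t2 b1
  simp only [innerSL_apply_apply, inner_neg_left, Real.norm_eq_abs] at t2 D3
  have q2 : ‖z'.1 - z.1‖ ^ 2 ≤ Q ^ 2 := by gcongr
  have q3 : ‖z'.1 - z.1‖ ≤ 2 * δ := (norm_sub_le _ _).trans (by linarith)
  have i1 : ∀ x : Euc m, |⟪z.2, x⟫| ≤ ‖x‖ := fun x =>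
    (abs_real_inner_le_norm _ _).trans (mul_le_of_le_one_left (norm_nonneg _) hp)
  have n1 : ‖y'' - (z, s)‖ ≤ M * ‖z'.1 - z.1‖ := by
    have hx := norm_nonneg (z'.1 - z.1)
    have := mul_nonneg hB.le hx
    have := mul_nonneg hL.le hx
    rw [hM, add_mul, add_mul]
    refine max_le (max_le (show ‖z'.1 - z.1‖ ≤ _ by linarith) ?_) ?_
    · show ‖-C.pq f η z'.1 - z.2‖ ≤ _
      rw [← norm_neg, neg_sub', neg_neg]; linarith [b1.2]
    · show |s + C.bq f η z'.1 - C.bq f η z.1 - s| ≤ _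
      have := abs_le.1 t2; have := abs_le.1 (i1 (z'.1 - z.1))
      have : B * ‖z'.1 - z.1‖ ^ 2 ≤ B * ‖z'.1 - z.1‖ := by
        rw [sq]; gcongr; exact mul_le_of_le_one_left hx (by linarith)
      rw [abs_le]; constructor <;> linarith
  have n2 : ‖((z', s') : ZL m) - y''‖ ≤ M * (D + Q ^ 2) := by
    have hx := sq_nonneg Q
    have := mul_nonneg hB.le hx
    have := mul_nonneg hL.le hx
    have := mul_nonneg hB.le D0
    have := mul_nonneg hL.le D0
    rw [hM, add_mul, add_mul, mul_add, mul_add, mul_add]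
    refine max_le (max_le (show ‖z'.1 - z'.1‖ ≤ _ by rw [sub_self, norm_zero]; positivity) ?_) ?_
    · show ‖z'.2 - -C.pq f η z'.1‖ ≤ _
      have e1 : z'.2 - -C.pq f η z'.1 = (z'.2 - z.2 - C.Su f z e) + C.HH f η z.1 (z'.1 - z.1 - e) +
          (C.pq f η z'.1 - -z.2 - C.HH f η z.1 (z'.1 - z.1)) := by
        simp only [Cov.Su, map_sub, neg_apply, η]; abel
      have e2 := (C.HH f η z.1).le_of_opNorm_le (hpq f η z.1 z.1 hf hη.1 (by linarith)
        (by linarith)).1 (z'.1 - z.1 - e)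
      rw [e1]
      refine (norm_add₃_le).trans ?_
      linarith [mul_le_mul_of_nonneg_left D1 hB.le, mul_le_mul_of_nonneg_left q2 hL.le]
    · show |s' - (s + C.bq f η z'.1 - C.bq f η z.1)| ≤ _
      have := abs_le.1 t2; have := abs_le.1 D3
      have h3 := abs_le.1 ((i1 (z'.1 - z.1 - e)).trans D1)
      rw [inner_sub_right] at h3
      have := mul_le_mul_of_nonneg_left q2 hB.le
      rw [abs_le]; constructor <;> linarith
  have n3 : ‖y'' - (z, s)‖ ≤ 2 * M * δ := n1.trans (by rw [mul_comm 2, mul_assoc]; gcongr)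
  have n4 : ‖y''‖ ≤ C.rr m := by
    linarith [norm_sub_norm_le y'' (z, s), mul_le_mul_of_nonneg_right M2 hδ.le]
  have lip := fun (y y' : ZL m) (hy : ‖y‖ ≤ C.rr m) (hy' : ‖y'‖ ≤ C.rr m) => (hps f hf).1 y y'
    ((norm_fst_le y).trans hy) ((norm_fst_le y').trans hy')
    ((norm_snd_le y).trans (hy.trans (by linarith))) ((norm_snd_le y').trans (hy'.trans (by linarith)))
  have g1 := ps_gu C H hm hf hη (q := z.1) (by linarith) s
  have g2 := ps_gu C H hm hf hη (q := z'.1) (by linarith) y''.2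
  rw [ez] at g1
  have u' : C.Un (C.Ps f (z', s')).1 (C.Ps f (z', s')).2 :=
    Cov.Un.vel C (C.un_uv H hf (C.Dm_of_le H hm hf (by linarith))) s'
  have l1 := lip y'' (z, s) n4 (by linarith)
  have l2 := lip (z', s') y'' (by linarith) n4
  have c1 := (hfl _ _ g2.1 g1.1).2.2 ⟨g1.2.1.trans g2.2.1.symm, by
    rw [g2.2.1, g1.2.2, g2.2.2]; simp only [hy'']; ring⟩
    (l1.trans ((mul_le_mul_of_nonneg_left n3 (by linarith)).trans d2)) t ht
  have c2 := (hfl _ _ u' g2.1).1 (-t)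
  rw [abs_neg, abs_of_nonneg ht] at c2
  have q4 : ‖z'.1 - z.1‖ ≤ W + D := by linarith [norm_sub_norm_le (z'.1 - z.1) e]
  have x1 : Real.exp (-(a * t)) ≤ Real.exp (Λ * t) := Real.exp_le_exp.2 (by
    linarith [mul_nonneg ha.le ht, mul_nonneg hΛ.le ht])
  have x0 := Real.exp_pos (-(a * t))
  calc _ ≤ _ := du_tri C ha _ (C.fu (-t) (C.Ps f y'')) _
    _ ≤ K₁ * Real.exp (Λ * t) * (K₂ * (M * (D + Q ^ 2))) +
        K₁ * Real.exp (-(a * t)) * (K₂ * (M * (W + D))) := by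
      refine add_le_add (c2.trans ?_) (c1.trans ?_)
      · gcongr; exact l2.trans (by gcongr)
      · gcongr; exact l1.trans (by gcongr; exact n1.trans (by gcongr))
    _ = K₁ * K₂ * M * (Real.exp (Λ * t) * (D + Q ^ 2) + Real.exp (-(a * t)) * (W + D)) := by ring
    _ ≤ K₁ * K₂ * M * (2 * (Real.exp (-(a * t)) * W + Real.exp (Λ * t) * D +
        Real.exp (Λ * t) * Q ^ 2)) := by
      gcongr
      rw [mul_add, mul_add]
      linarith [mul_le_mul_of_nonneg_right x1 D0, mul_nonneg x0.le (norm_nonneg _ : 0 ≤ W),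
        mul_nonneg (Real.exp_pos (Λ * t)).le (sq_nonneg Q)]
    _ = _ := by ring

end Crest.Agent.N221
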