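import Crest.Agent.N221.Ni.Defs
import Crest.Agent.N221.Ch.Unif
import Crest.Agent.N221.Dy.Nd

/-! Row 221, block Ni (helper86): `chnS : ChnS`, the constants of the chains of lifted charts. -/

set_option autoImplicit false

open Set Filter Topology Metric
open scoped ContDiff RealInnerProductSpace
open Crest.GeometryTopology.Submanifold
open Crest.Agent.R241.DDefs Crest.Agent.R241.D2
open Crest.Agent.R208.J Crest.Agent.R208.L

noncomputable section

namespace Crest.Agent.N221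

namespace Chn

variable {E V : Type} [NormedAddCommGroup E] [NormedSpace ℝ E] [NormedAddCommGroup V]
  [NormedSpace ℝ V]

lemma linf (j : ℕ) : (j : ℕ∞ω) ≤ (∞ : ℕ∞ω) := by exact_mod_cast le_top

/-- jets of `f ∘ fst` -/
lemma jet_fst {f : E → V} {U : Set E} (hU : IsOpen U) (hf : ContDiffOn ℝ ∞ f U) {z : E × ℝ}
    (hz : z.1 ∈ U) (j : ℕ) :
    ‖iteratedFDeriv ℝ j (fun z : E × ℝ => f z.1) z‖ ≤ ‖iteratedFDeriv ℝ j f z.1‖ := by
  set L := ContinuousLinearMap.fst ℝ E ℝ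
  have ho : IsOpen (L ⁻¹' U) := hU.preimage L.continuous
  have := L.iteratedFDerivWithin_comp_right hf hU.uniqueDiffOn ho.uniqueDiffOn (x := z) hz (linf j)
  rw [iteratedFDerivWithin_of_isOpen _ ho hz,
    iteratedFDerivWithin_of_isOpen _ hU (x := L z) hz] at this
  change ‖iteratedFDeriv ℝ j (f ∘ L) z‖ ≤ _
  rw [this]
  refine (ContinuousMultilinearMap.norm_compContinuousLinearMap_le _ _).trans ?_
  exact mul_le_of_le_one_right (norm_nonneg _)
    (Finset.prod_le_one (fun _ _ => norm_nonneg _) fun _ _ => ContinuousLinearMap.norm_fst_le ..)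

lemma jet_snd (t : ℝ) (z : E × ℝ) {j : ℕ} (hj : 1 ≤ j) :
    ‖iteratedFDeriv ℝ j (fun z : E × ℝ => z.2 + t) z‖ ≤ 1 := by
  obtain ⟨i, rfl⟩ : ∃ i, j = i + 1 := ⟨j - 1, by omega⟩
  have e : fderiv ℝ (fun z : E × ℝ => z.2 + t) = fun _ => ContinuousLinearMap.snd ℝ E ℝ :=
    funext fun z => (hasFDerivAt_snd.add_const t).fderiv
  rw [← norm_iteratedFDeriv_fderiv, e]
  rcases eq_or_ne i 0 with rfl | h
  · rw [norm_iteratedFDeriv_zero]; exact ContinuousLinearMap.norm_snd_le ..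
  · rw [iteratedFDeriv_const_of_ne h]; simp

end Chn

namespace Cov

open Chn

variable {n N m : ℕ} {a : ℝ} {S : Set (Euc N)} {G : Geo n N (-(a ^ 2)) S} (C : Cov G)
variable {f f' : FF n N m} {y : ZL m} {t : ℝ}
variable (H : Hyp n N a S) (hm : m + 1 = n)
include H hm

lemma chn_sm (hf : C.Frm f) (hf' : C.Frm f') (hy : y.1 ∈ C.dm f f') (t : ℝ) :
    ContDiffAt ℝ ∞ (C.Lt f f' t) y :=
  ((C.contDiffAt_Tf H hm hf hf' hy).comp y contDiffAt_fst).prodMk
    ((contDiffAt_snd.sub ((C.contDiffAt_tm H hm hf hf' hy).comp y contDiffAt_fst)).add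
      contDiffAt_const)

/-- uniform jets of the lifted transitions -/
lemma chn_ub (R : ℝ) : ∃ c : ℕ → ℝ, (∀ j, 1 ≤ c j) ∧ ∀ (f f' : FF n N m) (t : ℝ) (y : ZL m),
    C.Frm f → C.Frm f' → C.dd f.1 f'.1 ≤ R → y.1 ∈ C.dm f f' → ∀ j, 1 ≤ j →
      ‖iteratedFDeriv ℝ j (C.Lt f f' t) y‖ ≤ c j := by
  choose B hB using C.jb_Tf H hm R
  choose B' hB' using C.jb_tm H hm R
  refine ⟨fun j => max (B j) (1 + |B' j|), fun j => le_max_of_le_right
    (le_add_of_nonneg_right (abs_nonneg _)), fun f f' t y hf hf' hd hy j hj => ?_⟩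
  have ho := C.isOpen_dm H hm hf hf'
  have h1 : ContDiffOn ℝ ∞ (C.Tf f f') (C.dm f f') := fun z hz =>
    (C.contDiffAt_Tf H hm hf hf' hz).contDiffWithinAt
  have h2 : ContDiffOn ℝ ∞ (C.tm f f') (C.dm f f') := fun z hz =>
    (C.contDiffAt_tm H hm hf hf' hz).contDiffWithinAt
  have s := C.chn_sm H hm hf hf' hy t
  have e := iteratedFDeriv_prodMk s.fst s.snd (linf j)
  change iteratedFDeriv ℝ j (C.Lt f f' t) y = _ at e
  rw [e, ContinuousMultilinearMap.opNorm_prod]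
  refine max_le_max ((jet_fst ho h1 hy j).trans (hB j ((f, f'), y.1) ⟨hf, hf', hd, hy⟩)) ?_
  have e2 : (fun x : ZL m => (C.Lt f f' t x).2) =
      (fun x : ZL m => x.2 + t) - fun x : ZL m => C.tm f f' x.1 := by
    funext x; simp only [Lt, Pi.sub_apply]; ring
  have s1 : ContDiffAt ℝ j (fun x : ZL m => x.2 + t) y := by fun_prop
  have s2 : ContDiffAt ℝ j (fun x : ZL m => C.tm f f' x.1) y :=
    ((C.contDiffAt_tm H hm hf hf' hy).comp y contDiffAt_fst).of_le (linf j)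
  rw [e2, iteratedFDeriv_sub_apply s1 s2]
  exact (norm_sub_le _ _).trans (add_le_add (jet_snd t y hj) ((jet_fst ho h2 hy j).trans
    ((hB' j ((f, f'), y.1) ⟨hf, hf', hd, hy⟩).trans (le_abs_self _))))

/-- the inverse transition -/
lemma chn_inv (hf : C.Frm f) (hf' : C.Frm f') (hy : y.1 ∈ C.dm f f') (t : ℝ) :
    C.Lt f' f (-t) (C.Lt f f' t y) = y := by
  obtain ⟨-, h1, h2⟩ := C.Tf_symm H hm hf hf' hy
  refine Prod.ext h1 ?_
  change y.2 - C.tm f f' y.1 + t - C.tm f' f (C.Tf f f' y.1) + -t = y.2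
  rw [h2]; ring

lemma chn_dinv (hf : C.Frm f) (hf' : C.Frm f') (hy : y.1 ∈ C.dm f f') (t : ℝ) (v : ZL m) :
    fderiv ℝ (C.Lt f' f (-t)) (C.Lt f f' t y) (fderiv ℝ (C.Lt f f' t) y v) = v := by
  have d1 := ((C.chn_sm H hm hf hf' hy t).differentiableAt (by simp)).hasFDerivAt
  have d2 := ((C.chn_sm H hm hf' hf (y := C.Lt f f' t y) (C.Tf_symm H hm hf hf' hy).1
    (-t)).differentiableAt (by simp)).hasFDerivAt
  have e : (C.Lt f' f (-t) ∘ C.Lt f f' t) =ᶠ[𝓝 y] id := by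
    filter_upwards [continuous_fst.continuousAt.preimage_mem_nhds
      ((C.isOpen_dm H hm hf hf').mem_nhds hy)] with x hx using C.chn_inv H hm hf hf' hx t
  have := ((d2.comp y d1).congr_of_eventuallyEq e.symm).unique (hasFDerivAt_id y)
  exact congrArg (fun L : ZL m →L[ℝ] ZL m => L v) this

omit hm in
lemma chn_b {x : Euc n} {u : Euc N} (hu : C.Un x u) (s : ℝ) :
    C.b (C.ep x u) (C.gd x u s) = C.b (C.ep x u) x - s := by
  have e := C.b_gd H.a_pos (C.ep_ne_zero H.a_pos hu) x s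
  rwa [C.W_ep_self H.a_pos hu] at e

/-- the centre plaque in coordinates -/
lemma mem_Lf (hf : C.Frm f) : y ∈ C.Lf f ↔ ‖y.1‖ < C.rr m ∧ (C.ge f y.1).1 = (C.ge f 0).1 ∧
    y.2 = -C.bq f (C.ge f 0).1 y.1.1 := by
  refine and_congr_right fun hy => ?_
  have hu := C.un_uv H hf (C.Dm_lt H hm hf hy)
  rw [C.ge_zero H hf]
  change (C.ep (C.gd _ _ y.2) (C.vel _ _ y.2) = C.ep f.1 f.2.1 ∧
    C.b (C.ep f.1 f.2.1) (C.gd _ _ y.2) = C.b (C.ep f.1 f.2.1) f.1) ↔
    (C.ep (C.hy f y.1.1) (C.uv f y.1) = C.ep f.1 f.2.1 ∧ y.2 = -(C.b (C.ep f.1 f.2.1) f.1 -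
      C.b (C.ep f.1 f.2.1) (C.hy f y.1.1)))
  rw [C.ep_gd H.a_pos hu]
  refine and_congr_right fun h => ?_
  have e := C.chn_b H hu y.2
  rw [h] at e
  rw [e]
  constructor <;> intro h <;> linarith

lemma Lf_le : ∃ K, 1 ≤ K ∧ ∀ (f : FF n N m) (y : ZL m), C.Frm f → y ∈ C.Lf f →
    ‖y‖ ≤ K * ‖y.1.1‖ := by
  obtain ⟨K, hK, h⟩ := C.gs_le H hm
  refine ⟨K, hK, fun f y hf hy => ?_⟩
  obtain ⟨h1, h2, h3⟩ := (C.mem_Lf H hm hf).1 hy
  obtain ⟨c1, c2, -⟩ := C.cen_s H hm hf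
  have r := (C.rad H hm).le
  have e := C.eq_gs H hf (C.Dm_lt H hm hf h1)
  rw [h2] at e
  have k := (h f _ y.1.1 hf c1.1 (by linarith [norm_fst_le y.1])).1
  rw [e, c2, norm_zero, zero_add] at k
  refine max_le k ?_
  have hξ : (C.ge f 0).1 ≠ 0 := by rw [← norm_ne_zero_iff, c1.1]; exact one_ne_zero
  have k2 := C.abs_b_sub_le H.a_pos hξ f.1 (C.hy f y.1.1)
  rw [C.dd_hy hf] at k2
  rw [h3, norm_neg]
  exact k2.trans (le_mul_of_one_le_left (norm_nonneg _) hK)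

/-- the flow preserves the centre plaques -/
lemma Lt_Lf (hf : C.Frm f) (hf' : C.Frm f') (h : C.Ov f f' t) (hd : y.1 ∈ C.dm f f')
    (hy : y ∈ C.Lf f) : C.Lt f f' t y ∈ C.Lf f' := by
  obtain ⟨-, h2, h3⟩ := (C.mem_Lf H hm hf).1 hy
  obtain ⟨k1, k2⟩ := C.Tf_spec H hm hf' hd
  have e := Ov.ge_eq C H hm hf hf' h
  refine (C.mem_Lf H hm hf').2 ⟨k1, ?_, ?_⟩
  · change (C.ge f' (C.Tf f f' y.1)).1 = _
    rw [k2, h2, e]
  · change y.2 - C.tm f f' y.1 + t = -C.bq f' (C.ge f' 0).1 (C.Tf f f' y.1).1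
    have b := C.chn_b H hf.un t
    rw [← h.1] at b
    rw [h3, e, tm, h2, bq, bq, C.ge_zero H hf]
    linarith

end Cov

open Cov

theorem chnS : ChnS := by
  intro n N m a S G C H hm
  have ha := H.a_pos
  obtain ⟨K1, δ1, hK1, hδ1, hp⟩ := C.push_s H hm
  obtain ⟨K2, hK2, hL⟩ := C.Lf_le H hm
  set L := max 1 (Real.log (2 * K1 * K2) / a) with hLd
  have L1 : 1 ≤ L := le_max_left _ _
  have L2 : 2 * K1 * K2 * Real.exp (-(a * L)) ≤ 1 := by
    have : Real.log (2 * K1 * K2) ≤ a * L := by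
      rw [← div_le_iff₀' ha]; exact le_max_right _ _
    rw [Real.log_le_iff_le_exp (by positivity)] at this
    rw [Real.exp_neg, mul_inv_le_iff₀ (Real.exp_pos _), one_mul]; exact this
  obtain ⟨K3, δ3, hK3, hδ3, hs⟩ := C.step H hm L
  obtain ⟨c, hc, hb⟩ := C.chn_ub H hm L
  set R := min (min δ3 (δ1 / K3)) (C.rr m)
  have R0 : 0 < R := lt_min (lt_min hδ3 (by positivity)) (C.rr_pos H hm)
  have R1 : R ≤ δ3 := (min_le_left _ _).trans (min_le_left _ _)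
  have R2 : K3 * R ≤ δ1 := by
    rw [← le_div_iff₀' hK3]; exact (min_le_left _ _).trans (min_le_right _ _)
  have ec : c 1 ≤ Real.exp (c 1) := by linarith [Real.add_one_le_exp (c 1)]
  refine ⟨L, c 1, K2, R, min R 1, c, L1, by linarith [hc 1], hK2, R0, min_le_right _ _,
    lt_min R0 one_pos, hc, fun f hf => ?_⟩
  have hf' := Frm.fw C hf L
  have ov := C.ov_fw f L
  have ov' := Ov.symm C hf ov
  have d1 : C.dd f.1 (C.fw f L).1 ≤ L := by rw [Ov.dd C hf ov, abs_of_nonneg (by linarith)]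
  have d2 : C.dd (C.fw f L).1 f.1 ≤ L := by rwa [C.dd_comm]
  refine ⟨fun y hy => ?_, ?_, fun f' hf' hd y hy => ?_⟩
  · have y1 : ‖y.1‖ ≤ R := (norm_fst_le y).trans (mem_ball_zero_iff.1 hy).le
    obtain ⟨s1, s2, -⟩ := hs (C.fw f L) f y.1 (-L) R hf' hf
      (by rw [abs_neg, abs_of_nonneg (by linarith)]) R1 y1
      (by rw [← ov'.1, C.dd_self]; exact R0.le) (by rw [← ov'.2, sub_self, norm_zero]; exact R0.le)
    obtain ⟨t1, t2, -⟩ := C.Tf_symm H hm hf' hf s1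
    refine ⟨s1, C.chn_sm H hm hf' hf s1 _, ?_, hb _ _ _ _ hf' hf d2 s1, fun v => ?_,
      fun h => ?_, hL f y hf⟩
    · rw [← norm_iteratedFDeriv_one]
      exact (hb _ _ _ _ hf' hf d2 s1 1 le_rfl).trans ec
    · have k := hb f (C.fw f L) (- -L) (C.Lt (C.fw f L) f (-L) y) hf hf' d1 t1 1 le_rfl
      rw [norm_iteratedFDeriv_one] at k
      conv_lhs => rw [← C.chn_dinv H hm hf' hf s1 (-L) v]
      exact (ContinuousLinearMap.le_opNorm _ _).trans
        (mul_le_mul_of_nonneg_right (k.trans ec) (norm_nonneg _))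
    · have k := C.Lt_Lf H hm hf' hf ov' s1 h
      refine ⟨k, ?_⟩
      have k1 := (hp f (C.fw f L) L _ hf hf' ov (by linarith) (s2.trans R2)
        ((C.mem_Lf H hm hf).1 k).2.1).2.1
      rw [t2] at k1
      have k2 : ‖C.Tf (C.fw f L) f y.1‖ ≤ K2 * ‖(C.Lt (C.fw f L) f (-L) y).1.1‖ :=
        (norm_fst_le (C.Lt (C.fw f L) f (-L) y)).trans (hL f _ hf k)
      have k3 := mul_le_mul_of_nonneg_left k2 (a := K1 * Real.exp (-(a * L))) (by positivity)
      have k4 := mul_le_mul_of_nonneg_right L2 (norm_nonneg (C.Lt (C.fw f L) f (-L) y).1.1)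
      have k5 := norm_fst_le y.1
      nlinarith
  · obtain ⟨-, z1, z2⟩ := C.Tf_zero H hm hf' hf ov'
    refine Prod.ext z1 ?_
    change (0 : ℝ) - C.tm (C.fw f L) f 0 + -L = 0
    rw [z2]; ring
  · have y1 : ‖y.1‖ ≤ R := (norm_fst_le y).trans (mem_ball_zero_iff.1 hy).le
    have e1 : C.dd f.1 f'.1 ≤ min R 1 := (le_max_left _ _).trans hd
    have e2 : ‖f.2.1 - f'.2.1‖ ≤ min R 1 := (le_max_right _ _).trans hd
    obtain ⟨s1, -⟩ := hs f' f y.1 0 R hf' hf (by rw [abs_zero]; linarith) R1 y1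
      (by rw [C.gd_zero]; exact e1.trans (min_le_left _ _))
      (by rw [C.vel_zero, norm_sub_rev]; exact e2.trans (min_le_left _ _))
    exact ⟨s1, C.chn_sm H hm hf' hf s1 _, hb _ _ _ _ hf' hf
      (by rw [C.dd_comm]; exact e1.trans ((min_le_right _ _).trans L1)) s1⟩

end Crest.Agent.N221
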