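import Crest.Agent.N221.Ni.LkD
import Crest.Agent.N221.Ch.Box

/-! Row 221, block Ni (helper86): `lkS`, two neighbouring nodes of the polygon. -/

set_option autoImplicit false

open Set Filter Topology Metric
open scoped ContDiff RealInnerProductSpace
open Crest.GeometryTopology.Submanifold
open Crest.Agent.R241.DDefs Crest.Agent.R241.D2
open Crest.Agent.R208.J Crest.Agent.R208.L

noncomputable section

namespace Crest.Agent.N221

namespace Cov

variable {n N m : ℕ} {a : ℝ} {S : Set (Euc N)} {G : Geo n N (-(a ^ 2)) S} (C : Cov G)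
variable (H : Hyp n N a S) (hm : m + 1 = n)
include H hm

/-- the change of chart between close frames keeps small points small -/
lemma near_Lt : ∃ K δ : ℝ, 0 < K ∧ 0 < δ ∧ ∀ (f f' : FF n N m) (y : ZL m) (ε : ℝ), C.Frm f →
    C.Frm f' → ε ≤ δ → C.du (bv f) (bv f') ≤ ε → ‖y‖ ≤ ε → ‖C.Lt f' f 0 y‖ ≤ K * ε := by
  obtain ⟨K, δ, hK, hδ, h⟩ := C.step H hm 0
  refine ⟨K + 1, δ, by positivity, hδ, fun f f' y ε hf hf' he hd hy => ?_⟩
  obtain ⟨-, s2, s3⟩ := h f' f y.1 0 ε hf' hf (by simp) he ((norm_fst_le y).trans hy)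
    (by rw [C.gd_zero]; exact (le_max_left _ _).trans hd)
    (by rw [C.vel_zero, norm_sub_rev]; exact (le_max_right _ _).trans hd)
  have e0 : 0 ≤ ε := (norm_nonneg _).trans hy
  refine max_le (s2.trans (by nlinarith)) ?_
  change |y.2 - C.tm f' f y.1 + 0| ≤ _
  have := (norm_snd_le y).trans hy
  rw [sub_zero] at s3
  rw [add_zero]
  exact (abs_sub _ _).trans (by rw [Real.norm_eq_abs] at this; linarith)

end Cov

open Cov

theorem lkS (h1 : FlS) (h2 : PsS) (h3 : BkS) : LkS := by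
  intro n N m a S G C H hm
  obtain ⟨KF, ΛF, hKF, hΛF, hF⟩ := h1 n N a S G C H
  obtain ⟨KP, δP, hKP, -, hP⟩ := h2 n N m a S G C H hm
  obtain ⟨KB, ΛB, δB, hKB, hΛB, hδB, hB⟩ := h3 n N m a S G C H hm
  obtain ⟨KS, δS, hKS, hδS, hS⟩ := C.near_Lt H hm
  refine ⟨ΛB, hΛB, fun L Λ K0 R0 δ R c0 hL hc hδ hR hR0 => ?_⟩
  set ε := min (min δ δS) (R / (2 * KS)) with hε
  have e0 : 0 < ε := lt_min (lt_min hδ hδS) (by positivity)
  have e1 : ε ≤ δ := (min_le_left _ _).trans (min_le_left _ _)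
  have e2 : ε ≤ δS := (min_le_left _ _).trans (min_le_right _ _)
  have e3 : KS * ε < R := by
    have : ε ≤ R / (2 * KS) := min_le_right _ _
    rw [le_div_iff₀ (by positivity)] at this
    linarith
  refine ⟨ε, e0, fun K1 K c1 hK1 hc1 => ?_⟩
  obtain ⟨T0, hT0⟩ : ∃ T0 : ℕ, ∀ T : ℕ, T0 ≤ T → KF * KP * |K| * Real.exp (-(c1 / 2 * T)) ≤ ε := by
    have t := ((Real.tendsto_exp_neg_atTop_nhds_zero.comp
      ((tendsto_natCast_atTop_atTop (R := ℝ)).const_mul_atTop (half_pos hc1))).const_mul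
        (KF * KP * |K|)).eventually (ge_mem_nhds (by simpa using e0))
    exact eventually_atTop.1 t
  refine ⟨KB + 2 + 2 * R / δB + K1 * (K ^ 2 + |K|), c1 / (2 * ΛF * L), T0, by positivity,
    fun k ok kR kΛ kχ kK kκ kc1 kc T hT l f B nu c c' z z' F F' x x' A A' hf hBx d d' un nb => ?_⟩
  have p1 : 0 ≤ 2 * R / δB := by positivity
  have p2 : 0 ≤ K1 * K ^ 2 := by positivity
  have p3 : 0 ≤ K1 * |K| := by positivity
  rw [mul_add] at kK
  have D0 : 0 < k.D T := Real.exp_pos _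
  have le : ∀ j : ℕ, (j : ℝ) ≤ k.κ0 * T → j ≤ T := fun j hj => by
    have : (j : ℝ) ≤ T := hj.trans (mul_le_of_le_one_left (Nat.cast_nonneg _) ok.κ1)
    exact_mod_cast this
  have sub : ball (0 : ZL m) k.R ⊆ ball 0 R0 := ball_subset_ball (kR ▸ hR0)
  have i0 : (0 : ℝ) ∈ Icc (0 : ℝ) 1 := ⟨le_rfl, zero_le_one⟩
  have cls : ∀ j : ℕ, (j : ℝ) ≤ k.κ0 * T → C.du (bv (F j)) (bv (F' j)) ≤ ε := fun j hj => by
    obtain ⟨b1, b2, b3, b4, b5, -⟩ := nb 0 ⟨le_rfl, ok.τ0.le⟩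
    have q1 := (hF _ _ (un 0 i0).1 (un 0 i0).2).1 (j * L)
    have q2 := (hP f hf).1 _ _ (hBx _ b1).1.le (hBx _ b2).1.le (hBx _ b1).2 (hBx _ b2).2
    rw [← b3, ← b4, norm_sub_rev] at q2
    have q3 : ΛF * |j * L| ≤ c1 / 2 * T := by
      rw [abs_of_nonneg (by positivity)]
      have : (j : ℝ) ≤ c1 / (2 * ΛF * L) * T :=
        hj.trans (mul_le_mul_of_nonneg_right kκ (Nat.cast_nonneg _))
      rw [div_mul_eq_mul_div, le_div_iff₀ (by positivity)] at this
      linarith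
    have q4 : Real.exp (ΛF * |j * L|) * k.D T ≤ Real.exp (-(c1 / 2 * T)) := by
      rw [NC.Cst.D, kc1, ← Real.exp_add]; exact Real.exp_le_exp.2 (by linarith)
    rw [d.bv, d'.bv]
    refine q1.trans (le_trans ?_ (hT0 T hT))
    calc KF * Real.exp (ΛF * |j * L|) * C.du (c 0) (c' 0)
        ≤ KF * Real.exp (ΛF * |j * L|) * (KP * (|K| * k.D T)) := by
          gcongr
          exact q2.trans (mul_le_mul_of_nonneg_left (b5.trans
            (mul_le_mul_of_nonneg_right (le_abs_self K) D0.le)) (by linarith))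
      _ = KF * KP * |K| * (Real.exp (ΛF * |j * L|) * k.D T) := by ring
      _ ≤ _ := by gcongr
  have hH := fun (j : ℕ) (hj : (j : ℝ) ≤ k.κ0 * T) (y : ZL m) (hy : y ∈ ball (0 : ZL m) k.R) =>
    (hc (F j) (d.frm j)).2.2 (F' j) (d'.frm j) ((cls j hj).trans e1) y (sub hy)
  refine ⟨⟨fun j hj => ⟨fun y hy => (hH j hj y hy).2.1.contDiffWithinAt, fun y hy i hi =>
    ((hH j hj y hy).2.2 i hi).trans (kc i)⟩, fun τ hτ j hj => ?_, fun τ hτ j hj b1 b2 b3 => ?_,
    fun τ hτ => ?_⟩, fun τ hτ j i hj hx hV b => ?_⟩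
  · rw [mem_ball_zero_iff, kR]
    exact (hS _ _ _ ε (d.frm j) (d'.frm j) e2 (cls j hj) (d'.small τ hτ j (le j hj))).trans_lt e3
  · have hj' : (j : ℝ) ≤ k.κ0 * T := le_trans (by push_cast; linarith) hj
    have r : x' j τ = C.Lt (F' (j + 1)) (F' j) (-L) (x' (j + 1) τ) :=
      congrFun (d'.crv.rel j (le _ hj)) τ
    have m1 := ((hc (F' j) (d'.frm j)).1 _ (sub b1)).1
    have m2 := ((hc (F j) (d.frm j)).1 _ (sub b3)).1
    rw [← d'.fw] at m1
    rw [← d.fw] at m2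
    have m3 := (hH j hj' _ b2).1
    rw [r] at m3
    have k1 := (C.Lt_comp H hm (t' := 0) (d'.frm j) (d.frm j) m1 m3).2
    have k2 := (C.Lt_comp H hm (t' := -L) (d.frm (j + 1)) (d.frm j) (hH _ hj _ b1).1 m2).2
    rw [r, k1, k2, add_zero, zero_add]
  · obtain ⟨b1, b2, -, -, b5, b, b6⟩ := nb τ hτ
    have m3 := (hH 0 (by rw [Nat.cast_zero]; exact mul_nonneg ok.κ0.le (Nat.cast_nonneg _)) _
      (d'.crv.known τ hτ 0 (Nat.zero_le _)).1).1
    rw [(d'.zero τ hτ).1] at m3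
    have k1 := (C.Lt_comp H hm (t' := 0) (d'.frm 0) (d.frm 0) (d'.tay _ b2).1 m3).2
    obtain ⟨k2, k3⟩ := d.zero τ hτ
    obtain ⟨b', k3⟩ := k3 b
    obtain ⟨-, t1, t2⟩ := d.tay _ b1
    obtain ⟨t2, t3⟩ := t2 _ b2
    have a1 : ‖z' τ - z τ‖ ≤ |K| * k.D T :=
      b5.trans (mul_le_mul_of_nonneg_right (le_abs_self K) D0.le)
    rw [(d'.zero τ hτ).1, k1, add_zero, k2]
    refine ⟨t2.trans ((mul_le_mul_of_nonneg_left a1 (by linarith)).trans ?_), b', ?_⟩
    · rw [← mul_assoc]; exact mul_le_mul_of_nonneg_right (by linarith) D0.le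
    · rw [k3]
      set Dg := fderiv ℝ (C.Lt f (F 0) 0) (z τ)
      have a2 := (Dg.le_opNorm _).trans (mul_le_mul t1 (b6.trans
        (mul_le_mul_of_nonneg_right (le_abs_self K) (sq_nonneg _))) (norm_nonneg _) (by linarith))
      have a3 : ‖z' τ - z τ‖ ^ 2 ≤ (|K| * k.D T) ^ 2 := pow_le_pow_left₀ (norm_nonneg _) a1 2
      rw [mul_pow, sq_abs] at a3
      have a4 := norm_add_le (C.Lt f (F 0) 0 (z' τ) - C.Lt f (F 0) 0 (z τ) - Dg (z' τ - z τ))
        (Dg (z' τ - z τ - lif (z τ).1 (nu (z τ).1 b)))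
      rw [map_sub Dg (z' τ - z τ), sub_add_sub_cancel] at a4
      rw [map_sub Dg (z' τ - z τ)] at a2
      have a5 := mul_le_mul_of_nonneg_left a3 (by linarith : 0 ≤ K1)
      have a6 := mul_le_mul_of_nonneg_right (by linarith : K1 * (K ^ 2 + |K|) ≤ k.K)
        (sq_nonneg (k.D T))
      linarith
  · have K2 : 2 ≤ k.K := by linarith
    have r1 : k.R / k.K < k.R := div_lt_self ok.R (by linarith)
    have r2 : 2 * (k.R / k.K) ≤ δB := by
      have : 2 * R / δB ≤ k.K := by linarith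
      rw [div_le_iff₀ hδB] at this
      rw [← mul_div_assoc, div_le_iff₀ (by linarith), kR]; linarith
    have jT := le j hj
    obtain ⟨-, u1, u2⟩ := d.tru τ hτ j jT fun i h h' =>
      mem_ball_zero_iff.2 ((hx i h.le h').1.trans_lt r1)
    obtain ⟨-, u3, -⟩ := d'.tru τ hτ j jT fun i h h' =>
      mem_ball_zero_iff.2 ((hx i h.le h').2.trans_lt r1)
    obtain ⟨n1, n2⟩ := hx j le_rfl jT
    have u4 := C.Ps_Lt H hm (d'.frm j) (d.frm j)
      (hH j hj _ (mem_ball_zero_iff.2 (n2.trans_lt r1))).1 0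
    rw [C.fu_zero, u3] at u4
    have s0 : (0 : ℝ) ≤ j + i := by positivity
    have hV' : ‖C.Lt (F' j) (F j) 0 (x' j τ) - x j τ‖ ≤ k.R / k.K :=
      (le_mul_of_one_le_left (norm_nonneg _) (Real.one_le_exp (mul_nonneg ok.Λ.le s0))).trans hV
    have r0 : 0 ≤ k.R / k.K := (norm_nonneg _).trans n1
    have q := hB (F j) (x j τ) (C.Lt (F' j) (F j) 0 (x' j τ)) (A j τ b) ((j + i) * L) (d.frm j)
      (by linarith) (by linarith [norm_le_norm_add_norm_sub' (C.Lt (F' j) (F j) 0 (x' j τ)) (x j τ)]) (u2 b)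
      (by positivity)
    rw [u1, u4, C.fu_add (un τ hτ).1, C.fu_add (un τ hτ).2,
      show (j : ℝ) * L + -((j + i) * L) = -(i * L) by ring] at q
    refine q.trans ?_
    have w1 : k.χ * (j + i) ≤ a * ((j + i) * L) := by
      linarith [mul_le_mul_of_nonneg_right kχ s0]
    have w2 : ΛB * ((j + i) * L) ≤ k.Λ * (j + i) := by
      linarith [mul_le_mul_of_nonneg_right kΛ s0]
    have w3 : ΛB * ((j + i) * L) ≤ 2 * k.Λ * (j + i) := by linarith [mul_nonneg ok.Λ.le s0]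
    refine mul_le_mul (by linarith) (add_le_add (add_le_add ?_ ?_) ?_) (by positivity) (by linarith)
    · exact mul_le_mul_of_nonneg_right (Real.exp_le_exp.2 (neg_le_neg w1)) (norm_nonneg _)
    · exact mul_le_mul_of_nonneg_right (Real.exp_le_exp.2 w2) (norm_nonneg _)
    · exact mul_le_mul_of_nonneg_right (Real.exp_le_exp.2 w3) (sq_nonneg _)

end Crest.Agent.N221
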