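import Crest.Agent.N221.Ni.Nd0

/-! Row 221, block Ni (helper80): the chain of one node, `ndS`. -/

set_option autoImplicit false
set_option linter.unusedSectionVars false
set_option linter.unusedVariables false

open Set Filter Topology Metric
open scoped ContDiff RealInnerProductSpace
open Crest.GeometryTopology.Submanifold
open Crest.Agent.R241.DDefs Crest.Agent.R241.D2
open Crest.Agent.R208.J Crest.Agent.R208.L

noncomputable section

namespace Crest.Agent.N221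

open Cov Ex NdP

/-- true coordinates of the known part -/
lemma nd_known (hF : FlS) (hP : PsS) {n N m : ℕ} {a : ℝ} {S : Set (Euc N)}
    {G : Geo n N (-(a ^ 2)) S} (C : Cov G) (H : Hyp n N a S) (hm : m + 1 = n) {μ : ℝ}
    (hμ : 0 < μ) : ∃ ρ > 0, ∀ (f f' : FF n N m) (y y' : ZL m) (s : ℝ), C.Frm f → C.Frm f' →
      ‖y.1‖ < C.rr m → ‖y'.1‖ < C.rr m → |y.2| ≤ 1 → |y'.2| ≤ 1 → ‖y - y'‖ ≤ ρ → 0 ≤ s →
      C.Sss (C.Ps f y) (C.Ps f y') → bv f' = C.fu s (C.Ps f y) →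
      ∃ w : ZL m, ‖w‖ ≤ μ * Real.exp (-(a * s)) ∧ C.Ps f' w = C.fu s (C.Ps f y') := by
  obtain ⟨KF, ΛF, KF1, -, hF⟩ := hF n N a S G C H
  obtain ⟨KP, δ, KP1, δ0, hP⟩ := hP n N m a S G C H hm
  have p : 0 < min μ (min 1 δ) := by positivity
  have M0 : 0 < KP * KF * KP := by positivity
  refine ⟨min μ (min 1 δ) / (KP * KF * KP), by positivity,
    fun f f' y y' s hf hf' h1 h2 h3 h4 h5 s0 hs e => ?_⟩
  have u := C.un_Ps' H hm hf h1
  have u' := C.un_Ps' H hm hf h2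
  rw [le_div_iff₀ M0] at h5
  have n0 := norm_nonneg (y - y')
  have a1 := (hP f hf).1 y y' h1.le h2.le h3 h4
  have a0 : KP * ‖y - y'‖ ≤ KF * (KP * ‖y - y'‖) := le_mul_of_one_le_left (by positivity) KF1
  have a0' : KF * (KP * ‖y - y'‖) ≤ KP * (KF * (KP * ‖y - y'‖)) :=
    le_mul_of_one_le_left (by positivity) KP1
  have m1 := min_le_left μ (min 1 δ)
  have m2 := (min_le_right μ (min 1 δ)).trans (min_le_left _ _)
  have m3 := (min_le_right μ (min 1 δ)).trans (min_le_right _ _)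
  have a2 := (hF _ _ u u').2.1 hs (by linarith) s s0
  have e0 := Real.exp_pos (-(a * s))
  have e1 : Real.exp (-(a * s)) ≤ 1 := Real.exp_le_one_iff.2 (by nlinarith [H.a_pos])
  have a3 : C.du (bv f') (C.fu s (C.Ps f y')) ≤ KF * (KP * ‖y - y'‖) * Real.exp (-(a * s)) := by
    rw [e]
    exact a2.trans ((mul_le_mul_of_nonneg_left a1 (by positivity)).trans_eq (by ring))
  obtain ⟨w, w1, w2⟩ := (hP f' hf').2 _ (C.un_fu u' s)
    (a3.trans ((mul_le_of_le_one_right (by positivity) e1).trans (by linarith)))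
  refine ⟨w, w1.trans ((mul_le_mul_of_nonneg_left a3 (by positivity)).trans ?_), w2⟩
  rw [← mul_assoc]
  exact mul_le_mul_of_nonneg_right (by linarith) e0.le

set_option maxHeartbeats 2000000 in
theorem ndS (hF : FlS) (hP : PsS) : NdS := by
  intro n N m a S G C f z0 H hm hf hz0 L Λ K0 R0 δ R ε c0 hL hC Rp RR εp
  have ha := H.a_pos
  obtain ⟨ρ', q1, q2⟩ := exists_between hz0
  obtain ⟨r0, r00, hr0⟩ := C.nd_loc H hm 0 q2
  obtain ⟨K1, K11, hK1⟩ := (C.ub_Lt H hm (m := m) (0 + 3)).taylor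
  obtain ⟨ρ1, ρ10, hk⟩ := nd_known hF hP C H hm (μ := min ε (min (R / 2) 1)) (by positivity)
  obtain ⟨ρ, ρ0, ρ1', ρ2, ρ3, ρ4⟩ : ∃ ρ : ℝ, 0 < ρ ∧ ρ ≤ 1 ∧ ρ ≤ ρ' - ‖z0‖ ∧ ρ ≤ r0 / 4 ∧
      ρ ≤ ρ1 / 2 := ⟨min (min 1 (ρ' - ‖z0‖)) (min (r0 / 4) (ρ1 / 2)),
    lt_min (lt_min one_pos (by linarith)) (by positivity), (min_le_left _ _).trans (min_le_left _ _),
    (min_le_left _ _).trans (min_le_right _ _), (min_le_right _ _).trans (min_le_left _ _),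
    (min_le_right _ _).trans (min_le_right _ _)⟩
  refine ⟨ρ, K1, ρ0, ρ1', by linarith, K11,
    fun l nu U r hr hU hsub hnu hinj hE heq g K d g0 => ?_⟩
  have h0 : (0 : ℝ) ∈ Icc (0 : ℝ) 1 := ⟨le_rfl, zero_le_one⟩
  rcases lt_or_ge r 0 with r0' | r0'
  · exact ⟨0, 0, 0, fun _ _ _ _ _ _ _ _ _ _ _ _ _ _ _ _ _ _ _ _ hc =>
      absurd (hc 0 h0).2.2.1 (by simp [closedBall_eq_empty.2 r0'])⟩
  obtain ⟨δ', δ0, hδ⟩ := (isCompact_closedBall z0 r).exists_cthickening_subset_open hU hsub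
  rw [cthickening_closedBall δ0.le r0'] at hδ
  have box : ∀ y ∈ closedBall ((z0, 0) : ZL m) r,
      y.1 ∈ closedBall z0 r ∧ ‖y.1‖ ≤ ρ' ∧ |y.2| ≤ 1 := fun y hy => by
    have h1 : dist y.1 z0 ≤ r := (le_max_left _ _).trans (mem_closedBall.1 hy)
    have h2 : dist y.2 0 ≤ r := (le_max_right _ _).trans (mem_closedBall.1 hy)
    rw [Real.dist_0_eq_abs] at h2
    exact ⟨h1, by linarith [norm_le_norm_add_norm_sub' y.1 z0, dist_eq_norm y.1 z0], by linarith⟩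
  have box2 : ∀ y ∈ closedBall ((z0, 0) : ZL m) r, ∀ y' ∈ closedBall ((z0, 0) : ZL m) r,
      ‖y - y'‖ ≤ 2 * ρ := fun y hy y' hy' => by
    rw [← dist_eq_norm]
    linarith [dist_triangle_right y y' (z0, 0), mem_closedBall.1 hy, mem_closedBall.1 hy']
  obtain ⟨r1, r10, hr1⟩ := C.nd_loc H hm (L + |K|) q2
  have u := C.ub_Lt H hm (m := m) (L + |K| + 3)
  have ho := fun p => (u.op p).inter (isOpen_ball (x := ((z0, 0) : ZL m)) (ε := δ' + r))
  have u2 := UB.of_compact (f := fun y : ZL m => lif y.1 ∘L nu y.1) (hU.preimage continuous_fst)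
    (((contDiff_lif m).comp contDiff_fst).contDiffOn.clm_comp
      (hnu.comp contDiffOn_fst fun y hy => hy))
    (isCompact_closedBall ((z0, 0) : ZL m) (δ' + r))
    (fun y hy => hδ ((le_max_left _ _).trans (mem_closedBall.1 hy))) ho
    fun _ => inter_subset_right.trans ball_subset_closedBall
  have u3 := (u.mono id ho fun _ => inter_subset_left).fderiv.clm_comp u2
  obtain ⟨b, -, hb⟩ := u.bds
  obtain ⟨bA, -, hbA⟩ := u3.bds
  obtain ⟨cT, cT1, hcT⟩ := u.taylor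
  obtain ⟨dx, hdx⟩ := flat b d
  obtain ⟨dA, hdA⟩ := flat bA d
  obtain ⟨cn, cn0, hcn⟩ := NdP.floor (isCompact_closedBall z0 r) (hnu.continuousOn.mono hsub)
    fun z hz => hinj z (hsub hz)
  obtain ⟨T0, hT0⟩ : ∃ T0 : ℝ, ∀ T, T0 ≤ T → 0 ≤ T ∧
      cT * (|d 1| * Real.exp (-(g * T))) < min r1 1 := by
    have t1 : Tendsto (fun T : ℝ => cT * (|d 1| * Real.exp (-(g * T)))) atTop
        (𝓝 (cT * (|d 1| * 0))) := ((Real.tendsto_exp_neg_atTop_nhds_zero.comp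
      (tendsto_id.const_mul_atTop g0)).const_mul _).const_mul _
    exact eventually_atTop.1 ((eventually_ge_atTop 0).and
      (t1.eventually (gt_mem_nhds (by simpa using r10))))
  refine ⟨|K0| + cT * |d 1| + cn * cT + 1, T0, fun j => |dx j| + |dA j|,
    fun k kR kΛ kχ kχ' kK kg kc kd kα kτ T hT γ t c e z hγ ht hc hz τ0 => ?_⟩
  obtain ⟨T0', sm⟩ := hT0 T hT
  have L0 : 0 < L := by linarith
  have f1 := (le_div_iff₀ L0).1 (Nat.floor_le (div_nonneg T0' L0.le))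
  have f2 := (div_lt_iff₀ L0).1 (Nat.lt_floor_add_one (T / L))
  generalize ⌊T / L⌋₊ = T' at f1 f2 ⊢
  have p1 := abs_nonneg K0
  have p2 : 0 ≤ cT * |d 1| := by positivity
  have p3 : 0 ≤ cn * cT := by positivity
  have s1 : |T' * L - t| ≤ L + |K| := by
    have := abs_le.1 (ht.trans (le_abs_self K))
    exact abs_le.2 ⟨by linarith, by linarith⟩
  have E0 := Real.exp_pos (-(g * T))
  have E1 : Real.exp (-(g * T)) ≤ Real.exp (-(k.g * T')) := Real.exp_le_exp.2 (by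
    nlinarith [mul_le_mul_of_nonneg_right kg (Nat.cast_nonneg (α := ℝ) T')])
  obtain ⟨γ', hγ', i1, -⟩ := hγ.inv C
  have hf' := hf.fg C hγ'
  obtain ⟨F, frm, fw, hbv⟩ := C.exists_chain hm (hc 0 h0).1 L
  have en : ∀ τ ∈ Icc (0 : ℝ) 1, ‖(e τ).1‖ < C.rr m := fun τ hτ =>
    (box _ (hc τ hτ).2.2.1).2.1.trans_lt q2
  have ps : ∀ τ ∈ Icc (0 : ℝ) 1, C.Ps (fg γ' f) (e τ) = C.fu t (c τ) := fun τ hτ => by
    rw [C.Ps_fg H hf hγ' (C.Dm_lt H hm hf (en τ hτ)), ← (hc τ hτ).2.2.2.1, mv_eq, dg_inv i1]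
  obtain ⟨t1, t2, t3⟩ := hr1 _ _ (e 0) _ hf' (frm T') (box _ (hc 0 h0).2.2.1).2.1
    (box _ (hc 0 h0).2.2.1).2.2 s1 (by rw [hbv, ps 0 h0, C.fu_add (hc 0 h0).1, add_sub_cancel])
  let p : C.Ix m (L + |K| + 3) := ⟨((fg γ' f, F T'), T' * L - t), ⟨hf', frm T', t2⟩, by linarith⟩
  let p' : C.Ix m (L + |K| + 3) := ⟨((F T', fg γ' f), -(T' * L - t)),
    ⟨frm T', hf', (C.dd_comm _ _).trans_le t2⟩, by rw [abs_neg]; linarith⟩
  have ed : ∀ τ ∈ Icc (0 : ℝ) 1, ‖e τ - e 0‖ ≤ |d 1| * Real.exp (-(g * T)) := fun τ =>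
    dist_le fun τ hτ => ⟨(hc τ hτ).2.2.2.2.1, ((hc τ hτ).2.2.2.2.2 1 le_rfl).trans (by
      rw [pow_one]; exact mul_le_mul_of_nonneg_right (le_abs_self _) E0.le)⟩
  have eb : ∀ τ ∈ Icc (0 : ℝ) 1, e τ ∈ ball (e 0) r1 := fun τ hτ => mem_ball_iff_norm.2
    (((ed τ hτ).trans (le_mul_of_one_le_left (by positivity) cT1)).trans_lt
      (sm.trans_le (min_le_left _ _)))
  have xn : ∀ τ ∈ Icc (0 : ℝ) 1, ‖C.Lt (fg γ' f) (F T') (T' * L - t) (e τ)‖ ≤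
      cT * (|d 1| * Real.exp (-(g * T))) := fun τ hτ => by
    have := ((hcT p).2 _ (convex_ball _ _) t3 _ (mem_ball_self r10) _ (eb τ hτ)).1
    rw [show C.Lt p.1.1.1 p.1.1.2 p.1.2 (e 0) = 0 from t1, sub_zero] at this
    exact this.trans (mul_le_mul_of_nonneg_left (ed τ hτ) (by positivity))
  obtain ⟨x, xT, hx⟩ := exists_x T' (fun j => C.Lt (F (j + 1)) (F j) (-L))
    fun τ => C.Lt (fg γ' f) (F T') (T' * L - t) (e τ)
  obtain ⟨A, AT, hA⟩ := NC.exists_tr T' (fun j => C.Lt (F (j + 1)) (F j) (-L)) x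
    fun τ => fderiv ℝ (C.Lt (fg γ' f) (F T') (T' * L - t)) (e τ) ∘L (lif (e τ).1 ∘L nu (e τ).1)
  have inv := fun τ (hτ : τ ∈ Icc (0 : ℝ) 1) j hj
      (hb : ∀ i, j < i → i ≤ T' → x i τ ∈ ball (0 : ZL m) k.R) =>
    C.nd_inv H hm hC frm fw hf' (x := fun j => x j τ) (A := fun j => A j τ)
      (fun j hj => congrFun (hx j hj) τ) (fun j hj => hA j hj τ) (t3 _ (eb τ hτ)).1
      (congrFun xT τ) (congrFun AT τ) j hj fun i a b => ball_subset_ball (kR.trans_le RR) (hb i a b)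
  have tru : ∀ τ ∈ Icc (0 : ℝ) 1, ∀ j ≤ T',
      (∀ i, j < i → i ≤ T' → x i τ ∈ ball (0 : ZL m) k.R) →
      ‖(x j τ).1‖ < C.rr m ∧ C.Ps (F j) (x j τ) = C.fu (j * L) (c τ) ∧
        ∀ b, C.Euu (F j) (x j τ) (A j τ b) := fun τ hτ j hj hb => by
    obtain ⟨k1, k2, k3⟩ := inv τ hτ j hj hb
    refine ⟨by rw [k2]; exact C.norm_Lt H hm (frm j) k1 _, by
      rw [k2, C.Ps_Lt H hm hf' (frm j) k1, ps τ hτ, C.fu_add (hc τ hτ).1, add_sub_cancel],
      fun b => ?_⟩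
    rw [k2, k3]
    refine Euu.map C H hm hf' (frm j) k1 ⟨(nu (e τ).1 b).1, ?_⟩ _
    rw [C.Su_fg H hf hγ' (C.Dm_lt H hm hf (en τ hτ))]
    exact congrArg (lif (e τ).1)
      (Prod.ext rfl (PD.mem_E.1 (hE _ (hsub (box _ (hc τ hτ).2.2.1).1) b)))
  have sub : ∀ τ ∈ Icc (0 : ℝ) k.τ0, τ ∈ Icc (0 : ℝ) 1 := fun τ hτ => ⟨hτ.1, hτ.2.trans kτ⟩
  have h0' : (0 : ℝ) ∈ Icc (0 : ℝ) k.τ0 := ⟨le_rfl, τ0⟩
  have zn : ∀ τ ∈ Icc (0 : ℝ) k.τ0, ‖(z τ).1‖ < C.rr m := fun τ hτ =>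
    (box _ (hz τ hτ).1).2.1.trans_lt q2
  have e1 : ∀ j : ℕ, Real.exp (-(a * (j * L))) ≤ 1 := fun j =>
    Real.exp_le_one_iff.2 (neg_nonpos.2 (by positivity))
  have m0 : 0 < min ε (min (R / 2) 1) := by positivity
  have bl : ∀ (j : ℕ) (w : ZL m), ‖w‖ ≤ min ε (min (R / 2) 1) * Real.exp (-(a * (j * L))) →
      w ∈ ball (0 : ZL m) k.R := fun j w hw => mem_ball_zero_iff.2 (by
    linarith [mul_le_of_le_one_right m0.le (e1 j),
      (min_le_right ε (min (R / 2) 1)).trans (min_le_left _ _)])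
  have kn : ∀ τ ∈ Icc (0 : ℝ) k.τ0, ∀ j ≤ T', ∀ i, j ≤ i → i ≤ T' →
      ‖x i τ‖ ≤ min ε (min (R / 2) 1) * Real.exp (-(a * (i * L))) := fun τ hτ j hj => by
    have key : ∀ j ≤ T', (∀ i, j < i → i ≤ T' → x i τ ∈ ball (0 : ZL m) k.R) →
        ‖x j τ‖ ≤ min ε (min (R / 2) 1) * Real.exp (-(a * (j * L))) := fun j hj hb => by
      obtain ⟨k1, k2, -⟩ := tru τ (sub τ hτ) j hj hb
      obtain ⟨w, w1, w2⟩ := hk f (F j) (z 0) (z τ) (j * L) hf (frm j) (zn 0 h0') (zn τ hτ)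
        (box _ (hz 0 h0').1).2.2 (box _ (hz τ hτ).1).2.2
        ((box2 _ (hz 0 h0').1 _ (hz τ hτ).1).trans (by linarith)) (by positivity)
        (by rw [← (hz 0 h0').2, ← (hz τ hτ).2]; exact (hc τ (sub τ hτ)).2.1)
        (by rw [← (hz 0 h0').2, hbv])
      rwa [C.Ps_inj H hm (frm j) k1
        ((hC _ (frm j)).1 w (ball_subset_ball (kR.trans_le RR) (bl j w w1))).1.1
        (by rw [k2, w2, (hz τ hτ).2])]
    induction hj using Nat.decreasingInduction with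
    | self => exact fun i a b => key i b fun i' a' b' => by omega
    | of_succ j hj ih =>
      intro i a b
      rcases a.eq_or_lt with rfl | a
      · exact key _ b fun i' a' b' => bl i' _ (ih i' a' b')
      · exact ih i a b
  have kn' := fun τ hτ j hj => kn τ hτ 0 T'.zero_le j j.zero_le hj
  have ch := fun j y (hy : y ∈ ball (0 : ZL m) k.R) =>
    (hC _ (frm j)).1 y (ball_subset_ball (kR.trans_le RR) hy)
  simp only [← fw] at ch
  have EΛ := Real.exp_le_exp.2 kΛ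
  have jet : ∀ (u : ℕ → ℝ) (j : ℕ), |u j| ≤ k.d j → ∀ w : ℝ, w ≤ u j * Real.exp (-(g * T)) ^ j →
      w ≤ k.d j * Real.exp (-(k.g * T')) ^ j := fun u j h w hw => hw.trans
    (mul_le_mul ((le_abs_self _).trans h) (pow_le_pow_left₀ E0.le E1 j) (by positivity)
      ((abs_nonneg _).trans h))
  obtain ⟨g1, g2, g3⟩ := hr0 f (F 0) (z 0) 0 hf (frm 0) (box _ (hz 0 h0').1).2.1
    (box _ (hz 0 h0').1).2.2 (by simp) (by rw [hbv, ← (hz 0 h0').2]; simp)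
  have g4 : closedBall ((z0, 0) : ZL m) r ⊆ ball (z 0) r0 := fun y hy =>
    mem_ball_iff_norm.2 ((box2 _ hy _ (hz 0 h0').1).trans_lt (by linarith))
  let p0 : C.Ix m (0 + 3) := ⟨((f, F 0), 0), ⟨hf, frm 0, g2⟩, by simp⟩
  refine ⟨F, x, A, frm, fw, hbv, ⟨fun j _ y hy => (ch j y hy).2.1.contDiffWithinAt,
    fun j _ => by rw [fw]; exact (hC _ (frm j)).2.1, fun j _ y hy => (ch j y hy).2.2.1.trans EΛ,
    fun j _ y hy i hi => ((ch j y hy).2.2.2.1 i hi).trans (kc i),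
    fun j _ y hy v => ((ch j y hy).2.2.2.2.1 v).trans
      (mul_le_mul_of_nonneg_right EΛ (norm_nonneg _)), fun j _ y h hy => ?_,
    fun j _ y h hy => ((ch j y hy).2.2.2.2.2.2 h).trans
      (mul_le_mul_of_nonneg_right (by linarith [le_abs_self K0]) (norm_nonneg _)),
    fun y => (norm_fst_le y.1).trans (norm_fst_le y), hx, fun τ hτ => ?_, fun τ hτ j hj => ?_⟩,
    ⟨⟨hA, fun τ hτ => ?_⟩, fun τ hτ b => ?_⟩, tru, fun τ hτ j hj => (kn' τ hτ j hj).trans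
      ((mul_le_of_le_one_right m0.le (e1 j)).trans (min_le_left _ _)), fun τ hτ => ?_,
    fun y hy => ⟨(g3 y (g4 hy)).1, ((hK1 p0).1 y (g3 y (g4 hy))).2, fun y' hy' =>
      ⟨((hK1 p0).2 _ (convex_ball _ _) g3 _ (g4 hy) _ (g4 hy')).1,
        ((hK1 p0).2 _ (convex_ball _ _) g3 _ (g4 hy) _ (g4 hy')).2.2⟩⟩⟩
  · obtain ⟨k1, k2⟩ := (ch j y hy).2.2.2.2.2.1 h
    have : 1 / 2 ≤ Real.exp (-k.χ) := by
      rw [one_div, ← Real.exp_log two_pos, ← Real.exp_neg]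
      exact Real.exp_le_exp.2 (neg_le_neg kχ)
    exact ⟨k1, by nlinarith [norm_nonneg y.1.1]⟩
  · obtain ⟨k1, k2, -⟩ := tru τ hτ T' le_rfl fun i a b => by omega
    have a1 := u.at (i := p) (t3 _ (eb τ hτ))
    refine ⟨by rw [xT]; exact a1.comp τ (hc τ hτ).2.2.2.2.1, ⟨k1, ?_⟩, ?_, fun j hj => ?_⟩
    · rw [hbv, k2]
      exact (hc τ hτ).2.1.fu ha (hc 0 h0).1 (hc τ hτ).1 _
    · rw [xT]
      refine (xn τ hτ).trans ?_
      rw [← mul_assoc]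
      exact mul_le_mul (by linarith) E1 E0.le (by linarith)
    · rw [xT]
      exact jet dx j ((le_add_of_nonneg_right (abs_nonneg _)).trans (kd j)) _
        (hdx _ _ _ e τ _ E0.le a1 (fun j => hb j p _ (t3 _ (eb τ hτ))) (hc τ hτ).2.2.2.2.1
          (hc τ hτ).2.2.2.2.2 j)
  · refine ⟨bl j _ (kn' τ hτ j hj), (kn' τ hτ j hj).trans (mul_le_mul
      (((min_le_right _ _).trans (min_le_right _ _)).trans (by linarith))
      (Real.exp_le_exp.2 ?_) (Real.exp_pos _).le (by linarith))⟩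
    nlinarith [mul_le_mul_of_nonneg_right kχ' (Nat.cast_nonneg (α := ℝ) j)]
  · have m1 : e τ ∈ ball ((z0, 0) : ZL m) (δ' + r) :=
      closedBall_subset_ball (by linarith) (hc τ hτ).2.2.1
    have a1 := u3.at (i := p) ⟨t3 _ (eb τ hτ), m1⟩
    rw [AT]
    refine ⟨a1.comp τ (hc τ hτ).2.2.2.2.1, fun j => ?_⟩
    have a2 := (le_add_of_nonneg_left (abs_nonneg _)).trans (kd j)
    refine (jet dA j a2 _ (hdA _ _ _ e τ _ E0.le a1 (fun j => hbA j p _ ⟨t3 _ (eb τ hτ), m1⟩)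
      (hc τ hτ).2.2.2.2.1 (hc τ hτ).2.2.2.2.2 j)).trans (mul_le_mul_of_nonneg_right
        (le_mul_of_one_le_right ((abs_nonneg _).trans a2) (Real.one_le_exp (by positivity)))
        (by positivity))
  · have d1 := (t3 _ (eb τ hτ)).1
    have a1 := ((hcT p').1 (C.Lt (fg γ' f) (F T') (T' * L - t) (e τ))
      ⟨(C.Lt_symm H hm hf' (frm T') d1).1, ((norm_snd_le _).trans (xn τ hτ)).trans_lt
        (sm.trans_le ((min_le_right _ _).trans (by linarith [abs_nonneg K])))⟩).2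
    have a2 := (ContinuousLinearMap.le_opNorm _ _).trans
      (mul_le_mul_of_nonneg_right a1 (norm_nonneg (A T' τ b)))
    rw [AT] at a2 ⊢
    erw [C.fderiv_Lt_symm H hm hf' (frm T') d1] at a2
    refine (hcn _ (box _ (hc τ hτ).2.2.1).1 b).trans ((mul_le_mul_of_nonneg_left
      ((le_lif _ _).trans a2) cn0.le).trans ?_)
    rw [← mul_assoc]
    exact mul_le_mul_of_nonneg_right (by linarith) (norm_nonneg _)
  · have hτ' := sub τ hτ
    obtain ⟨k1, k2, k3⟩ := inv τ hτ' 0 T'.zero_le fun i _ b => bl i _ (kn' τ hτ i b)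
    obtain ⟨l1, l2⟩ := C.loc H hm hf hf' (zn τ hτ) (en τ hτ') (by rw [ps τ hτ', (hz τ hτ).2])
    have l3 : C.Tf f (fg γ' f) (z τ).1 = (e τ).1 := congrArg Prod.fst l2
    have e0 : t + ((0 : ℕ) * L - t) = 0 := by simp
    rw [← l2] at k1
    refine ⟨by rw [k2, ← l2, (C.Lt_comp H hm hf' (frm 0) l1 k1).2, e0], fun b => ?_⟩
    obtain ⟨b', hb'⟩ := heq _ (hsub (box _ (hz τ hτ).1).1) _ (C.R_Tf hγ' l1)
      (by rw [l3]; exact hsub (box _ (hc τ hτ').2.2.1).1) b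
    refine ⟨b', ?_⟩
    rw [k3, ← e0, ← C.fderiv_Lt_comp H hm hf hf' (frm 0) l1 k1, C.fderiv_Lt_lif H hm hf hf' l1, hb',
      l2, l3]
    rfl

end Crest.Agent.N221
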