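import Crest.Agent.N221.Ni.Pl
import Crest.Agent.N221.Ni.Nd
import Crest.Agent.N221.Ni.Lk
import Crest.Agent.N221.Ni.Fl
import Crest.Agent.N221.Ni.Ps
import Crest.Agent.N221.Ni.Bk
import Crest.Agent.N221.Ni.Chn
import Crest.Agent.N221.NC.CoreF
import Crest.Agent.N221.NC.AngF1
import Crest.Agent.N221.NC.AngG
import Crest.Agent.N221.NC.KnF
import Crest.Agent.N221.NC.CmpG
import Crest.Agent.N221.NC.Esc
import Crest.Agent.N221.NC.Ext
import Crest.Agent.N221.NC.Ap
import Crest.Agent.N221.NC.Gram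
import Crest.Agent.N221.NC.Grid

/-! Row 221, block Ni (helper80): the polygon, all leaves plugged in. -/

namespace Crest.Agent.N221

theorem coreB : NC.CoreF :=
  have hA := NC.apS NC.escS NC.extS
  NC.coreF NC.escS (NC.cmpF' hA) (NC.angF (NC.angF1 NC.gramS NC.gridS hA NC.knF) (NC.cmpF' hA))
    NC.avgS

theorem polyB : PolyS := polyS_of coreB chnS (ndS flS psS) (lkS flS psS (bkS flS psS))

end Crest.Agent.N221
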