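import Crest.Agent.N221.Ni.Nod
import Crest.Agent.N221.NC.Fd
import Crest.Agent.N221.G0.ApB
import Crest.Agent.N221.A1.Dy

/-! Row 221, block Ni (helper84): the structures `Crv`, `LinkF`, `BkF` of the core for nodes. -/

set_option autoImplicit false

open Set Filter Topology Metric
open scoped ContDiff RealInnerProductSpace Nat
open Crest.GeometryTopology.Submanifold
open Crest.Agent.R241.DDefs Crest.Agent.R241.D2
open Crest.Agent.R208.J Crest.Agent.R208.L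

noncomputable section

namespace Crest.Agent.N221

open Ex NC

/-- a uniformly smooth family keeps flat profiles -/
lemma ub_prof {ι X Y : Type} [NormedAddCommGroup X] [NormedSpace ℝ X] [NormedAddCommGroup Y]
    [NormedSpace ℝ Y] {U : ι → Set X} {ψ : ι → X → Y} (h : UB U ψ) (d : ℕ → ℝ) :
    ∃ d' : ℕ → ℝ, (∀ j, 0 ≤ d' j) ∧ ∀ (i : ι) (e : ℝ → X) (τ ε : ℝ), 0 ≤ ε → e τ ∈ U i →
      ContDiffAt ℝ ∞ e τ → (∀ j, 1 ≤ j → ‖iteratedDeriv j e τ‖ ≤ d j * ε ^ j) →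
      ∀ j, ‖iteratedDeriv j (fun t => ψ i (e t)) τ‖ ≤ d' j * ε ^ j := by
  choose c hc hb using h.bdn
  have hs : ∀ j, 0 ≤ ∑ i ∈ Finset.range (j + 1), |d i| := fun j =>
    Finset.sum_nonneg fun _ _ => abs_nonneg _
  refine ⟨fun j => j ! * c j * (1 + ∑ i ∈ Finset.range (j + 1), |d i|) ^ j, fun j => by
    have := hc j; have := hs j; positivity, fun i e τ ε hε hU he hd j => ?_⟩
  rw [← norm_iteratedFDeriv_eq_norm_iteratedDeriv, mul_assoc, ← mul_pow]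
  refine G0.comp_at j (h.at hU) he (fun k hk => hb j k hk i _ hU) fun k h1 hk => ?_
  rw [norm_iteratedFDeriv_eq_norm_iteratedDeriv, mul_pow]
  refine (hd k h1).trans (mul_le_mul_of_nonneg_right ?_ (by positivity))
  have a1 : |d k| ≤ ∑ i ∈ Finset.range (j + 1), |d i| :=
    Finset.single_le_sum (f := fun i => |d i|) (fun _ _ => abs_nonneg _)
      (Finset.mem_range.2 (by omega))
  exact ((le_abs_self _).trans (by linarith)).trans (le_self_pow₀ (by linarith [hs j]) (by omega))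

/-- uniform injectivity on a compact set -/
lemma exists_floor {X V W : Type} [TopologicalSpace X] [NormedAddCommGroup V] [NormedSpace ℝ V]
    [ProperSpace V] [NormedAddCommGroup W] [NormedSpace ℝ W] {B : X → V →L[ℝ] W} {K : Set X}
    (hK : IsCompact K) (hB : ContinuousOn B K) (hi : ∀ z ∈ K, Function.Injective (B z)) :
    ∃ μ : ℝ, 0 < μ ∧ ∀ z ∈ K, ∀ b, ‖b‖ ≤ μ * ‖B z b‖ := by
  obtain ⟨ε, h0, h⟩ := (hK.prod (isCompact_sphere (0 : V) 1)).exists_forall_le'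
    (f := fun p : X × V => ‖B p.1 p.2‖) (a := 0)
    ((hB.comp continuousOn_fst fun _ hp => hp.1).clm_apply continuousOn_snd).norm fun p hp => by
      refine norm_pos_iff.2 fun e => ?_
      have := hi p.1 hp.1 (e.trans (map_zero _).symm)
      simpa [this] using hp.2
  refine ⟨ε⁻¹, by positivity, fun z hz b => ?_⟩
  rcases eq_or_ne b 0 with rfl | hb
  · simp
  have nb := norm_pos_iff.2 hb
  have := h (z, ‖b‖⁻¹ • b) ⟨hz, by simp [norm_smul, nb.ne']⟩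
  simp only [map_smul, norm_smul, norm_inv, norm_norm] at this
  rw [inv_mul_eq_div, le_div_iff₀ nb] at this
  rw [inv_mul_eq_div, le_div_iff₀ h0]; linarith

namespace Cov

variable {n N m : ℕ} {a : ℝ} {S : Set (Euc N)} {G : Geo n N (-(a ^ 2)) S} {C : Cov G}
variable {V : Type} [NormedAddCommGroup V] [NormedSpace ℝ V]
variable {f f' F F' : FF n N m} {K Λ L R δ t t' τ ε : ℝ} {M s : ℕ} {B : ZL m → V →L[ℝ] ZL m}
  {c c' : ℝ → Euc n × Euc N} {e e' : ℝ → ZL m} {x x' : ℕ → ℝ → ZL m}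
  {A A' : ℕ → ℝ → V →L[ℝ] ZL m} {cc : ℕ → ℝ} {k : Cst}

/-- the constants of the core -/
structure Kc (a K Λ L R : ℝ) (cc : ℕ → ℝ) (k : Cst) : Prop where
  R : k.R = R
  Λ : k.Λ = Λ
  c : k.c = cc
  χ : k.χ ≤ Real.log 2
  χ' : k.χ ≤ a * L
  K : K ≤ k.K
  K2 : 2 ≤ k.K
  τ1 : k.τ0 ≤ 1

variable (H : Hyp n N a S) (hm : m + 1 = n)
include H hm

/-- the known part stays near the centre orbit -/
lemma Nd.known (h : C.Nd f F L t M B c e x A) (g : C.Gc m K Λ L R δ cc) (hτ : τ ∈ Icc (0 : ℝ) 1)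
    (ss : C.Sss (c 0) (c τ)) (hd : C.du (c 0) (c τ) ≤ ε) (e1 : K * ε ≤ δ) (e2 : K * (K * ε) < R) :
    ∀ s ≤ M, C.du (C.fu (s * L) (c 0)) (C.fu (s * L) (c τ)) ≤ K * ε ∧
      C.Tru f F L t B e x A s τ ∧ ‖x s τ‖ ≤ K * (K * ε) * Real.exp (-(a * L * s)) := by
  have K1 := g.K1
  have e0 : 0 ≤ ε := (C.du_nonneg _ _).trans hd
  have L0 : 0 ≤ L := by linarith [g.L1]
  have e3 : ε ≤ 1 := by nlinarith [g.R1, mul_nonneg e0 (sub_nonneg.2 K1)]
  have b1 : ∀ s : ℕ, C.du (C.fu (s * L) (c 0)) (C.fu (s * L) (c τ)) ≤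
      K * ε * Real.exp (-(a * L * s)) := fun s => by
    refine (g.con _ _ h.un0 (h.un τ hτ) ss (hd.trans e3) _ (by positivity)).trans ?_
    rw [show a * (s * L) = a * L * s by ring, mul_right_comm]
    gcongr
  have b2 : ∀ s : ℕ, C.du (C.fu (s * L) (c 0)) (C.fu (s * L) (c τ)) ≤ K * ε := fun s =>
    (b1 s).trans (mul_le_of_le_one_right (by positivity) (Real.exp_le_one_iff.2 (by
      have := H.a_pos; simp only [Left.neg_nonpos_iff]; positivity)))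
  intro s hs
  obtain ⟨k1, k2⟩ := h.close H hm g hτ (fun s _ => ⟨(b2 s).trans e1,
    (mul_le_mul_of_nonneg_left (b2 s) (by linarith)).trans_lt e2⟩) s hs
  refine ⟨b2 s, k1, k2.trans ?_⟩
  rw [mul_assoc]; gcongr; exact b1 s

lemma Nd.crv (h : C.Nd f F L t M B c e x A) (g : C.Gc m K Λ L R δ cc) (q : Kc a K Λ L R cc k)
    (ss : ∀ τ ∈ Icc (0 : ℝ) 1, C.Sss (c 0) (c τ))
    (top : ∀ τ ∈ Icc (0 : ℝ) 1, ContDiffAt ℝ ∞ (x M) τ ∧ ‖x M τ‖ ≤ k.K * Real.exp (-(k.g * M)) ∧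
      ∀ j, 1 ≤ j → ‖iteratedDeriv j (x M) τ‖ ≤ k.d j * Real.exp (-(k.g * M)) ^ j)
    (hd : ∀ τ ∈ Icc (0 : ℝ) k.τ0, C.du (c 0) (c τ) ≤ ε) (e1 : K * ε ≤ δ) (e2 : K * (K * ε) < R) :
    Crv k M (fun y => ‖y.1.1‖) (C.pb F L) (fun s => C.Lf (C.cf F L s)) x := by
  have hF := h.frF
  have hh : 1 / 2 ≤ Real.exp (-k.χ) := by
    rw [one_div, ← Real.exp_log two_pos, ← Real.exp_neg]
    exact Real.exp_le_exp.2 (neg_le_neg q.χ)
  refine ⟨fun s _ y hy => ?_, fun s _ => g.st0 F s hF, fun s _ y hy => ?_, fun s _ y hy => ?_,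
    fun s _ y hy => ?_, fun s _ y h1 hy => ?_, fun s _ y h1 hy => ?_,
    fun y => (norm_fst_le _).trans (norm_fst_le _), h.xS, fun τ hτ => ?_, fun τ hτ s hs => ?_⟩
  · rw [q.R] at hy
    exact (C.contDiffAt_Lt H hm (hF.cf C L _) (hF.cf C L _) (g.st F s hF y hy).1 _).contDiffWithinAt
  · rw [q.R] at hy; rw [q.Λ]; exact (g.st F s hF y hy).2.1
  · rw [q.R] at hy; rw [q.c]; exact (g.st F s hF y hy).2.2.1
  · rw [q.R] at hy; rw [q.Λ]; exact (g.st F s hF y hy).2.2.2.1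
  · rw [q.R] at hy
    obtain ⟨k1, k2⟩ := (g.st F s hF y hy).2.2.2.2.1 h1
    exact ⟨k1, by nlinarith [norm_nonneg (C.pb F L s y).1.1]⟩
  · rw [q.R] at hy
    exact ((g.st F s hF y hy).2.2.2.2.2 h1).trans (by gcongr; exact q.K)
  · obtain ⟨k1, k2, k3⟩ := top τ hτ
    refine ⟨k1, ⟨(h.tru_top hτ).lt H hm h, ?_⟩, k2, k3⟩
    rw [(h.tru_top hτ).ps H hm h hτ, h.bvs]
    exact (ss τ hτ).fu H.a_pos h.un0 (h.un τ hτ) _
  · have hτ' : τ ∈ Icc (0 : ℝ) 1 := ⟨hτ.1, hτ.2.trans q.τ1⟩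
    obtain ⟨-, -, k3⟩ := h.known H hm g hτ' (ss τ hτ') (hd τ hτ) e1 e2 s hs
    have e0 : 0 ≤ K * (K * ε) := by
      have := (C.du_nonneg _ _).trans (hd τ hτ); have := g.K1; positivity
    have b : Real.exp (-(a * L * s)) ≤ Real.exp (-(k.χ * s)) :=
      Real.exp_le_exp.2 (neg_le_neg (by gcongr; exact q.χ'))
    have b1 : Real.exp (-(a * L * s)) ≤ 1 := Real.exp_le_one_iff.2 (by
      have := H.a_pos; have := g.L1; simp only [Left.neg_nonpos_iff]; positivity)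
    refine ⟨mem_ball_zero_iff.2 (k3.trans_lt ?_), k3.trans ?_⟩
    · rw [q.R]; exact (mul_le_of_le_one_right e0 b1).trans_lt e2
    · exact mul_le_mul (by linarith [g.R1, q.K2]) b (Real.exp_pos _).le (by linarith [q.K2])

/-- the change of chart from the chain of `F'` to the chain of `F` -/
def hh (C : Cov G) (F F' : FF n N m) (L : ℝ) (s : ℕ) : ZL m → ZL m :=
  C.Lt (C.cf F' L s) (C.cf F L s) 0

lemma Nd.bk (h : C.Nd f F L t M B c e x A) (h' : C.Nd f' F' L t' M B c' e' x' A')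
    (g : C.Gc m K Λ L R δ cc) (q : Kc a K Λ L R cc k) (κ1 : k.κ0 ≤ 1)
    (cl : ∀ s : ℕ, (s : ℝ) ≤ k.κ0 * M → C.du (C.fu (s * L) (c 0)) (C.fu (s * L) (c' 0)) ≤ δ)
    (eu : ∀ τ ∈ Icc (0 : ℝ) 1, ∀ b, C.Euu f (e τ) (B (e τ) b)) :
    @BkF _ _ _ _ _ _ C.UP (C.ms H.a_pos.le).toPseudoMetricSpace k M x x' A (C.hh F F' L)
      (fun j τ => C.fu (-(j * L)) (c τ)) fun j τ => C.fu (-(j * L)) (c' τ) := by
  intro τ hτ s j hs hx hV b
  have R0 := g.R0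
  have K2 := q.K2
  have hsM : s ≤ M := by
    have : (s : ℝ) ≤ M := hs.trans (mul_le_of_le_one_left (by positivity) κ1)
    exact_mod_cast this
  have hR : k.R / k.K ≤ R / 2 := by rw [q.R]; gcongr
  have b1 : ∀ i, s ≤ i → i ≤ M → x i τ ∈ ball (0 : ZL m) R ∧ x' i τ ∈ ball (0 : ZL m) R :=
    fun i a1 a2 => ⟨mem_ball_zero_iff.2 (by linarith [(hx i a1 a2).1]),
      mem_ball_zero_iff.2 (by linarith [(hx i a1 a2).2])⟩
  have t1 := h.tru H hm g hτ hsM fun i a1 a2 => (b1 i a1.le a2).1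
  have t2 := h'.tru H hm g hτ hsM fun i a1 a2 => (b1 i a1.le a2).2
  have d := (g.ch _ _ (h.frF.cf C L s) (h'.frF.cf C L s) (by rw [h.bvs, h'.bvs]; exact cl s hs) _
    (b1 s le_rfl hsM).2).1
  have p2 : C.Ps (C.cf F L s) (C.hh F F' L s (x' s τ)) = C.fu (s * L) (c' τ) := by
    rw [hh, C.Ps_Lt H hm (h'.frF.cf C L s) (h.frF.cf C L s) d, C.fu_zero, t2.ps H hm h' hτ]
  have sj : (0 : ℝ) ≤ s + j := by positivity
  have Λ0 := g.Λ0
  have x1 : 1 ≤ Real.exp (k.Λ * (s + j)) := Real.one_le_exp (by rw [q.Λ]; positivity)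
  have n1 : ‖x s τ‖ ≤ R / 2 := (hx s le_rfl hsM).1.trans hR
  have n2 : ‖C.hh F F' L s (x' s τ)‖ ≤ R := by
    have := norm_add_le (C.hh F F' L s (x' s τ) - x s τ) (x s τ)
    rw [sub_add_cancel] at this
    nlinarith [norm_nonneg (C.hh F F' L s (x' s τ) - x s τ)]
  have := g.bk _ _ _ _ (s + j) (h.frF.cf C L s) (by linarith) n2 (t1.euu H hm h b (eu τ hτ b)) sj
  rw [p2, t1.ps H hm h hτ, C.fu_add (h.un τ hτ), C.fu_add (h'.un τ hτ),
    show (s : ℝ) * L + -((s + j) * L) = -(j * L) by ring] at this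
  refine this.trans ?_
  have a1 : Real.exp (-(a * L * (s + j))) ≤ Real.exp (-(k.χ * (s + j))) :=
    Real.exp_le_exp.2 (neg_le_neg (by gcongr; exact q.χ'))
  have a2 : Real.exp (Λ * (s + j)) ≤ Real.exp (2 * Λ * (s + j)) :=
    Real.exp_le_exp.2 (by nlinarith [mul_nonneg Λ0.le sj])
  rw [q.Λ]
  have := q.K
  gcongr

lemma Nd.link (h : C.Nd f F L t M B c e x A) (h' : C.Nd f' F' L t' M B c' e' x' A')
    (g : C.Gc m K Λ L R δ cc) (q : Kc a K Λ L R cc k) (κ1 : k.κ0 ≤ 1)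
    (ss : ∀ τ ∈ Icc (0 : ℝ) 1, C.Sss (c' 0) (c' τ))
    (hd : ∀ τ ∈ Icc (0 : ℝ) k.τ0, C.du (c' 0) (c' τ) ≤ ε) (e0 : 0 ≤ K * ε)
    (e1 : 2 * (K * ε) ≤ δ) (e2 : 2 * (K * (K * ε)) < R)
    (cl : ∀ s : ℕ, (s : ℝ) ≤ k.κ0 * M → C.du (C.fu (s * L) (c 0)) (C.fu (s * L) (c' 0)) ≤ K * ε)
    (kn : ∀ τ ∈ Icc (0 : ℝ) k.τ0, ‖C.hh F F' L 0 (x' 0 τ) - x 0 τ‖ ≤ k.K * k.D M ∧
      ∃ b, ‖C.hh F F' L 0 (x' 0 τ) - x 0 τ - A 0 τ b‖ ≤ k.K * k.D M ^ 2) :
    LinkF k M (C.pb F L) x x' A (C.hh F F' L) := by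
  have hF := h.frF.cf C L
  have hF' := h'.frF.cf C L
  have K1 := g.K1
  have ch := fun (s : ℕ) (hs : (s : ℝ) ≤ k.κ0 * M) => g.ch _ _ (hF s) (hF' s)
    (by rw [h.bvs, h'.bvs]; linarith [cl s hs])
  have hle : ∀ s : ℕ, (s : ℝ) ≤ k.κ0 * M → s ≤ M := fun s hs => by
    have : (s : ℝ) ≤ M := hs.trans (mul_le_of_le_one_left (by positivity) κ1)
    exact_mod_cast this
  refine ⟨fun s hs => ⟨fun y hy => ?_, fun y hy => ?_⟩, fun τ hτ s hs => ?_,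
    fun τ hτ s hs a1 a2 a3 => ?_, kn⟩
  · rw [q.R] at hy
    exact (C.contDiffAt_Lt H hm (hF' s) (hF s) (ch s hs y hy).1 _).contDiffWithinAt
  · rw [q.R] at hy; rw [q.c]; exact (ch s hs y hy).2
  · have hτ' : τ ∈ Icc (0 : ℝ) 1 := ⟨hτ.1, hτ.2.trans q.τ1⟩
    obtain ⟨k1, k2, k3⟩ := h'.known H hm g hτ' (ss τ hτ') (hd τ hτ) (by linarith)
      (by nlinarith) s (hle s hs)
    have b1 : Real.exp (-(a * L * s)) ≤ 1 := Real.exp_le_one_iff.2 (by
      have := H.a_pos; have := g.L1; simp only [Left.neg_nonpos_iff]; positivity)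
    have e4 : 0 ≤ K * (K * ε) := by positivity
    have d := (ch s hs _ (mem_ball_zero_iff.2 (k3.trans_lt
      ((mul_le_of_le_one_right e4 b1).trans_lt (by linarith))))).1
    have p2 : C.Ps (C.cf F L s) (C.hh F F' L s (x' s τ)) = C.fu (s * L) (c' τ) := by
      rw [hh, C.Ps_Lt H hm (hF' s) (hF s) d, C.fu_zero, k2.ps H hm h' hτ']
    have b2 := (C.du_triangle H.a_pos.le _ _ _).trans (add_le_add (cl s hs) k1)
    have := g.norm_le H hm (hF s) (C.norm_Lt H hm (hF s) d 0)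
    change C.du _ (C.Ps _ (C.hh F F' L s (x' s τ))) ≤ δ → ‖C.hh F F' L s (x' s τ)‖ ≤
      K * C.du _ (C.Ps _ (C.hh F F' L s (x' s τ))) at this
    rw [p2, h.bvs] at this
    rw [q.R, mem_ball_zero_iff]
    exact (this (by linarith)).trans_lt (by nlinarith)
  · rw [q.R] at a1 a2 a3
    have hs' : (s : ℝ) ≤ k.κ0 * M := le_trans (by push_cast; linarith) hs
    have hx := congrFun (h'.xS s (hle _ hs)) τ
    rw [Function.comp] at hx
    have d1 := (g.st F' s h'.frF _ a1).1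
    have d2 := (ch s hs' _ a2).1
    rw [hx] at d2
    rw [hx, hh, pb, (C.Lt_comp H hm (hF' s) (hF s) d1 d2).2, hh, pb,
      (C.Lt_comp H hm (hF (s + 1)) (hF s) (ch _ hs _ a1).1 (g.st F s h.frF _ a3).1).2,
      add_comm (-L)]

end Cov

end Crest.Agent.N221
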