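import Crest.Agent.N221.Ni.Bas
import Crest.Agent.N221.NB.Defs
import Crest.Agent.N221.Dy.End
import Crest.Agent.N221.Dy.Sp

/-! Row 221, block Ni (helper34): the dynamics `NB.Dyn` on the unit vectors of the cover. -/

set_option autoImplicit false
set_option linter.unusedSectionVars false
set_option linter.unusedVariables false

open Set Filter Topology Metric
open scoped ContDiff RealInnerProductSpace
open Crest.GeometryTopology.Submanifold
open Crest.Agent.R241.DDefs Crest.Agent.R241.D2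
open Crest.Agent.R208.J Crest.Agent.R208.L

noncomputable section

namespace Crest.Agent.N221.Cov

variable {n N m : ℕ} {a : ℝ} {S : Set (Euc N)} {G : Geo n N (-(a ^ 2)) S} (C : Cov G)

/-- unit vectors of the cover -/
structure UV (C : Cov G) (H : Hyp n N a S) where
  v : Euc n × Euc N
  un : C.Un v.1 v.2

variable {C} {H : Hyp n N a S}

lemma UV.ext' {p q : C.UV H} (h : p.v = q.v) : p = q := by
  cases p; cases q; cases h; rfl

instance : MetricSpace (C.UV H) where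
  dist p q := C.du p.v q.v
  dist_self p := by simp [du, C.dd_self]
  dist_comm p q := by simp only [du]; rw [C.dd_comm, norm_sub_rev]
  dist_triangle p q r := max_le
    ((C.dd_triangle H.a_pos.le _ q.v.1 _).trans (add_le_add (le_max_left _ _) (le_max_left _ _)))
    ((norm_sub_le_norm_sub_add_norm_sub _ q.v.2 _).trans
      (add_le_add (le_max_right _ _) (le_max_right _ _)))
  eq_of_dist_eq_zero {p q} h := UV.ext' (Prod.ext
    (C.eq_of_dd (le_antisymm ((le_max_left _ _).trans h.le) (C.dd_nonneg _ _)))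
    (sub_eq_zero.1 (norm_le_zero_iff.1 ((le_max_right _ _).trans h.le))))

lemma UV.dist_def (p q : C.UV H) : dist p q = max (C.dd p.v.1 q.v.1) ‖p.v.2 - q.v.2‖ := rfl

lemma UV.dd_le (p q : C.UV H) : C.dd p.v.1 q.v.1 ≤ dist p q := le_max_left _ _

lemma UV.norm_le (p q : C.UV H) : ‖p.v - q.v‖ ≤ dist p q :=
  max_le_max (C.norm_sub_le_dd H.a_pos.le _ _) le_rfl

lemma UV.sub_le (p q : C.UV H) : ‖p.v.2 - q.v.2‖ ≤ 2 :=
  (norm_sub_le _ _).trans (by rw [p.un.norm, q.un.norm]; norm_num)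

lemma UV.cont : Continuous (UV.v : C.UV H → _) :=
  (LipschitzWith.of_dist_le_mul (K := 1) fun p q => by
    simpa [dist_eq_norm] using UV.norm_le p q).continuous

lemma UV.tendsto {α : Type} {l : Filter α} {F : α → C.UV H} {p : C.UV H}
    (h : Tendsto (fun x => (F x).v) l (𝓝 p.v)) : Tendsto F l (𝓝 p) := by
  rw [tendsto_iff_dist_tendsto_zero]
  have c : Continuous fun x : Euc n × Euc N => max (C.dd x.1 p.v.1) ‖x.2 - p.v.2‖ :=
    (C.cont_dd continuous_fst continuous_const).max (by fun_prop)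
  have := (c.tendsto p.v).comp h
  rw [C.dd_self, sub_self, norm_zero, max_self] at this
  exact this

variable (C H) in
/-- the data -/
def dat : NB.Dat (C.UV H) (Euc n) where
  Mv T := {e | ∃ g, C.Deck g ∧ ∀ p, (e p).v = C.mv g T p.v}
  ξ p := C.ep p.v.1 p.v.2
  η p := C.ep p.v.1 (-p.v.2)
  s p := C.b (C.ep p.v.1 p.v.2) p.v.1
  u p := C.b (C.ep p.v.1 (-p.v.2)) p.v.1

variable {g k : Euc n → Euc n} {p : Euc n × Euc N}

lemma mv_mv' (hg : C.Deck g) (hk : C.Deck k) (hp : C.Un p.1 p.2) (s t : ℝ) :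
    C.mv g s (C.mv k t p) = C.mv (g ∘ k) (s + t) p := by
  rw [C.mv_mv hk hp, add_comm]

lemma mv_zero (h : ∀ x, g x = x) : C.mv g 0 p = p := by
  simp [mv, h, C.gd_zero, C.vel_zero]

/-- a move as a map of unit vectors -/
def mvU (hg : C.Deck g) (t : ℝ) (p : C.UV H) : C.UV H := ⟨C.mv g t p.v, C.un_mv hg p.un t⟩

lemma exists_mv (hg : C.Deck g) (t : ℝ) :
    ∃ e ∈ (C.dat H).Mv t, ∀ p, (e p).v = C.mv g t p.v := by
  obtain ⟨k, hk, h1, h2⟩ := hg.inv C
  refine ⟨⟨mvU hg t, mvU hk (-t), fun p => UV.ext' ?_, fun p => UV.ext' ?_⟩,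
    ⟨g, hg, fun _ => rfl⟩, fun _ => rfl⟩
  · exact (mv_mv' hk hg p.un _ _).trans (by rw [neg_add_cancel]; exact mv_zero h1)
  · exact (mv_mv' hg hk p.un _ _).trans (by rw [add_neg_cancel]; exact mv_zero h2)

lemma sinh_le' {x : ℝ} (hx : 0 ≤ x) : Real.sinh x ≤ x * Real.exp x := by
  have h1 := Real.add_one_le_exp (-(2 * x))
  have h2 : Real.exp (-x) = Real.exp x * Real.exp (-(2 * x)) := by
    rw [← Real.exp_add]; ring_nf
  rw [Real.sinh_eq, h2]
  nlinarith [Real.exp_pos x]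

include H in
/-- contraction of the strong stable leaves at any distance -/
lemma con_ss (r : ℝ) : ∃ K > 0, ∀ (x y : Euc n) (v w : Euc N) (t : ℝ), C.Un x v → C.Un y w →
    C.ep x v = C.ep y w → C.b (C.ep x v) x = C.b (C.ep x v) y → C.dd x y ≤ r → 0 ≤ t →
    max (C.dd (C.gd x v t) (C.gd y w t)) ‖C.vel x v t - C.vel y w t‖ ≤
      K * Real.exp (-(a * t)) * C.dd x y := by
  have ha := H.a_pos
  obtain ⟨K, K0, hK⟩ := C.W_lip H
  refine ⟨(K + 2) * (2 * Real.exp (a * r)), by positivity, fun x y v w t hv hw e1 e2 d ht => ?_⟩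
  have n0 := C.ep_ne_zero ha hv
  have w1 : w = C.asy x v y := by rw [← C.W_ep ha hv, e1, C.W_ep_self ha hw]
  have b1 : C.bus x v y = 0 := by
    have := C.bus_gd ha hv 0
    rw [C.gd_zero, neg_zero] at this
    rw [C.b_ep ha hv, C.b_ep ha hv, this] at e2
    linarith
  have h1 := C.asy_tail ha hv y ht
  rw [b1, sub_zero, ← w1, C.dd_comm] at h1
  have d0 := C.dd_nonneg x y
  have h2 : C.dd (C.gd x v t) (C.gd y w t) ≤
      2 * Real.exp (a * r) * Real.exp (-(a * t)) * C.dd x y := by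
    refine h1.trans ?_
    have := (sinh_le' (mul_nonneg ha.le d0)).trans (mul_le_mul_of_nonneg_left
      (Real.exp_le_exp.2 (mul_le_mul_of_nonneg_left d ha.le)) (mul_nonneg ha.le d0))
    refine (mul_le_mul_of_nonneg_left this (by positivity)).trans_eq ?_
    field_simp
  have v1 : C.vel x v t = C.W (C.ep x v) (C.gd x v t) := by
    have := C.W_gd ha n0 x t
    rw [C.W_ep_self ha hv] at this
    exact this.symm
  have v2 : C.vel y w t = C.W (C.ep x v) (C.gd y w t) := by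
    have := C.W_gd ha (C.ep_ne_zero ha hw) y t
    rw [C.W_ep_self ha hw, ← e1] at this
    exact this.symm
  have d1 := C.dd_nonneg (C.gd x v t) (C.gd y w t)
  have h3 : ‖C.vel x v t - C.vel y w t‖ ≤ (K + 2) * C.dd (C.gd x v t) (C.gd y w t) := by
    rcases le_total (C.dd (C.gd x v t) (C.gd y w t)) 1 with h | h
    · rw [v1, v2]
      exact (hK _ _ _ n0 h).trans (by nlinarith)
    · refine (norm_sub_le _ _).trans ?_
      rw [(hv.vel C t).norm, (hw.vel C t).norm]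
      nlinarith
  refine (max_le (by nlinarith) h3).trans ?_
  calc (K + 2) * C.dd (C.gd x v t) (C.gd y w t) ≤ (K + 2) * (2 * Real.exp (a * r) *
        Real.exp (-(a * t)) * C.dd x y) := mul_le_mul_of_nonneg_left h2 (by positivity)
    _ = _ := by ring

lemma dist_mv {T : ℝ} {e : Equiv.Perm (C.UV H)} (he : e ∈ (C.dat H).Mv T) (p q : C.UV H) :
    dist (e p) (e q) = max (C.dd (C.gd p.v.1 p.v.2 T) (C.gd q.v.1 q.v.2 T))
      ‖C.vel p.v.1 p.v.2 T - C.vel q.v.1 q.v.2 T‖ := by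
  obtain ⟨g, hg, h⟩ := he
  rw [UV.dist_def, h, h]
  simp only [mv, hg.dd_eq C]

lemma node_aux (o : C.UV H) {V : Set (C.UV H)} (hV : V ∈ 𝓝 o) : ∃ K s₀ : ℝ, 0 < K ∧
    ∀ (p : C.UV H) T, 0 ≤ T → ∃ q, dist p q ≤ K * Real.exp (-(a * T)) ∧
      ∃ T₁ ∈ Icc T (T + s₀), ∃ f ∈ (C.dat H).Mv T₁, f q ∈ V := by
  have ha := H.a_pos
  obtain ⟨ρ, hρ, hV⟩ := Metric.mem_nhds_iff.1 hV
  obtain ⟨R, hR⟩ := C.spec H hρ
  obtain ⟨K, K0, hK⟩ := con_ss (C := C) (H := H) (4 * |R|)
  refine ⟨K * (4 * |R|) + 1, 2 * |R|, by positivity, fun p T hT => ?_⟩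
  obtain ⟨⟨x, v⟩, hv⟩ := p
  dsimp only at hv
  have u1 := hv.vel C (T + |R|)
  obtain ⟨g, hg, d1, d2, -⟩ := hR o.v.1 (-o.v.2) _ _ o.un.neg u1.neg
  rw [C.ep_gd_neg ha hv] at d2
  replace d1 := d1.trans (le_abs_self R)
  set η := C.ep x (-v) with hη
  have n0 : η ≠ 0 := C.ep_ne_zero ha hv.neg
  have n1 : ‖η‖ = 1 := C.norm_ep ha hv.neg
  set y := g o.v.1 with hy
  have uw := C.un_W ha n0 y
  set s := C.b η y - C.b η x - T with hs
  have b1 : C.b η (C.gd x v (T + |R|)) = C.b η x + (T + |R|) := C.b_ep_gd_neg H hv _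
  have b2 := abs_le.1 ((C.abs_b_sub_le ha n0 y (C.gd x v (T + |R|))).trans d1)
  have s0 : 0 ≤ s := by linarith [b2.1]
  have s1 : s ≤ 2 * |R| := by linarith [b2.2]
  obtain ⟨k, hk, k1, -⟩ := hg.inv C
  obtain ⟨e, he, e1⟩ := exists_mv (H := H) hk (T + s)
  have uq := (uw.vel C (s + T)).neg
  refine ⟨⟨(C.gd y (C.W η y) (s + T), -C.vel y (C.W η y) (s + T)), uq⟩, ?_, T + s,
    ⟨by linarith, by linarith⟩, e, he, hV ?_⟩
  · have u2 := (hv.vel C T).neg
    have u3 := uw.vel C s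
    have d3 : C.dd (C.gd x v T) (C.gd y (C.W η y) s) ≤ 4 * |R| := by
      have t1 := C.dd_triangle ha.le (C.gd x v T) (C.gd x v (T + |R|)) (C.gd y (C.W η y) s)
      have t2 := C.dd_triangle ha.le (C.gd x v (T + |R|)) y (C.gd y (C.W η y) s)
      rw [hv.dd_gd C, add_sub_cancel_left, abs_abs] at t1
      rw [uw.dd_gd_zero C, abs_of_nonneg s0, C.dd_comm _ y] at t2
      linarith
    have := hK _ _ _ _ T u2 u3 (by rw [C.ep_gd_neg ha hv, C.ep_gd ha uw, C.ep_W ha n1])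
      (by rw [C.ep_gd_neg ha hv, ← hη, C.b_gd ha n0, hη, C.b_ep_gd_neg H hv]; linarith) d3 hT
    rw [C.gd_neg, C.vel_neg (hv.vel C T).mem, C.gd_add hv.mem, C.vel_add hv.mem, C.gd_add uw.mem,
      C.vel_add uw.mem, add_neg_cancel, C.gd_zero, C.vel_zero] at this
    rw [UV.dist_def]
    dsimp only
    rw [← norm_neg, neg_sub', neg_neg]
    refine this.trans ?_
    have := Real.exp_pos (-(a * T))
    nlinarith [mul_le_mul_of_nonneg_left d3 (mul_pos K0 this).le]
  · rw [mem_ball, UV.dist_def, e1]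
    simp only [mv]
    rw [C.gd_neg, C.vel_neg (uw.vel C _).mem, C.gd_add uw.mem, C.vel_add uw.mem,
      show s + T + -(T + s) = 0 by ring, C.gd_zero, C.vel_zero, hy, k1, C.dd_self, ← hy]
    refine max_lt hρ ?_
    rwa [← norm_neg, neg_sub', neg_neg]

lemma mv_ep (hg : C.Deck g) (H : Hyp n N a S) (hp : C.Un p.1 p.2) (t : ℝ) :
    C.ep (C.mv g t p).1 (C.mv g t p).2 = C.act g (C.ep p.1 p.2) ∧
    C.b (C.act g (C.ep p.1 p.2)) (C.mv g t p).1 =
      C.b (C.ep p.1 p.2) p.1 - t - C.be g (C.ep p.1 p.2) := by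
  have ha := H.a_pos
  simp only [mv]
  rw [← C.act_ep ha hg (hp.vel C t), C.ep_gd ha hp, C.b_act ha hg (C.ep_ne_zero ha hp),
    C.b_ep_gd H hp]
  exact ⟨rfl, rfl⟩

theorem dyn : NB.Dyn (C.dat H) a where
  a_pos := H.a_pos
  one := ⟨id, C.deck_id, fun p => (mv_zero fun _ => rfl).symm⟩
  mul := by
    rintro s t e ⟨g, hg, h⟩ e' ⟨k, hk, h'⟩
    exact ⟨g ∘ k, hg.comp C hk, fun p => by
      rw [Equiv.Perm.mul_apply, h, h', mv_mv' hg hk p.un]⟩
  inv := by
    rintro t e ⟨g, hg, h⟩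
    obtain ⟨k, hk, h1, -⟩ := hg.inv C
    refine ⟨k, hk, fun p => ?_⟩
    obtain ⟨q, rfl⟩ := e.surjective p
    rw [show e⁻¹ (e q) = q from e.symm_apply_apply q, h, mv_mv' hk hg q.un, neg_add_cancel]
    exact (mv_zero h1).symm
  cont := by
    rintro t e ⟨g, hg, h⟩
    refine continuous_iff_continuousAt.2 fun p => UV.tendsto ?_
    simp only [h, mv]
    have c := (UV.cont (C := C) (H := H)).continuousAt (x := p)
    have c' : ContinuousAt (fun q : C.UV H => (q.v.1, q.v.2, t)) p :=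
      c.fst.prodMk (c.snd.prodMk continuousAt_const)
    exact (hg.smooth.continuous.continuousAt.comp (C.continuous_gd.continuousAt.comp c')).prodMk
      (ContinuousAt.comp (f := fun q : C.UV H => (q.v.1, q.v.2, t))
        (C.contDiffAt_vel p.un.mem t).continuousAt c')
  ss := by
    rintro t e ⟨g, hg, h⟩ p q ⟨h1, h2⟩
    obtain ⟨a1, a2⟩ := mv_ep hg H p.un t
    obtain ⟨a3, a4⟩ := mv_ep hg H q.un t
    simp only [NB.Dat.Ss, dat] at h1 h2 ⊢
    rw [h, h, a1, a3, a2, a4, h2, h1]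
    exact ⟨rfl, rfl⟩
  cs r := by
    obtain ⟨K, K0, hK⟩ := con_ss (C := C) (H := H) r
    refine ⟨K, K0, fun T hT e he p q h d => ?_⟩
    obtain ⟨h1, h2⟩ := h
    simp only [dat] at h1 h2
    rw [dist_mv he]
    exact (hK _ _ _ _ T p.un q.un h1 (by rw [h2, h1]) ((UV.dd_le p q).trans d) hT).trans
      (mul_le_mul_of_nonneg_left (UV.dd_le p q) (by positivity))
  node o V hV := node_aux o hV
  fin δ hδ := by
    obtain ⟨ρ, K, h0, h⟩ := C.end_lev H hδ
    refine ⟨K, ρ, h0, fun T e he p q d1 d2 => ?_⟩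
    rw [dist_mv he, max_le_iff] at d1
    exact h _ _ _ _ T p.un q.un d1.1 d1.2 (by rwa [dist_eq_norm] at d2)
  prop o r := by
    refine ⟨r + Real.log 2 / a + ‖o.v.1‖ + 2 + |r + Real.log 2 / a|, fun p h1 h2 => ?_⟩
    have h3 := C.prop_lev H p.un h1 h2
    have h4 := C.dd_triangle H.a_pos.le p.v.1 0 o.v.1
    rw [C.dd_comm _ 0, C.dd_zero, C.dd_zero] at h4
    have := UV.sub_le p o
    have := neg_abs_le (r + Real.log 2 / a)
    have := abs_nonneg (r + Real.log 2 / a)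
    have := norm_nonneg o.v.1
    exact max_le (by linarith) (by linarith)
  cξ := (C.continuousOn_ep H.a_pos).comp_continuous UV.cont fun p => p.un
  cs' := (C.continuousOn_b H.a_pos).comp_continuous
    (f := fun p : C.UV H => (C.ep p.v.1 p.v.2, p.v.1))
    (((C.continuousOn_ep H.a_pos).comp_continuous UV.cont fun p => p.un).prodMk UV.cont.fst)
    fun p => C.ep_ne_zero H.a_pos p.un

open Classical in
/-- the lifted chart with values in the unit vectors -/
def PsiU (H : Hyp n N a S) {f : FF n N m} (hf : C.Frm f) (y : ZL m) : C.UV H :=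
  if h : C.Un (C.Ps f y).1 (C.Ps f y).2 then ⟨C.Ps f y, h⟩ else ⟨bv f, hf.un⟩

lemma PsiU_v (hm : m + 1 = n) {f : FF n N m} (hf : C.Frm f) {y : ZL m} (hy : ‖y.1‖ < C.rr m) :
    (PsiU H hf y).v = C.Ps f y := by
  have h : C.Un (C.Ps f y).1 (C.Ps f y).2 :=
    C.un_fu (p := (C.hy f y.1.1, C.uv f y.1)) (C.un_uv H hf (C.Dm_lt H hm hf hy)) y.2
  rw [PsiU, dif_pos h]

lemma ss_iff {p q : C.UV H} : (C.dat H).Ss p q ↔ C.Sss p.v q.v := by
  simp only [NB.Dat.Ss, dat, Sss]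
  constructor
  · rintro ⟨h1, h2⟩
    exact ⟨h1.symm, by rw [h2, h1]⟩
  · rintro ⟨h1, h2⟩
    exact ⟨h1.symm, by rw [h1, h2]⟩

end Crest.Agent.N221.Cov
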