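import Crest.Agent.N221.Ni.NdD

/-! Row 221, Ni (helper50): the fields `known` and `mem` of `NC.LinkF` for two nodes. -/

set_option autoImplicit false

open Set Filter Topology Metric
open scoped ContDiff RealInnerProductSpace
open Crest.GeometryTopology.Submanifold
open Crest.Agent.R241.DDefs Crest.Agent.R241.D2
open Crest.Agent.R208.J Crest.Agent.R208.L

noncomputable section

namespace Crest.Agent.N221.Cov

variable {n N m : ℕ} {a : ℝ} {S : Set (Euc N)} {G : Geo n N (-(a ^ 2)) S} (C : Cov G)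
variable (H : Hyp n N a S) (hm : m + 1 = n)
include H hm

/-- the change of chart between close frames is almost centred -/
lemma Lt_near (h2 : PsS) : ∃ K δ₁ : ℝ, 1 ≤ K ∧ 0 < δ₁ ∧ ∀ (L Λ K0 R0 δ : ℝ) (c0 : ℕ → ℝ),
    C.Chn m L Λ K0 R0 δ c0 → ∀ F F' : FF n N m, C.Frm F → C.Frm F' → C.du (bv F) (bv F') ≤ δ →
    C.du (bv F) (bv F') ≤ δ₁ → ∀ y : ZL m, ‖y‖ < R0 →
      ‖C.Lt F' F 0 y‖ ≤ K * C.du (bv F) (bv F') + c0 1 * ‖y‖ := by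
  obtain ⟨K, δ, K1, δ0, h⟩ := h2 n N m a S G C H hm
  have r := C.rr_pos H hm
  refine ⟨K, min δ (C.rr m / (2 * K)), K1, by positivity,
    fun L Λ K0 R0 δ' c0 hc F F' hF hF' d1 d2 y hy => ?_⟩
  rw [le_min_iff, le_div_iff₀ (by positivity)] at d2
  obtain ⟨w, w1, w2⟩ := (h F hF).2 _ (hF'.un_bv C) d2.1
  obtain ⟨-, e⟩ := C.loc H hm (t := 0) (y := 0) hF' hF (by simpa using r)
    ((norm_fst_le w).trans_lt (by linarith [d2.2])) (by rw [C.fu_zero, C.Ps_zero H hF', w2])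
  have k := (hc F hF).2.2 F' hF' d1
  have b := (convex_ball (0 : ZL m) R0).norm_image_sub_le_of_norm_fderiv_le (𝕜 := ℝ) (C := c0 1)
    (fun x hx => (k x hx).2.1.differentiableAt (by simp))
    (fun x hx => by simpa using (k x hx).2.2 1 le_rfl)
    (mem_ball_self ((norm_nonneg _).trans_lt hy)) (mem_ball_zero_iff.2 hy)
  rw [e, sub_zero] at b
  linarith [norm_sub_norm_le (C.Lt F' F 0 y) w]

variable {l : ℕ} {k : NC.Cst} {L ε K1 : ℝ} {T : ℕ} {f : FF n N m} {B : Set (ZL m)}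
  {nu : ZZ m → (Fin l → ℝ) →L[ℝ] ZZ m} {c c' : ℝ → Euc n × Euc N} {z z' : ℝ → ZL m}
  {F F' : ℕ → FF n N m} {x x' : ℕ → ℝ → ZL m} {A A' : ℕ → ℝ → (Fin l → ℝ) →L[ℝ] ZL m}

/-- `LinkF.known` -/
lemma lk_known (h : C.Nd k L ε K1 T f B nu c z F x A) (h' : C.Nd k L ε K1 T f B nu c' z' F' x' A')
    {K D : ℝ} (hK : 1 ≤ K) (hK' : 2 * K1 * K ^ 2 ≤ k.K) (D0 : 0 ≤ D) (hD : D ≤ k.D T) {τ : ℝ}
    (hτ : τ ∈ Icc (0 : ℝ) k.τ0) (hz : z τ ∈ B) (hz' : z' τ ∈ B) (h1 : ‖z' τ - z τ‖ ≤ K * D)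
    (h2 : ∃ b, ‖z' τ - z τ - lif (z τ).1 (nu (z τ).1 b)‖ ≤ K * D ^ 2) :
    ‖C.Lt (F' 0) (F 0) 0 (x' 0 τ) - x 0 τ‖ ≤ k.K * k.D T ∧
      ∃ b, ‖C.Lt (F' 0) (F 0) 0 (x' 0 τ) - x 0 τ - A 0 τ b‖ ≤ k.K * k.D T ^ 2 := by
  obtain ⟨b, h2⟩ := h2
  obtain ⟨e1, e2⟩ := h.zero τ hτ
  obtain ⟨b', e2⟩ := e2 b
  obtain ⟨-, t1, t2⟩ := h.tay _ hz
  obtain ⟨t2, t3⟩ := t2 _ hz'
  have K0 : 0 ≤ K1 := (norm_nonneg _).trans t1
  have e := (C.Lt_comp H hm (t := 0) (t' := 0) (h'.frm 0) (h.frm 0) (h'.tay _ hz').1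
    (C.Tf_comp' H hm (h'.frm 0) (h.frm 0) (h'.tay _ hz').1 (h.tay _ hz').1)).2
  rw [(h'.zero τ hτ).1, e, add_zero, e1]
  have k1 : K1 * K ≤ K1 * K ^ 2 := by gcongr; nlinarith
  have k2 : 0 ≤ K1 * K := by positivity
  refine ⟨t2.trans ((mul_le_mul_of_nonneg_left h1 K0).trans ?_), b', ?_⟩
  · rw [← mul_assoc]
    exact mul_le_mul (by linarith) hD D0 (by linarith)
  · have a1 := ((fderiv ℝ (C.Lt f (F 0) 0) (z τ)).le_opNorm _).trans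
      (mul_le_mul t1 h2 (norm_nonneg _) K0)
    have a2 : ‖z' τ - z τ‖ ^ 2 ≤ (K * D) ^ 2 := by gcongr
    have a3 : D ^ 2 ≤ k.D T ^ 2 := by gcongr
    rw [e2, ← sub_add_sub_cancel _ (fderiv ℝ (C.Lt f (F 0) 0) (z τ) (z' τ - z τ)), ← map_sub]
    refine (norm_add_le _ _).trans ((add_le_add (t3.trans (mul_le_mul_of_nonneg_left a2 K0))
      a1).trans (le_trans ?_ (mul_le_mul hK' a3 (sq_nonneg _) (by linarith))))
    nlinarith [mul_le_mul_of_nonneg_right k1 (sq_nonneg D)]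

end Crest.Agent.N221.Cov
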