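import Crest.Agent.N221.Ni.NdD

/-! Row 221, block Ni (helper86): two neighbouring nodes of the polygon, statement. -/

set_option autoImplicit false

open Set Filter Topology Metric
open scoped ContDiff RealInnerProductSpace
open Crest.GeometryTopology.Submanifold
open Crest.Agent.R241.DDefs Crest.Agent.R241.D2
open Crest.Agent.R208.J Crest.Agent.R208.L

noncomputable section

namespace Crest.Agent.N221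

open Cov

/-- TWO NODES: `LinkF` and `BkF` for the change of chart `Lt (F' j) (F j) 0` -/
def LkS : Prop := ∀ (n N m : ℕ) (a : ℝ) (S : Set (Euc N)) (G : Geo n N (-(a ^ 2)) S) (C : Cov G)
  (H : Hyp n N a S), m + 1 = n → ∃ Λ3 : ℝ, 0 < Λ3 ∧
  ∀ (L Λ K0 R0 δ R : ℝ) (c0 : ℕ → ℝ), 1 ≤ L → C.Chn m L Λ K0 R0 δ c0 → 0 < δ → 0 < R → R ≤ R0 →
  ∃ ε : ℝ, 0 < ε ∧ ∀ K1 K c1 : ℝ, 1 ≤ K1 → 0 < c1 → ∃ (K4 κ : ℝ) (T0 : ℕ), 0 < κ ∧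
  ∀ k : NC.Cst, k.Ok → k.R = R → Λ3 * L ≤ k.Λ → k.χ ≤ a * L → K4 ≤ k.K → k.κ0 ≤ κ → k.c1 = c1 →
    (∀ j, c0 j ≤ k.c j) → ∀ T : ℕ, T0 ≤ T →
  ∀ (l : ℕ) (f : FF n N m) (B : Set (ZL m)) (nu : ZZ m → (Fin l → ℝ) →L[ℝ] ZZ m)
    (c c' : ℝ → Euc n × Euc N) (z z' : ℝ → ZL m) (F F' : ℕ → FF n N m) (x x' : ℕ → ℝ → ZL m)
    (A A' : ℕ → ℝ → (Fin l → ℝ) →L[ℝ] ZL m), C.Frm f → (∀ y ∈ B, ‖y.1‖ < C.rr m ∧ |y.2| ≤ 1) →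
    C.Nd k L ε K1 T f B nu c z F x A → C.Nd k L ε K1 T f B nu c' z' F' x' A' →
    (∀ τ ∈ Icc (0 : ℝ) 1, C.Un (c τ).1 (c τ).2 ∧ C.Un (c' τ).1 (c' τ).2) →
    (∀ τ ∈ Icc (0 : ℝ) k.τ0, z τ ∈ B ∧ z' τ ∈ B ∧ c τ = C.Ps f (z τ) ∧ c' τ = C.Ps f (z' τ) ∧
      ‖z' τ - z τ‖ ≤ K * k.D T ∧
      ∃ b, ‖z' τ - z τ - lif (z τ).1 (nu (z τ).1 b)‖ ≤ K * k.D T ^ 2) →
    NC.LinkF k T (fun j => C.Lt (F (j + 1)) (F j) (-L)) x x' A (fun j => C.Lt (F' j) (F j) 0) ∧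
    @NC.BkF _ _ _ _ _ _ C.UP (C.ms H.a_pos.le).toPseudoMetricSpace k T x x' A
      (fun j => C.Lt (F' j) (F j) 0) (fun j τ => C.fu (-(j * L)) (c τ))
      (fun j τ => C.fu (-(j * L)) (c' τ))

end Crest.Agent.N221
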