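import Crest.Agent.N221.Ni.NdD
import Crest.Agent.N221.NC.Prod
import Crest.Agent.N221.G0.ApB
import Crest.Agent.N221.Ch.Dmb
import Crest.Agent.N221.A1.Dy

/-! Row 221, block Ni (helper80): tools for the chain of one node. -/

set_option autoImplicit false
set_option linter.unusedSectionVars false
set_option linter.unusedVariables false

open Set Filter Topology Metric
open scoped ContDiff RealInnerProductSpace
open Crest.GeometryTopology.Submanifold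
open Crest.Agent.R241.DDefs Crest.Agent.R241.D2
open Crest.Agent.R208.J Crest.Agent.R208.L

noncomputable section

namespace Crest.Agent.N221

namespace NdP

/-- jets along a flat curve -/
lemma flat (b d : ℕ → ℝ) : ∃ d' : ℕ → ℝ, ∀ (X V : Type) [NormedAddCommGroup X] [NormedSpace ℝ X]
    [NormedAddCommGroup V] [NormedSpace ℝ V] (Γ : X → V) (e : ℝ → X) (τ ε : ℝ), 0 ≤ ε →
    ContDiffAt ℝ ∞ Γ (e τ) → (∀ j, ‖iteratedFDeriv ℝ j Γ (e τ)‖ ≤ b j) → ContDiffAt ℝ ∞ e τ →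
    (∀ j, 1 ≤ j → ‖iteratedDeriv j e τ‖ ≤ d j * ε ^ j) →
    ∀ j, ‖iteratedDeriv j (fun t => Γ (e t)) τ‖ ≤ d' j * ε ^ j := by
  refine ⟨fun j => j.factorial * (∑ i ∈ Finset.range (j + 1), |b i|) *
    (1 + ∑ i ∈ Finset.range (j + 1), |d i|) ^ j, fun X V _ _ _ _ Γ e τ ε hε h1 h2 h3 h4 j => ?_⟩
  have k : ∀ (u : ℕ → ℝ), ∀ i ≤ j, u i ≤ ∑ i ∈ Finset.range (j + 1), |u i| := fun u i hi =>
    (le_abs_self _).trans (Finset.single_le_sum (f := fun i => |u i|) (fun _ _ => abs_nonneg _)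
      (Finset.mem_range.2 (by omega)))
  have p : 0 ≤ ∑ i ∈ Finset.range (j + 1), |d i| := Finset.sum_nonneg fun _ _ => abs_nonneg _
  rw [← norm_iteratedFDeriv_eq_norm_iteratedDeriv, mul_assoc, ← mul_pow]
  refine G0.comp_at j h1 h3 (fun i hi => (h2 i).trans (k b i hi)) fun i h hi => ?_
  rw [norm_iteratedFDeriv_eq_norm_iteratedDeriv, mul_pow]
  exact (h4 i h).trans (mul_le_mul_of_nonneg_right (((k d i hi).trans (by linarith)).trans
    (le_self_pow₀ (by linarith) (by omega))) (pow_nonneg hε i))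

/-- uniform floor of an injective family -/
lemma floor {X Y Z : Type} [TopologicalSpace X] [NormedAddCommGroup Y] [NormedSpace ℝ Y]
    [FiniteDimensional ℝ Y] [NormedAddCommGroup Z] [NormedSpace ℝ Z] {K : Set X}
    (hK : IsCompact K) {ν : X → Y →L[ℝ] Z} (hν : ContinuousOn ν K)
    (hi : ∀ x ∈ K, Function.Injective (ν x)) : ∃ c > 0, ∀ x ∈ K, ∀ v, ‖v‖ ≤ c * ‖ν x v‖ := by
  have := FiniteDimensional.proper_real Y
  obtain ⟨μ, μ0, h⟩ := (hK.prod (isCompact_sphere (0 : Y) 1)).exists_forall_le'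
    (f := fun p : X × Y => ‖ν p.1 p.2‖) (a := 0)
    ((hν.comp continuousOn_fst fun p hp => hp.1).clm_apply continuousOn_snd).norm
    fun p hp => norm_pos_iff.2 fun e => by
      have := (injective_iff_map_eq_zero _).1 (hi _ hp.1) _ e
      simpa [this] using hp.2
  refine ⟨μ⁻¹, inv_pos.2 μ0, fun x hx v => ?_⟩
  rcases eq_or_ne v 0 with rfl | hv
  · simp
  have n := norm_pos_iff.2 hv
  have := h (x, ‖v‖⁻¹ • v) ⟨hx, by simp [norm_smul, n.ne']⟩
  simp only [map_smul, norm_smul, norm_inv, norm_norm] at this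
  rw [le_inv_mul_iff₀ n] at this
  rw [le_inv_mul_iff₀ μ0]
  linarith

lemma exists_x {E : Type} (T : ℕ) (Φ : ℕ → E → E) (B : ℝ → E) :
    ∃ x : ℕ → ℝ → E, x T = B ∧ ∀ j < T, x j = Φ j ∘ x (j + 1) := by
  refine ⟨fun j => Nat.rec (motive := fun _ => ℝ → E) B (fun i r => Φ (T - (i + 1)) ∘ r) (T - j),
    by simp, fun j hj => ?_⟩
  have e : T - j = T - (j + 1) + 1 := by omega
  simp only [e]
  rw [show T - (T - (j + 1) + 1) = j by omega]

lemma dist_le {X : Type} [NormedAddCommGroup X] [NormedSpace ℝ X] {e : ℝ → X} {M : ℝ}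
    (h : ∀ τ ∈ Icc (0 : ℝ) 1, ContDiffAt ℝ ∞ e τ ∧ ‖iteratedDeriv 1 e τ‖ ≤ M) {τ : ℝ}
    (hτ : τ ∈ Icc (0 : ℝ) 1) : ‖e τ - e 0‖ ≤ M := by
  have h0 : (0 : ℝ) ∈ Icc (0 : ℝ) 1 := ⟨le_rfl, zero_le_one⟩
  have := (convex_Icc (0 : ℝ) 1).norm_image_sub_le_of_norm_deriv_le (f := e) (C := M)
    (fun t ht => (h t ht).1.differentiableAt (by simp))
    (fun t ht => by simpa using (h t ht).2) h0 hτ
  rw [sub_zero, Real.norm_of_nonneg hτ.1] at this
  exact this.trans (mul_le_of_le_one_right ((norm_nonneg _).trans (h 0 h0).2) hτ.2)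

lemma contDiff_lif (m : ℕ) : ContDiff ℝ ∞ (lif : ZZ m → ZZ m →L[ℝ] ZL m) :=
  contDiff_clm_apply_iff.2 fun v => contDiff_const.prodMk
    (contDiff_snd.inner ℝ (contDiff_const (c := v.1))).neg

lemma le_lif {m : ℕ} (z v : ZZ m) : ‖v‖ ≤ ‖lif z v‖ := norm_fst_le (lif z v)

end NdP

namespace Cov

variable {n N m : ℕ} {a : ℝ} {S : Set (Euc N)} {G : Geo n N (-(a ^ 2)) S} (C : Cov G)

lemma exists_chain (hm : m + 1 = n) {p : Euc n × Euc N} (hp : C.Un p.1 p.2) (L : ℝ) :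
    ∃ F : ℕ → FF n N m, (∀ j, C.Frm (F j)) ∧ (∀ j, F (j + 1) = C.fw (F j) L) ∧
      ∀ j : ℕ, bv (F j) = C.fu (j * L) p := by
  obtain ⟨f, hf, e⟩ := C.exists_bv hm hp
  refine ⟨fun j => Nat.rec f (fun _ f => C.fw f L) j, fun j => ?_, fun j => rfl, fun j => ?_⟩
  · induction j with
    | zero => exact hf
    | succ j ih => exact Frm.fw C ih L
  · induction j with
    | zero => simpa [C.fu_zero] using e
    | succ j ih =>
      refine (C.bv_fw _ L).trans ?_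
      rw [ih, C.fu_add hp, Nat.cast_succ, add_mul, one_mul]

variable (H : Hyp n N a S) (hm : m + 1 = n)
include H hm

/-- uniform balls round a point that is mapped to the centre -/
lemma nd_loc (R : ℝ) {ρ : ℝ} (hρ : ρ < C.rr m) : ∃ r > 0, ∀ (f f' : FF n N m) (y : ZL m) (s : ℝ),
    C.Frm f → C.Frm f' → ‖y.1‖ ≤ ρ → |y.2| ≤ 1 → |s| ≤ R → bv f' = C.fu s (C.Ps f y) →
    C.Lt f f' s y = 0 ∧ C.dd f.1 f'.1 ≤ R + 3 ∧
      ∀ y' ∈ ball y r, y'.1 ∈ C.dm f f' ∧ |y'.2| < R + 3 := by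
  obtain ⟨r, r0, h⟩ := C.dm_ball0 H hm (R + 3) hρ
  refine ⟨min r 1, by positivity, fun f f' y s hf hf' h1 h2 h3 e => ?_⟩
  obtain ⟨k1, k2⟩ := C.loc H hm (y' := 0) hf hf' (h1.trans_lt hρ) (by simpa using C.rr_pos H hm)
    (by rw [C.Ps_zero H hf', e])
  have k3 : C.Tf f f' y.1 = 0 := congrArg Prod.fst k2
  have k4 : y.2 - C.tm f f' y.1 + s = 0 := congrArg Prod.snd k2
  have k5 := abs_le.1 (C.dd_tm H hm hf hf' k1)
  rw [k3, Prod.fst_zero, norm_zero] at k5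
  have k6 : |C.tm f f' y.1| ≤ 1 + R := by
    rw [show C.tm f f' y.1 = y.2 + s by linarith]
    exact (abs_add_le _ _).trans (add_le_add h2 h3)
  have k7 : C.dd f.1 f'.1 ≤ R + 3 := by linarith [norm_fst_le y.1, (C.rad H hm).le]
  refine ⟨k2, k7, fun y' hy' => ⟨h f f' y.1 hf hf' k7 k1 h1 (by
    rw [k3, norm_zero]; exact (norm_nonneg _).trans h1) ?_, ?_⟩⟩
  · exact (le_max_left _ _).trans_lt ((mem_ball.1 hy').trans_le (min_le_left _ _))
  · have : |y'.2 - y.2| < 1 := (le_max_right _ _).trans_lt ((mem_ball.1 hy').trans_le (min_le_right _ _))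
    linarith [abs_sub_abs_le_abs_sub y'.2 y.2, abs_nonneg s]

/-- the backward chain is the flow -/
lemma nd_inv {l T : ℕ} {L Λ K0 R0 δ t : ℝ} {c0 : ℕ → ℝ} (hC : C.Chn m L Λ K0 R0 δ c0)
    {F : ℕ → FF n N m} (frm : ∀ j, C.Frm (F j)) (fw : ∀ j, F (j + 1) = C.fw (F j) L)
    {f : FF n N m} (hf : C.Frm f) {x : ℕ → ZL m} {A : ℕ → (Fin l → ℝ) →L[ℝ] ZL m} {y : ZL m}
    {B : (Fin l → ℝ) →L[ℝ] ZL m} (hx : ∀ j < T, x j = C.Lt (F (j + 1)) (F j) (-L) (x (j + 1)))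
    (hA : ∀ j < T, A j = fderiv ℝ (C.Lt (F (j + 1)) (F j) (-L)) (x (j + 1)) ∘L A (j + 1))
    (h1 : y.1 ∈ C.dm f (F T)) (h2 : x T = C.Lt f (F T) (T * L - t) y)
    (h3 : A T = fderiv ℝ (C.Lt f (F T) (T * L - t)) y ∘L B) (j : ℕ) (hj : j ≤ T)
    (hb : ∀ i, j < i → i ≤ T → x i ∈ ball (0 : ZL m) R0) :
    y.1 ∈ C.dm f (F j) ∧ x j = C.Lt f (F j) (j * L - t) y ∧
      ∀ b, A j b = fderiv ℝ (C.Lt f (F j) (j * L - t)) y (B b) := by
  induction hj using Nat.decreasingInduction with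
  | self => exact ⟨h1, h2, fun b => by rw [h3]; rfl⟩
  | of_succ j hj ih =>
    obtain ⟨i1, i2, i3⟩ := ih fun i a b => hb i (by omega) b
    have d := ((hC _ (frm j)).1 _ (hb (j + 1) (by omega) hj)).1
    rw [← fw, i2] at d
    have e : ((j + 1 : ℕ) : ℝ) * L - t + -L = j * L - t := by push_cast; ring
    obtain ⟨k1, k2⟩ := C.Lt_comp H hm (t' := -L) (frm (j + 1)) (frm j) i1 d
    refine ⟨k1, by rw [hx j hj, i2, k2, e], fun b => ?_⟩
    rw [hA j hj, ContinuousLinearMap.comp_apply, i3, i2,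
      C.fderiv_Lt_comp H hm hf (frm (j + 1)) (frm j) i1 d, e]

end Cov

end Crest.Agent.N221
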