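import Crest.Agent.N221.Ni.Bas
import Crest.Agent.N221.NC.Fd

/-! Row 221, block Ni (helper80): the chain of ONE node of the polygon, definitions. -/

set_option autoImplicit false

open Set Filter Topology Metric
open scoped ContDiff RealInnerProductSpace
open Crest.GeometryTopology.Submanifold
open Crest.Agent.R241.DDefs Crest.Agent.R241.D2
open Crest.Agent.R208.J Crest.Agent.R208.L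

noncomputable section

namespace Crest.Agent.N221

namespace Cov

variable {n N m : ℕ} {a : ℝ} {S : Set (Euc N)} {G : Geo n N (-(a ^ 2)) S} (C : Cov G)

/-- the body of `ChnS` -/
def Chn (m : ℕ) (L Λ K R0 δ : ℝ) (c : ℕ → ℝ) : Prop := ∀ f : FF n N m, C.Frm f →
    (∀ y ∈ ball (0 : ZL m) R0, y.1 ∈ C.dm (C.fw f L) f ∧
      ContDiffAt ℝ ∞ (C.Lt (C.fw f L) f (-L)) y ∧
      ‖fderiv ℝ (C.Lt (C.fw f L) f (-L)) y‖ ≤ Real.exp Λ ∧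
      (∀ j, 1 ≤ j → ‖iteratedFDeriv ℝ j (C.Lt (C.fw f L) f (-L)) y‖ ≤ c j) ∧
      (∀ v, ‖v‖ ≤ Real.exp Λ * ‖fderiv ℝ (C.Lt (C.fw f L) f (-L)) y v‖) ∧
      (y ∈ C.Lf (C.fw f L) → C.Lt (C.fw f L) f (-L) y ∈ C.Lf f ∧
        2 * ‖y.1.1‖ ≤ ‖(C.Lt (C.fw f L) f (-L) y).1.1‖) ∧
      (y ∈ C.Lf f → ‖y‖ ≤ K * ‖y.1.1‖)) ∧
    C.Lt (C.fw f L) f (-L) 0 = 0 ∧
    ∀ f' : FF n N m, C.Frm f' → C.du (bv f) (bv f') ≤ δ → ∀ y ∈ ball (0 : ZL m) R0,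
      y.1 ∈ C.dm f' f ∧ ContDiffAt ℝ ∞ (C.Lt f' f 0) y ∧
      ∀ j, 1 ≤ j → ‖iteratedFDeriv ℝ j (C.Lt f' f 0) y‖ ≤ c j

/-- the chain of frames `F S` along the orbit of `c 0`, the curve `x S` and the frame `A S` of `Y_u`
read at time `S L`; `B` is the box, `z` the coordinate of the known part -/
structure Nd {l : ℕ} (k : NC.Cst) (L ε K1 : ℝ) (T : ℕ) (f : FF n N m) (B : Set (ZL m))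
    (nu : ZZ m → (Fin l → ℝ) →L[ℝ] ZZ m) (c : ℝ → Euc n × Euc N) (z : ℝ → ZL m)
    (F : ℕ → FF n N m) (x : ℕ → ℝ → ZL m) (A : ℕ → ℝ → (Fin l → ℝ) →L[ℝ] ZL m) : Prop where
  frm : ∀ j, C.Frm (F j)
  fw : ∀ j, F (j + 1) = C.fw (F j) L
  bv : ∀ j : ℕ, bv (F j) = C.fu (j * L) (c 0)
  crv : NC.Crv k T (fun y => ‖y.1.1‖) (fun j => C.Lt (F (j + 1)) (F j) (-L))
    (fun j => C.Lf (F j)) x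
  frf : NC.FrF k T (fun j => C.Lt (F (j + 1)) (F j) (-L)) x A
  tru : ∀ τ ∈ Icc (0 : ℝ) 1, ∀ j ≤ T, (∀ i, j < i → i ≤ T → x i τ ∈ ball (0 : ZL m) k.R) →
    ‖(x j τ).1‖ < C.rr m ∧ C.Ps (F j) (x j τ) = C.fu (j * L) (c τ) ∧
      ∀ b, C.Euu (F j) (x j τ) (A j τ b)
  small : ∀ τ ∈ Icc (0 : ℝ) k.τ0, ∀ j ≤ T, ‖x j τ‖ ≤ ε
  zero : ∀ τ ∈ Icc (0 : ℝ) k.τ0, x 0 τ = C.Lt f (F 0) 0 (z τ) ∧ ∀ b, ∃ b',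
    A 0 τ b' = fderiv ℝ (C.Lt f (F 0) 0) (z τ) (lif (z τ).1 (nu (z τ).1 b))
  tay : ∀ y ∈ B, y.1 ∈ C.dm f (F 0) ∧ ‖fderiv ℝ (C.Lt f (F 0) 0) y‖ ≤ K1 ∧ ∀ y' ∈ B,
    ‖C.Lt f (F 0) 0 y' - C.Lt f (F 0) 0 y‖ ≤ K1 * ‖y' - y‖ ∧
    ‖C.Lt f (F 0) 0 y' - C.Lt f (F 0) 0 y - fderiv ℝ (C.Lt f (F 0) 0) y (y' - y)‖ ≤
      K1 * ‖y' - y‖ ^ 2

end Cov

open Cov

/-- ONE NODE -/
def NdS : Prop := ∀ (n N m : ℕ) (a : ℝ) (S : Set (Euc N)) (G : Geo n N (-(a ^ 2)) S) (C : Cov G)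
  (f : FF n N m) (z0 : ZZ m), Hyp n N a S → m + 1 = n → C.Frm f → ‖z0‖ < C.rr m →
  ∀ (L Λ K0 R0 δ R ε : ℝ) (c0 : ℕ → ℝ), 1 ≤ L → C.Chn m L Λ K0 R0 δ c0 → 0 < R → R ≤ R0 → 0 < ε →
  ∃ ρ K1 : ℝ, 0 < ρ ∧ ρ ≤ 1 ∧ ‖z0‖ + ρ < C.rr m ∧ 1 ≤ K1 ∧
  ∀ (l : ℕ) (nu : ZZ m → (Fin l → ℝ) →L[ℝ] ZZ m) (U : Set (ZZ m)) (r : ℝ),
    r ≤ ρ → IsOpen U → closedBall z0 r ⊆ U → ContDiffOn ℝ ∞ nu U →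
    (∀ z ∈ U, Function.Injective (nu z)) → (∀ z ∈ U, ∀ b, nu z b ∈ (C.pd f).E true z) →
    (∀ z ∈ U, ∀ T, (C.pd f).R z T false → T z ∈ U → ∀ b, ∃ b',
      fderiv ℝ T z (nu z b) = nu (T z) b') →
  ∀ (g K : ℝ) (d : ℕ → ℝ), 0 < g → ∃ (K2 T0 : ℝ) (d2 : ℕ → ℝ), ∀ k : NC.Cst, k.R = R → Λ ≤ k.Λ →
    k.χ ≤ Real.log 2 → k.χ ≤ a * L → K2 ≤ k.K → k.g ≤ g * L → (∀ j, c0 j ≤ k.c j) →
    (∀ j, d2 j ≤ k.d j) → 0 ≤ k.α → k.τ0 ≤ 1 →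
  ∀ T, T0 ≤ T → ∀ (γ : Euc n → Euc n) (t : ℝ) (c : ℝ → Euc n × Euc N) (e z : ℝ → ZL m),
    C.Deck γ → |t - T| ≤ K →
    (∀ τ ∈ Icc (0 : ℝ) 1, C.Un (c τ).1 (c τ).2 ∧ C.Sss (c 0) (c τ) ∧
      e τ ∈ closedBall ((z0, 0) : ZL m) r ∧ C.mv γ t (c τ) = C.Ps f (e τ) ∧
      ContDiffAt ℝ ∞ e τ ∧
      ∀ j, 1 ≤ j → ‖iteratedDeriv j e τ‖ ≤ d j * Real.exp (-(g * T)) ^ j) →
    (∀ τ ∈ Icc (0 : ℝ) k.τ0, z τ ∈ closedBall ((z0, 0) : ZL m) r ∧ c τ = C.Ps f (z τ)) →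
    0 ≤ k.τ0 →
    ∃ F x A, C.Nd k L ε K1 ⌊T / L⌋₊ f (closedBall ((z0, 0) : ZL m) r) nu c z F x A

end Crest.Agent.N221
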