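import Crest.Agent.N221.Ni.Bas
import Crest.Agent.N221.NC.Prod

/-! Row 221, block Ni (helper84): the constants `Gc` and the chain of one node `Nd`. -/

set_option autoImplicit false

open Set Filter Topology Metric
open scoped ContDiff RealInnerProductSpace
open Crest.GeometryTopology.Submanifold
open Crest.Agent.R241.DDefs Crest.Agent.R241.D2
open Crest.Agent.R208.J Crest.Agent.R208.L

noncomputable section

namespace Crest.Agent.N221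

/-- downward recursion -/
def dnr {E : Type} (T : ℕ) (Φ : ℕ → E → E) (y : ℝ → E) : ℕ → ℝ → E
  | 0 => y
  | j + 1 => Φ (T - (j + 1)) ∘ dnr T Φ y j

lemma exists_dn {E : Type} (T : ℕ) (Φ : ℕ → E → E) (y : ℝ → E) :
    ∃ x : ℕ → ℝ → E, x T = y ∧ ∀ S < T, x S = Φ S ∘ x (S + 1) := by
  refine ⟨fun S => dnr T Φ y (T - S), by simp [dnr], fun S hS => ?_⟩
  obtain ⟨j, rfl⟩ : ∃ j, T = S + j + 1 := ⟨T - S - 1, by omega⟩
  have e1 : S + j + 1 - S = j + 1 := by omega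
  have e2 : S + j + 1 - (S + 1) = j := by omega
  have e3 : S + j + 1 - (j + 1) = S := by omega
  simp only [e1, e2, dnr, e3]

lemma down_ind {M : ℕ} {P : ℕ → Prop} (h0 : P M) (h : ∀ S < M, P (S + 1) → P S) :
    ∀ S ≤ M, P S := fun _ hS => Nat.decreasingInduction (fun k hk => h k hk) h0 hS

namespace Cov

variable {n N m : ℕ} {a : ℝ} {S : Set (Euc N)} {G : Geo n N (-(a ^ 2)) S} (C : Cov G)

/-- the chain of frames -/
def cf (F : FF n N m) (L : ℝ) (s : ℕ) : FF n N m := C.fw F (s * L)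

/-- the backward step -/
def pb (F : FF n N m) (L : ℝ) (s : ℕ) : ZL m → ZL m := C.Lt (C.cf F L (s + 1)) (C.cf F L s) (-L)

lemma cf_zero (F : FF n N m) (L : ℝ) : C.cf F L 0 = F := by simp [cf, C.fw_zero]

lemma Frm.cf {F : FF n N m} (hF : C.Frm F) (L : ℝ) (s : ℕ) : C.Frm (C.cf F L s) := hF.fw C _

lemma cf_succ {F : FF n N m} (hF : C.Frm F) (L : ℝ) (s : ℕ) :
    C.fw (C.cf F L s) L = C.cf F L (s + 1) := by
  rw [cf, cf, C.fw_add hF]; congr 1; push_cast; ring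

lemma bv_cf (F : FF n N m) (L : ℝ) (s : ℕ) : bv (C.cf F L s) = C.fu (s * L) (bv F) := rfl

/-- all geometric constants -/
structure Gc (m : ℕ) (K Λ L R δ : ℝ) (c : ℕ → ℝ) : Prop where
  K1 : 1 ≤ K
  Λ0 : 0 < Λ
  L1 : 1 ≤ L
  R0 : 0 < R
  R1 : R ≤ 1
  δ0 : 0 < δ
  c1 : ∀ j, 1 ≤ c j
  small : 4 * Real.exp Λ * c 2 * R ≤ 1
  lip : ∀ p q : Euc n × Euc N, C.Un p.1 p.2 → C.Un q.1 q.2 → ∀ t,
    C.du (C.fu t p) (C.fu t q) ≤ K * Real.exp (Λ * |t|) * C.du p q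
  con : ∀ p q : Euc n × Euc N, C.Un p.1 p.2 → C.Un q.1 q.2 → C.Sss p q → C.du p q ≤ 1 → ∀ t, 0 ≤ t →
    C.du (C.fu t p) (C.fu t q) ≤ K * Real.exp (-(a * t)) * C.du p q
  ps : ∀ (f : FF n N m) (y y' : ZL m), C.Frm f → ‖y.1‖ < C.rr m → ‖y'.1‖ < C.rr m → |y.2| ≤ 1 →
    |y'.2| ≤ 1 → C.du (C.Ps f y) (C.Ps f y') ≤ K * ‖y - y'‖
  ex : ∀ (f : FF n N m) (p : Euc n × Euc N), C.Frm f → C.Un p.1 p.2 → C.du (bv f) p ≤ δ →
    ∃ y : ZL m, ‖y.1‖ < C.rr m ∧ ‖y‖ ≤ K * C.du (bv f) p ∧ C.Ps f y = p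
  bk : ∀ (f : FF n N m) (y y' w : ZL m) (t : ℝ), C.Frm f → ‖y‖ ≤ R → ‖y'‖ ≤ R → C.Euu f y w →
    0 ≤ t → C.du (C.fu (-(t * L)) (C.Ps f y')) (C.fu (-(t * L)) (C.Ps f y)) ≤
      K * (Real.exp (-(a * L * t)) * ‖w‖ + Real.exp (Λ * t) * ‖y' - y - w‖ +
        Real.exp (Λ * t) * ‖y' - y‖ ^ 2)
  st : ∀ (F : FF n N m) (s : ℕ), C.Frm F → ∀ y ∈ ball (0 : ZL m) R,
    y.1 ∈ C.dm (C.cf F L (s + 1)) (C.cf F L s) ∧ ‖fderiv ℝ (C.pb F L s) y‖ ≤ Real.exp Λ ∧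
    (∀ j, 1 ≤ j → ‖iteratedFDeriv ℝ j (C.pb F L s) y‖ ≤ c j) ∧
    (∀ v, ‖v‖ ≤ Real.exp Λ * ‖fderiv ℝ (C.pb F L s) y v‖) ∧
    (y ∈ C.Lf (C.cf F L (s + 1)) → C.pb F L s y ∈ C.Lf (C.cf F L s) ∧
      2 * ‖y.1.1‖ ≤ ‖(C.pb F L s y).1.1‖) ∧ (y ∈ C.Lf (C.cf F L s) → ‖y‖ ≤ K * ‖y.1.1‖)
  st0 : ∀ (F : FF n N m) (s : ℕ), C.Frm F → C.pb F L s 0 = 0
  ch : ∀ f f' : FF n N m, C.Frm f → C.Frm f' → C.du (bv f) (bv f') ≤ δ → ∀ y ∈ ball (0 : ZL m) R,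
    y.1 ∈ C.dm f' f ∧ ∀ j, 1 ≤ j → ‖iteratedFDeriv ℝ j (C.Lt f' f 0) y‖ ≤ c j

lemma exists_gc (h1 : FlS) (h2 : PsS) (h3 : BkS) (h4 : ChnS) (H : Hyp n N a S) (hm : m + 1 = n) :
    ∃ K Λ L R δ c, C.Gc m K Λ L R δ c := by
  obtain ⟨K1, Λ1, k1, l1, h1⟩ := h1 n N a S G C H
  obtain ⟨K2, δ2, k2, d2, h2⟩ := h2 n N m a S G C H hm
  obtain ⟨K3, Λ3, δ3, k3, l3, d3, h3⟩ := h3 n N m a S G C H hm
  obtain ⟨L, Λ4, K4, R0, δ4, c, hL, l4, k4, r0, -, d4, hc, h4⟩ := h4 n N m a S G C H hm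
  have rp := C.rr_pos H hm
  set K := K1 + K2 + K3 + K4 with hK
  set Λ := Λ1 + Λ3 * L + Λ4 with hΛ
  have l3L : 0 < Λ3 * L := by positivity
  have ec : 0 < 4 * Real.exp Λ * c 2 := by have := hc 2; positivity
  set R := min (min R0 1) (min δ3 (4 * Real.exp Λ * c 2)⁻¹) with hR
  have R1 : R ≤ R0 := (min_le_left _ _).trans (min_le_left _ _)
  have R2 : R ≤ 1 := (min_le_left _ _).trans (min_le_right _ _)
  have R3 : R ≤ δ3 := (min_le_right _ _).trans (min_le_left _ _)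
  have R4 : R ≤ (4 * Real.exp Λ * c 2)⁻¹ := (min_le_right _ _).trans (min_le_right _ _)
  have e4 : Real.exp Λ4 ≤ Real.exp Λ := Real.exp_le_exp.2 (by linarith)
  refine ⟨K, Λ, L, R, min (min δ2 δ4) (C.rr m / (2 * K2)), c, by linarith, by linarith, hL,
    by positivity, R2, by positivity, hc, ?_, fun p q hp hq t => ?_, fun p q hp hq hs hd t ht => ?_,
    fun f y y' hf a1 a2 a3 a4 => ?_, fun f p hf hp hd => ?_, fun f y y' w t hf a1 a2 a3 ht => ?_,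
    fun F s hF y hy => ?_, fun F s hF => ?_, fun f f' hf hf' hd y hy => ?_⟩
  · calc _ ≤ 4 * Real.exp Λ * c 2 * (4 * Real.exp Λ * c 2)⁻¹ := by gcongr
      _ = 1 := mul_inv_cancel₀ ec.ne'
  · have := C.du_nonneg p q
    refine ((h1 p q hp hq).1 t).trans ?_
    gcongr <;> linarith
  · have := C.du_nonneg p q
    refine ((h1 p q hp hq).2.1 hs hd t ht).trans ?_
    gcongr; linarith
  · refine ((h2 f hf).1 y y' a1.le a2.le a3 a4).trans ?_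
    gcongr; linarith
  · obtain ⟨y, b1, b2⟩ := (h2 f hf).2 p hp (hd.trans ((min_le_left _ _).trans (min_le_left _ _)))
    have := C.du_nonneg (bv f) p
    refine ⟨y, (norm_fst_le y).trans_lt (b1.trans_lt ?_), b1.trans (by gcongr; linarith), b2⟩
    calc _ ≤ K2 * (C.rr m / (2 * K2)) := by gcongr; exact hd.trans (min_le_right _ _)
      _ = C.rr m / 2 := by field_simp
      _ < _ := by linarith
  · refine (h3 f y y' w (t * L) hf (a1.trans R3) (a2.trans R3) a3 (by positivity)).trans ?_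
    have : Real.exp (Λ3 * (t * L)) ≤ Real.exp (Λ * t) := Real.exp_le_exp.2 (by nlinarith)
    rw [show a * (t * L) = a * L * t by ring]
    gcongr; linarith
  · have := (h4 _ (hF.cf C L s)).1 y (ball_subset_ball R1 hy)
    rw [C.cf_succ hF] at this
    obtain ⟨b1, -, b3, b4, b5, b6, b7⟩ := this
    refine ⟨b1, b3.trans e4, b4, fun v => (b5 v).trans (by unfold pb; gcongr), b6,
      fun h => (b7 h).trans (by gcongr; linarith)⟩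
  · have := (h4 _ (hF.cf C L s)).2.1
    rwa [C.cf_succ hF] at this
  · have := (h4 f hf).2.2 f' hf' (hd.trans ((min_le_left _ _).trans (min_le_right _ _))) y
      (ball_subset_ball R1 hy)
    exact ⟨this.1, this.2.2⟩

variable {V : Type} [NormedAddCommGroup V] [NormedSpace ℝ V]

/-- one node: curve `c` upstairs, read as `e` in the chart `f` at time `t`, as `x s` in the charts
of the chain of `F`; `A s` is the transported frame `B` -/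
structure Nd (f F : FF n N m) (L t : ℝ) (M : ℕ) (B : ZL m → V →L[ℝ] ZL m)
    (c : ℝ → Euc n × Euc N) (e : ℝ → ZL m) (x : ℕ → ℝ → ZL m) (A : ℕ → ℝ → V →L[ℝ] ZL m) :
    Prop where
  frm : C.Frm f
  frF : C.Frm F
  bv0 : bv F = c 0
  un : ∀ τ ∈ Icc (0 : ℝ) 1, C.Un (c τ).1 (c τ).2
  ret : ∀ τ ∈ Icc (0 : ℝ) 1, C.Ps f (e τ) = C.fu t (c τ)
  top : ∀ τ ∈ Icc (0 : ℝ) 1, (e τ).1 ∈ C.dm f (C.cf F L M)
  xT : x M = C.Lt f (C.cf F L M) (M * L - t) ∘ e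
  xS : ∀ s < M, x s = C.pb F L s ∘ x (s + 1)
  AT : A M = fun τ => fderiv ℝ (C.Lt f (C.cf F L M) (M * L - t)) (e τ) ∘L B (e τ)
  AS : ∀ s < M, ∀ τ, A s τ = fderiv ℝ (C.pb F L s) (x (s + 1) τ) ∘L A (s + 1) τ

/-- the recursion computes the true coordinates -/
structure Tru (f F : FF n N m) (L t : ℝ) (B : ZL m → V →L[ℝ] ZL m) (e : ℝ → ZL m)
    (x : ℕ → ℝ → ZL m) (A : ℕ → ℝ → V →L[ℝ] ZL m) (s : ℕ) (τ : ℝ) : Prop where
  dm : (e τ).1 ∈ C.dm f (C.cf F L s)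
  x : x s τ = C.Lt f (C.cf F L s) (s * L - t) (e τ)
  A : ∀ b, A s τ b = fderiv ℝ (C.Lt f (C.cf F L s) (s * L - t)) (e τ) (B (e τ) b)

lemma exists_nd (f F : FF n N m) (L t : ℝ) (M : ℕ) (B : ZL m → V →L[ℝ] ZL m) (e : ℝ → ZL m) :
    ∃ (x : ℕ → ℝ → ZL m) (A : ℕ → ℝ → V →L[ℝ] ZL m),
      x M = C.Lt f (C.cf F L M) (M * L - t) ∘ e ∧ (∀ s < M, x s = C.pb F L s ∘ x (s + 1)) ∧
      (A M = fun τ => fderiv ℝ (C.Lt f (C.cf F L M) (M * L - t)) (e τ) ∘L B (e τ)) ∧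
      ∀ s < M, ∀ τ, A s τ = fderiv ℝ (C.pb F L s) (x (s + 1) τ) ∘L A (s + 1) τ := by
  obtain ⟨x, h1, h2⟩ := exists_dn M (C.pb F L) (C.Lt f (C.cf F L M) (M * L - t) ∘ e)
  obtain ⟨A, h3, h4⟩ := NC.exists_tr M (C.pb F L) x
    fun τ => fderiv ℝ (C.Lt f (C.cf F L M) (M * L - t)) (e τ) ∘L B (e τ)
  exact ⟨x, A, h1, h2, h3, h4⟩

variable {C} {f F : FF n N m} {K Λ L R δ t τ : ℝ} {M s : ℕ} {B : ZL m → V →L[ℝ] ZL m}
  {c : ℝ → Euc n × Euc N} {e : ℝ → ZL m} {x : ℕ → ℝ → ZL m} {A : ℕ → ℝ → V →L[ℝ] ZL m}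
  {cc : ℕ → ℝ}

lemma Nd.tru_top (h : C.Nd f F L t M B c e x A) (hτ : τ ∈ Icc (0 : ℝ) 1) :
    C.Tru f F L t B e x A M τ := ⟨h.top τ hτ, by rw [h.xT]; rfl, fun b => by rw [h.AT]; rfl⟩

lemma Nd.un0 (h : C.Nd f F L t M B c e x A) : C.Un (c 0).1 (c 0).2 :=
  h.un 0 ⟨le_rfl, zero_le_one⟩

lemma Nd.bvs (h : C.Nd f F L t M B c e x A) (s : ℕ) : bv (C.cf F L s) = C.fu (s * L) (c 0) := by
  rw [bv_cf, h.bv0]

variable (H : Hyp n N a S) (hm : m + 1 = n)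
include H hm

lemma Nd.step (h : C.Nd f F L t M B c e x A) (g : C.Gc m K Λ L R δ cc) (hs : s < M)
    (h1 : C.Tru f F L t B e x A (s + 1) τ) (hx : x (s + 1) τ ∈ ball (0 : ZL m) R) :
    C.Tru f F L t B e x A s τ := by
  have d := (g.st F s h.frF _ hx).1
  rw [h1.x] at d
  have e1 : ((s + 1 : ℕ) : ℝ) * L - t + -L = s * L - t := by push_cast; ring
  obtain ⟨k1, k2⟩ := C.Lt_comp H hm (t' := -L) (h.frF.cf C L _) (h.frF.cf C L _) h1.dm d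
  refine ⟨k1, by rw [h.xS s hs, Function.comp, h1.x, pb, k2, e1], fun b => ?_⟩
  rw [h.AS s hs, ContinuousLinearMap.comp_apply, h1.A, h1.x, pb,
    C.fderiv_Lt_comp H hm h.frm (h.frF.cf C L _) (h.frF.cf C L _) h1.dm d, e1]

lemma Nd.tru (h : C.Nd f F L t M B c e x A) (g : C.Gc m K Λ L R δ cc) (hτ : τ ∈ Icc (0 : ℝ) 1)
    (hs : s ≤ M) (hx : ∀ i, s < i → i ≤ M → x i τ ∈ ball (0 : ZL m) R) :
    C.Tru f F L t B e x A s τ :=
  down_ind (P := fun j => s ≤ j → C.Tru f F L t B e x A j τ) (fun _ => h.tru_top hτ)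
    (fun j hj ih hsj => h.step H hm g hj (ih (by omega)) (hx _ (by omega) hj)) s hs le_rfl

lemma Tru.lt (h : C.Nd f F L t M B c e x A) (h1 : C.Tru f F L t B e x A s τ) :
    ‖(x s τ).1‖ < C.rr m := by
  rw [h1.x]; exact C.norm_Lt H hm (h.frF.cf C L _) h1.dm _

lemma Tru.ps (h : C.Nd f F L t M B c e x A) (hτ : τ ∈ Icc (0 : ℝ) 1)
    (h1 : C.Tru f F L t B e x A s τ) : C.Ps (C.cf F L s) (x s τ) = C.fu (s * L) (c τ) := by
  rw [h1.x, C.Ps_Lt H hm h.frm (h.frF.cf C L _) h1.dm, h.ret τ hτ, C.fu_add (h.un τ hτ)]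
  congr 1; ring

lemma Tru.euu (h : C.Nd f F L t M B c e x A) (h1 : C.Tru f F L t B e x A s τ) (b : V)
    (hB : C.Euu f (e τ) (B (e τ) b)) : C.Euu (C.cf F L s) (x s τ) (A s τ b) := by
  rw [h1.x, h1.A]; exact hB.map C H hm h.frm (h.frF.cf C L _) h1.dm _

/-- coordinates of points near the centre are small -/
lemma Gc.norm_le (g : C.Gc m K Λ L R δ cc) (hF : C.Frm F) {y : ZL m} (hy : ‖y.1‖ < C.rr m)
    (hd : C.du (bv F) (C.Ps F y) ≤ δ) : ‖y‖ ≤ K * C.du (bv F) (C.Ps F y) := by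
  obtain ⟨y', k1, k2, k3⟩ := g.ex F _ hF (C.un_Ps' H hm hF hy) hd
  rwa [C.Ps_inj H hm hF k1 hy k3] at k2

/-- a point that stays near the centre orbit -/
lemma Nd.close (h : C.Nd f F L t M B c e x A) (g : C.Gc m K Λ L R δ cc) (hτ : τ ∈ Icc (0 : ℝ) 1)
    (hd : ∀ s ≤ M, C.du (C.fu (s * L) (c 0)) (C.fu (s * L) (c τ)) ≤ δ ∧
      K * C.du (C.fu (s * L) (c 0)) (C.fu (s * L) (c τ)) < R) : ∀ s ≤ M,
    C.Tru f F L t B e x A s τ ∧ ‖x s τ‖ ≤ K * C.du (C.fu (s * L) (c 0)) (C.fu (s * L) (c τ)) := by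
  have key : ∀ s ≤ M, C.Tru f F L t B e x A s τ →
      ‖x s τ‖ ≤ K * C.du (C.fu (s * L) (c 0)) (C.fu (s * L) (c τ)) := fun s hs h1 => by
    have := g.norm_le H hm (h.frF.cf C L s) (h1.lt H hm h)
    rw [h1.ps H hm h hτ, h.bvs] at this
    exact this (hd s hs).1
  have := down_ind (P := fun j => C.Tru f F L t B e x A j τ) (h.tru_top hτ) fun j hj ih =>
    h.step H hm g hj ih (mem_ball_zero_iff.2 ((key _ hj ih).trans_lt (hd _ hj).2))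
  exact fun s hs => ⟨this s hs, key s hs (this s hs)⟩

omit H hm in
lemma dd_Ps (ha : 0 ≤ a) (hf : C.Frm f) {y : ZL m} (hy : C.Un (C.hy f y.1.1) (C.uv f y.1)) :
    C.dd f.1 (C.Ps f y).1 ≤ ‖y.1.1‖ + |y.2| := by
  refine (C.dd_triangle ha _ (C.hy f y.1.1) _).trans ?_
  rw [C.dd_hy hf]
  exact add_le_add le_rfl (hy.dd_gd_zero C _).le

end Cov

end Crest.Agent.N221
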