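import Crest.Agent.N221.Ni.LkD

/-! Row 221, block Ni (helper86): `PolyS` from the core, the chains, one node and two nodes. -/

set_option autoImplicit false

open Set Filter Topology Metric
open scoped ContDiff RealInnerProductSpace
open Crest.GeometryTopology.Submanifold
open Crest.Agent.R241.DDefs Crest.Agent.R241.D2
open Crest.Agent.R208.J Crest.Agent.R208.L

noncomputable section

namespace Crest.Agent.N221

open Cov

theorem polyS_of (hC : NC.CoreF) (h4 : ChnS) (hN : NdS) (hK : LkS) : PolyS := by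
  intro n N m a S G C f z0 H hm hf hz0
  have ha := H.a_pos
  obtain ⟨L, Λ, K0, R0, δ, c0, hL, hΛ, -, hR0, -, hδ, hc0, hc⟩ := h4 n N m a S G C H hm
  obtain ⟨Λ3, hΛ3, hK⟩ := hK n N m a S G C H hm
  have c2 := hc0 2
  have L0 : 0 < L := by linarith
  set R := min (min R0 1) (1 / (4 * Real.exp (Λ + Λ3 * L) * c0 2)) with hRd
  have R0' : 0 < R := lt_min (lt_min hR0 one_pos) (by positivity)
  have R1 : R ≤ R0 := (min_le_left _ _).trans (min_le_left _ _)
  have R2 : R ≤ 1 := (min_le_left _ _).trans (min_le_right _ _)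
  have R3 : 4 * Real.exp (Λ + Λ3 * L) * c0 2 * R ≤ 1 := by
    rw [← le_div_iff₀' (by positivity)]; exact min_le_right _ _
  obtain ⟨ε, hε, hK⟩ := hK L Λ K0 R0 δ R c0 hL hc hδ R0' R1
  obtain ⟨ρ, K1, hρ, ρ1, ρ2, hK1, hN⟩ :=
    hN n N m a S G C f z0 H hm hf hz0 L Λ K0 R0 δ R ε c0 hL hc R0' R1 hε
  refine ⟨ρ, hρ, fun l nu U r hr hU hB s1 s2 s3 s4 τ0 c1 g K η d t0 t1 hc1 hg hη => ?_⟩
  obtain ⟨K2, T0, d2, hN⟩ := hN l nu U r hr hU hB s1 s2 s3 s4 g K d hg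
  obtain ⟨K4, κ, T1, hκ, hK⟩ := hK K1 |K| (c1 * L) hK1 (by positivity)
  set k : NC.Cst := ⟨R, Λ + Λ3 * L, min (Real.log 2) (a * L),
    1 + |K2| + |K4| + |K| * Real.exp (c1 * L), 0, g * L, τ0, c1 * L, min κ 1, c0,
    fun j => max (d2 j) 0⟩ with hk
  have p1 := abs_nonneg K2
  have p2 := abs_nonneg K4
  have p3 : 0 ≤ |K| * Real.exp (c1 * L) := by positivity
  have kK : k.K = 1 + |K2| + |K4| + |K| * Real.exp (c1 * L) := rfl
  have kΛ : k.Λ = Λ + Λ3 * L := rfl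
  have p4 : 0 < Λ3 * L := by positivity
  have ok : k.Ok := ⟨R0', R2, by linarith, lt_min (Real.log_pos one_lt_two) (by positivity),
    by linarith, le_rfl, mul_pos hg L0, t0, t1, mul_pos hc1 L0, lt_min hκ one_pos,
    min_le_right _ _, hc0, fun _ => le_max_right _ _, R3⟩
  obtain ⟨T2, hC⟩ := hC (ZL m) (Fin l → ℝ) k ok η hη
  refine ⟨max T0 (L * (max T1 T2 : ℕ)), fun T hT p γ t c e z hp h1 h2 => ?_⟩
  have q0 : L * (max T1 T2 : ℕ) ≤ T := (le_max_right _ _).trans hT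
  have q1 : max T1 T2 ≤ ⌊T / L⌋₊ := Nat.le_floor (by rwa [le_div_iff₀' L0])
  have T0' : 0 ≤ T := le_trans (by positivity) q0
  have q2 : L * ⌊T / L⌋₊ ≤ T := by
    rw [← le_div_iff₀' L0]; exact Nat.floor_le (by positivity)
  have q3 : T ≤ L * (⌊T / L⌋₊ + 1) := by
    rw [← div_le_iff₀' L0]; exact (Nat.lt_floor_add_one _).le
  have D1 : Real.exp (-(c1 * T)) ≤ k.D ⌊T / L⌋₊ := Real.exp_le_exp.2 (by
    change _ ≤ -(c1 * L * _)
    linarith [mul_le_mul_of_nonneg_left q2 hc1.le])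
  have D2 : k.D ⌊T / L⌋₊ ≤ Real.exp (-(c1 * T)) * Real.exp (c1 * L) := by
    rw [← Real.exp_add]
    refine Real.exp_le_exp.2 ?_
    change -(c1 * L * _) ≤ _
    linarith [mul_le_mul_of_nonneg_left q3 hc1.le]
  have hnd : ∀ i ≤ p, ∃ F x A, C.Nd k L ε K1 ⌊T / L⌋₊ f (closedBall ((z0, 0) : ZL m) r) nu (c i)
      (z i) F x A := fun i hi =>
    hN k rfl (by linarith) (min_le_left _ _) (min_le_right _ _) (by linarith [le_abs_self K2])
      le_rfl (fun _ => le_rfl) (fun _ => le_max_left _ _) le_rfl t1 T ((le_max_left _ _).trans hT)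
      (γ i) (t i) (c i) (e i) (z i) (h1 i hi).1 (h1 i hi).2.1 (h1 i hi).2.2.1 (h1 i hi).2.2.2 t0.le
  choose! F x A hd using hnd
  have hBx : ∀ y ∈ closedBall ((z0, 0) : ZL m) r, ‖y.1‖ < C.rr m ∧ |y.2| ≤ 1 := fun y hy => by
    rw [mem_closedBall, dist_eq_norm] at hy
    have a1 : ‖y.1 - z0‖ ≤ r := (norm_fst_le (y - (z0, 0))).trans hy
    have a2 : ‖y.2 - 0‖ ≤ r := (norm_snd_le (y - (z0, 0))).trans hy
    rw [sub_zero, Real.norm_eq_abs] at a2
    exact ⟨by linarith [norm_le_norm_add_norm_sub' y.1 z0], by linarith⟩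
  obtain ⟨τ, hτ, w, j, hj⟩ := @hC _ ((le_max_right _ _).trans q1) C.UP
    (C.ms H.a_pos.le).toPseudoMetricSpace p (fun y => ‖y.1.1‖)
    (fun i j => C.Lt (F i (j + 1)) (F i j) (-L)) (fun i j => C.Lt (F (i + 1) j) (F i j) 0)
    (fun i j => C.Lf (F i j)) x A (fun i j τ => C.fu (-(j * L)) (c i τ))
    (by
      have := mul_le_mul_of_nonneg_left D2 (Nat.cast_nonneg (α := ℝ) p)
      have := mul_le_mul_of_nonneg_right (hp.trans (le_abs_self K)) (Real.exp_pos (c1 * L)).le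
      linarith)
    (fun i hi => (hd i hi).crv) fun i hi => ⟨(hd i hi.le).frf,
      hK k ok rfl (by linarith) (min_le_right _ _) (by linarith [le_abs_self K4]) (min_le_left _ _)
        rfl (fun _ => le_rfl) _ ((le_max_left _ _).trans q1) l f _ nu _ _ _ _ _ _ _ _ _ _ hf hBx
        (hd i hi.le) (hd (i + 1) hi)
        (fun τ hτ => ⟨((h1 i hi.le).2.2.1 τ hτ).1, ((h1 (i + 1) hi).2.2.1 τ hτ).1⟩) fun τ hτ => by
          obtain ⟨a1, b, a2⟩ := h2 i hi τ hτ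
          exact ⟨((h1 i hi.le).2.2.2 τ hτ).1, ((h1 (i + 1) hi).2.2.2 τ hτ).1,
            ((h1 i hi.le).2.2.2 τ hτ).2, ((h1 (i + 1) hi).2.2.2 τ hτ).2,
            a1.trans (mul_le_mul (le_abs_self K) D1 (Real.exp_pos _).le (abs_nonneg K)), b,
            a2.trans (mul_le_mul (le_abs_self K) (pow_le_pow_left₀ (Real.exp_pos _).le D1 2)
              (sq_nonneg _) (abs_nonneg K))⟩⟩
  exact ⟨τ, hτ, w, _, hj⟩

end Crest.Agent.N221
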