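import Crest.Agent.N221.Ni.Crv

/-! Row 221, block Ni (helper84): `polyS`, the polygon on the real objects from the core. -/

set_option autoImplicit false

open Set Filter Topology Metric
open scoped ContDiff RealInnerProductSpace Nat
open Crest.GeometryTopology.Submanifold
open Crest.Agent.R241.DDefs Crest.Agent.R241.D2
open Crest.Agent.R208.J Crest.Agent.R208.L

noncomputable section

namespace Crest.Agent.N221

open Ex NC

/-- the lifted frame -/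
def lfr {m : ℕ} {V : Type} [NormedAddCommGroup V] [NormedSpace ℝ V] (nu : ZZ m → V →L[ℝ] ZZ m)
    (y : ZL m) : V →L[ℝ] ZL m := lif y.1 ∘L nu y.1

lemma contDiff_lif84 {m : ℕ} : ContDiff ℝ ∞ (lif : ZZ m → ZZ m →L[ℝ] ZL m) := by
  have e : (lif : ZZ m → ZZ m →L[ℝ] ZL m) = fun z => ContinuousLinearMap.inl ℝ (ZZ m) ℝ -
      ContinuousLinearMap.inr ℝ (ZZ m) ℝ ∘L (innerSL ℝ z.2 ∘L ContinuousLinearMap.fst ℝ _ _) := by
    funext z; ext1 <;> ext <;> simp [lif]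
  rw [e]
  exact contDiff_const.sub (contDiff_const.clm_comp
    (((innerSL ℝ).contDiff.comp contDiff_snd).clm_comp contDiff_const))

lemma mvt01 {X : Type} [NormedAddCommGroup X] [NormedSpace ℝ X] {e : ℝ → X} {b τ : ℝ}
    (h : ∀ τ ∈ Icc (0 : ℝ) 1, ContDiffAt ℝ ∞ e τ ∧ ‖iteratedDeriv 1 e τ‖ ≤ b)
    (hτ : τ ∈ Icc (0 : ℝ) 1) : ‖e 0 - e τ‖ ≤ b := by
  have := (convex_Icc (0 : ℝ) 1).norm_image_sub_le_of_norm_deriv_le (f := e) (C := b)
    (fun u hu => (h u hu).1.differentiableAt (by simp))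
    (fun u hu => by simpa using (h u hu).2) hτ ⟨le_rfl, zero_le_one⟩
  have b0 : 0 ≤ b := (norm_nonneg _).trans (h τ hτ).2
  refine this.trans (mul_le_of_le_one_right b0 ?_)
  rw [zero_sub, norm_neg, Real.norm_eq_abs, abs_of_nonneg hτ.1]; exact hτ.2

namespace Cov

variable {n N m : ℕ} {a : ℝ} {S : Set (Euc N)} {G : Geo n N (-(a ^ 2)) S} {C : Cov G}
variable {V : Type} [NormedAddCommGroup V] [NormedSpace ℝ V]
variable {f F F' : FF n N m} {K Λ L R δ t t' τ ε R1 : ℝ} {M s : ℕ} {B : ZL m → V →L[ℝ] ZL m}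
  {c c' : ℝ → Euc n × Euc N} {e e' : ℝ → ZL m} {x x' : ℕ → ℝ → ZL m}
  {A A' : ℕ → ℝ → V →L[ℝ] ZL m} {cc : ℕ → ℝ} {k : Cst} {y y' : ZL m} {p : Euc n × Euc N}

variable (H : Hyp n N a S) (hm : m + 1 = n)
include H hm

/-- a point of a chart that flows near the centre of another chart -/
lemma Gc.enter (g : C.Gc m K Λ L R δ cc) (hf : C.Frm f) (hF : C.Frm F) (hy : ‖y.1‖ < C.rr m)
    (hd : C.du (bv F) (C.fu t (C.Ps f y)) ≤ δ) : y.1 ∈ C.dm f F ∧
      ‖C.Lt f F t y‖ ≤ K * C.du (bv F) (C.fu t (C.Ps f y)) := by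
  obtain ⟨w, k1, k2, k3⟩ := g.ex F _ hF (C.un_fu (C.un_Ps' H hm hf hy) t) hd
  obtain ⟨k4, k5⟩ := C.loc H hm hf hF hy k1 k3
  exact ⟨k4, k5 ▸ k2⟩

lemma dd_bv (hf : C.Frm f) (hy : ‖y.1‖ < C.rr m) (h2 : |y.2| ≤ 1)
    (h : bv F = C.fu t (C.Ps f y)) : C.dd f.1 F.1 ≤ |t| + 2 := by
  have u := C.un_Ps' H hm hf hy
  have e : F.1 = (C.fu t (C.Ps f y)).1 := congrArg Prod.fst h
  have a1 := dd_Ps H.a_pos.le hf (C.un_uv H hf (C.Dm_lt H hm hf hy))
  have a2 : C.dd (C.Ps f y).1 F.1 = |t| := by rw [e]; exact u.dd_gd_zero C t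
  have a3 := C.dd_triangle H.a_pos.le f.1 (C.Ps f y).1 F.1
  linarith [norm_fst_le y.1, (C.rad H hm).le]

/-- the time `0` reading of a node on the known part -/
lemma Tru.zero {f' : FF n N m} (h : C.Nd f' F L t M B c e x A) (hτ : τ ∈ Icc (0 : ℝ) 1)
    (h1 : C.Tru f' F L t B e x A 0 τ) (hf : C.Frm f) (hy : ‖y.1‖ < C.rr m) (hc : c τ = C.Ps f y) :
    y.1 ∈ C.dm f F ∧ x 0 τ = C.Lt f F 0 y ∧ y.1 ∈ C.dm f f' ∧ C.Lt f f' t y = e τ ∧ ∀ w b,
      fderiv ℝ (C.Lt f f' t) y w = B (e τ) b → A 0 τ b = fderiv ℝ (C.Lt f F 0) y w := by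
  have p := h1.ps H hm h hτ
  have d := h1.dm
  rw [C.cf_zero] at p d
  simp only [Nat.cast_zero, zero_mul] at p
  obtain ⟨k1, k2⟩ := C.loc H hm hf h.frF hy (h1.lt H hm h) (by rw [p, hc])
  obtain ⟨k3, k4⟩ := C.loc H hm hf h.frm hy d.1 (by rw [h.ret τ hτ, hc])
  refine ⟨k1, k2.symm, k3, k4, fun w b hw => ?_⟩
  have := C.fderiv_Lt_comp H hm (t := t) (t' := -t) hf h.frm h.frF k3 (by rw [k4]; exact d) w
  rw [add_neg_cancel, k4, hw] at this
  rw [h1.A, C.cf_zero, ← this]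
  simp only [Nat.cast_zero, zero_mul, zero_sub]

end Cov

open Cov

set_option maxHeartbeats 3200000 in
theorem polyS_core (hC : CoreF) (h1 : FlS) (h2 : PsS) (h3 : BkS) (h4 : ChnS) : PolyS := by
  intro n N m a S G C f z0 H hm hf hz0
  obtain ⟨K, Λ, L, R, δ, cc, g⟩ := C.exists_gc h1 h2 h3 h4 H hm
  have K1 := g.K1
  have Λ0 := g.Λ0
  have L1 := g.L1
  have R0 := g.R0
  have δ0 := g.δ0
  have ha := H.a_pos
  set ρ := min (min ((C.rr m - ‖z0‖) / 2) 1) (min δ R / (8 * K ^ 3)) with hρ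
  have ρ0 : 0 < ρ := by have := sub_pos.2 hz0; positivity
  refine ⟨ρ, ρ0, fun l nu U r hr hU hrU hnu hi hE hq τ0 c1 g0 K' η d τp τ1 c0 gp ηp => ?_⟩
  -- the box
  have ρ1 : ρ ≤ (C.rr m - ‖z0‖) / 2 := (min_le_left _ _).trans (min_le_left _ _)
  have ρ2 : ρ ≤ 1 := (min_le_left _ _).trans (min_le_right _ _)
  have ρ3 : 8 * K ^ 3 * ρ ≤ min δ R := by
    rw [mul_comm, ← le_div_iff₀ (by positivity)]; exact min_le_right _ _
  set Bx := closedBall ((z0, 0) : ZL m) r with hBx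
  have bx : ∀ y ∈ Bx, y.1 ∈ closedBall z0 r ∧ ‖y.1‖ < C.rr m ∧ |y.2| ≤ 1 := fun y hy => by
    rw [hBx, ← closedBall_prod_same] at hy
    have a1 := mem_closedBall_iff_norm.1 hy.1
    have a2 := mem_closedBall_zero_iff.1 hy.2
    have a3 := norm_add_le (y.1 - z0) z0
    rw [sub_add_cancel] at a3
    exact ⟨hy.1, by linarith, a2.trans (hr.trans ρ2)⟩
  set ε := K * (2 * ρ) with hε
  have bd : ∀ y ∈ Bx, ∀ y' ∈ Bx, C.du (C.Ps f y) (C.Ps f y') ≤ ε := fun y hy y' hy' => by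
    refine (g.ps f y y' hf (bx y hy).2.1 (bx y' hy').2.1 (bx y hy).2.2 (bx y' hy').2.2).trans ?_
    have := norm_sub_le_norm_sub_add_norm_sub y (z0, 0) y'
    have a1 := mem_closedBall_iff_norm.1 hy
    have a2 := mem_closedBall_iff_norm'.1 hy'
    rw [hε]; gcongr; linarith
  have ε0 : 0 < ε := by positivity
  have e2 : 4 * (K * (K * ε)) ≤ min δ R := by rw [hε]; nlinarith
  have e3 : K * ε ≤ K * (K * ε) := le_mul_of_one_le_left (by positivity) K1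
  have e4 : ε ≤ K * ε := le_mul_of_one_le_left ε0.le K1
  have e5 : 0 < K * ε := by positivity
  have m1 := min_le_left δ R
  have m2 := min_le_right δ R
  -- constants
  set K0 := |K'| with hK0
  have k0 : 0 ≤ K0 := abs_nonneg _
  set R1 := K0 + L + 2 with hR1
  have ub := C.ub_Lt H hm R1
  obtain ⟨cT, cT1, hT⟩ := ub.taylor
  obtain ⟨d1, d10, hd1⟩ := ub_prof ub d
  have cB : IsCompact Bx := isCompact_closedBall _ _
  obtain ⟨r', r'0, hr'⟩ := cB.exists_cthickening_subset_open (hU.preimage continuous_fst)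
    fun y hy => hrU (bx y hy).1
  have sB : ContDiffOn ℝ ∞ (lfr nu) (Prod.fst ⁻¹' U) :=
    (contDiff_lif84.comp contDiff_fst).contDiffOn.clm_comp (hnu.comp contDiffOn_fst fun _ h => h)
  have ho := fun i => (ub.op i).inter (isOpen_thickening (δ := r') (E := Bx))
  have ub2 := (ub.fderiv.mono id ho fun _ => inter_subset_left).clm_comp
    (UB.of_compact (hU.preimage continuous_fst) sB cB.cthickening hr' ho fun _ =>
      inter_subset_right.trans (thickening_subset_cthickening _ _))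
  obtain ⟨d2, d20, hd2⟩ := ub_prof ub2 d
  obtain ⟨μ, μ0, hμ⟩ := exists_floor (isCompact_closedBall z0 r) (hnu.continuousOn.mono hrU)
    fun z hz => hi z (hrU hz)
  set K5 := K * Real.exp (Λ * (K0 + L)) * (K * |d 1|) with hK5
  have k5 : 0 ≤ K5 := by positivity
  have cT0 : 0 ≤ cT := by linarith
  set K6 := K0 * Real.exp (c1 * L) with hK6
  have k6 : 0 ≤ K6 := by positivity
  have p1 : 0 ≤ K * K5 := by positivity
  have p2 : 0 ≤ μ * cT := by positivity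
  have p3 : 0 ≤ cT * K0 := by positivity
  have p4 : 0 ≤ cT * K0 ^ 2 := by positivity
  set κ0 := min 1 (c1 / (2 * Λ)) with hκ0
  let k : Cst := ⟨R, Λ, min (Real.log 2) (a * L), K + 1 + K * K5 + μ * cT + K6 + cT * K0 +
    cT * K0 ^ 2, 0, g0 * L, τ0, c1 * L, κ0, cc, fun j => d1 j + d2 j⟩
  have kK : k.K = K + 1 + K * K5 + μ * cT + K6 + cT * K0 + cT * K0 ^ 2 := rfl
  have ok : k.Ok := ⟨R0, g.R1, Λ0, lt_min (Real.log_pos one_lt_two) (by positivity),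
    by rw [kK]; linarith, le_rfl, (by positivity : 0 < g0 * L), τp, τ1,
    (by positivity : 0 < c1 * L), (by positivity : 0 < κ0), min_le_left _ _, g.c1,
    fun j => add_nonneg (d10 j) (d20 j), g.small⟩
  have q : Kc a K Λ L R cc k := ⟨rfl, rfl, rfl, min_le_left _ _, min_le_right _ _,
    by rw [kK]; linarith, by rw [kK]; linarith, τ1⟩
  obtain ⟨M0, hM0⟩ := hC (ZL m) (Fin l → ℝ) k ok η ηp
  have ev : ∀ b B ε : ℝ, 0 < b → 0 < ε → ∀ᶠ T : ℝ in atTop, B * Real.exp (-(b * T)) ≤ ε :=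
    fun b B ε hb hε => by
      have := ((Real.tendsto_exp_neg_atTop_nhds_zero.comp
        (tendsto_id.const_mul_atTop hb)).const_mul B).eventually (ge_mem_nhds (by simpa using hε))
      exact this
  obtain ⟨T0, hT0⟩ := eventually_atTop.1 ((eventually_ge_atTop (L * M0)).and
    ((ev g0 K5 (K * ε) gp e5).and (ev (c1 / 2) (K * K0) ε (by positivity) ε0)))
  refine ⟨T0, fun T hT' kk γ t c e z hk hN hL => ?_⟩
  obtain ⟨t1, t2, t3⟩ := hT0 T hT'
  have L0 : 0 < L := by linarith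
  have T0' : 0 ≤ T := le_trans (by positivity) t1
  set M := ⌊T / L⌋₊ with hM
  have M1 : (M : ℝ) * L ≤ T := (le_div_iff₀ L0).1 (Nat.floor_le (by positivity))
  have M2 : T ≤ M * L + L := by
    have := (div_lt_iff₀ L0).1 (Nat.lt_floor_add_one (T / L)); linarith
  have M3 : M0 ≤ M := Nat.le_floor ((le_div_iff₀ L0).2 (by linarith))
  set D := Real.exp (-(c1 * T)) with hD
  have D0 : 0 < D := Real.exp_pos _
  have D1 : D ≤ k.D M := Real.exp_le_exp.2 (by change -(c1 * T) ≤ -(c1 * L * M); nlinarith)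
  have D2 : k.D M ≤ Real.exp (c1 * L) * D := by
    rw [hD, ← Real.exp_add]
    exact Real.exp_le_exp.2 (by change -(c1 * L * M) ≤ _; nlinarith)
  set w := Real.exp (-(g0 * T)) with hw
  have w0 : 0 < w := Real.exp_pos _
  have w1 : w ≤ Real.exp (-(k.g * M)) :=
    Real.exp_le_exp.2 (by change -(g0 * T) ≤ -(g0 * L * M); nlinarith)
  have I0 : (0 : ℝ) ∈ Icc (0 : ℝ) 1 := ⟨le_rfl, zero_le_one⟩
  have I1 : (0 : ℝ) ∈ Icc (0 : ℝ) τ0 := ⟨le_rfl, τp.le⟩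
  have I2 : ∀ τ ∈ Icc (0 : ℝ) τ0, τ ∈ Icc (0 : ℝ) 1 := fun τ h => ⟨h.1, h.2.trans τ1⟩
  -- the nodes
  have nd : ∀ i, ∃ (j : Euc n → Euc n) (F : FF n N m) (x : ℕ → ℝ → ZL m)
      (A : ℕ → ℝ → (Fin l → ℝ) →L[ℝ] ZL m), i ≤ kk → C.Deck j ∧
      C.Nd (fg j f) F L (t i) M (lfr nu) (c i) (e i) x A ∧
      Crv k M (fun y => ‖y.1.1‖) (C.pb F L) (fun s => C.Lf (C.cf F L s)) x ∧
      FrF k M (C.pb F L) x A := fun i => by
    by_cases hi' : i ≤ kk
    swap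
    · exact ⟨id, f, 0, 0, fun h => (hi' h).elim⟩
    obtain ⟨dγ, tT, hc, hz⟩ := hN i hi'
    obtain ⟨j, dj, j1, -⟩ := dγ.inv C
    obtain ⟨F, hF, bF⟩ := C.exists_bv hm (hc 0 I0).1
    obtain ⟨x, A, x1, x2, x3, x4⟩ := C.exists_nd (fg j f) F L (t i) M (lfr nu) (e i)
    have hj := hf.fg C dj
    have hFM := hF.cf C L M
    have ret : ∀ τ ∈ Icc (0 : ℝ) 1, C.Ps (fg j f) (e i τ) = C.fu (t i) (c i τ) := fun τ hτ => by
      rw [C.Ps_fg H hf dj (C.Dm_lt H hm hf (bx _ (hc τ hτ).2.2.1).2.1), ← (hc τ hτ).2.2.2.1,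
        C.mv_eq, dg_inv j1]
    have tt : |M * L - t i| ≤ K0 + L := by
      have := abs_le.1 (tT.trans (le_abs_self K'))
      exact abs_le.2 ⟨by linarith, by linarith⟩
    have bM : bv (C.cf F L M) = C.fu (M * L - t i) (C.Ps (fg j f) (e i 0)) := by
      rw [ret 0 I0, C.fu_add (hc 0 I0).1, bv_cf, bF]; congr 1; ring
    have cl : ∀ τ ∈ Icc (0 : ℝ) 1, C.du (bv (C.cf F L M))
        (C.fu (M * L - t i) (C.Ps (fg j f) (e i τ))) ≤ K5 * w := fun τ hτ => by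
      have b0 := bx _ (hc 0 I0).2.2.1
      have b1 := bx _ (hc τ hτ).2.2.1
      have a1 := g.ps _ _ _ hj b0.2.1 b1.2.1 b0.2.2 b1.2.2
      have a2 : ‖e i 0 - e i τ‖ ≤ |d 1| * w := mvt01 (fun u hu => ⟨(hc u hu).2.2.2.2.1,
        ((hc u hu).2.2.2.2.2 1 le_rfl).trans (by
          rw [pow_one]; gcongr; exact le_abs_self _)⟩) hτ
      rw [bM]
      refine (g.lip _ _ (C.un_Ps' H hm hj b0.2.1) (C.un_Ps' H hm hj b1.2.1) _).trans ?_
      calc _ ≤ K * Real.exp (Λ * (K0 + L)) * (K * (|d 1| * w)) := by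
            gcongr
            · exact C.du_nonneg _ _
            · exact a1.trans (by gcongr)
        _ = _ := by rw [hK5]; ring
    have en := fun τ hτ => g.enter H hm hj hFM (bx _ (hc τ hτ).2.2.1).2.1
      ((cl τ hτ).trans (by linarith))
    have h : C.Nd (fg j f) F L (t i) M (lfr nu) (c i) (e i) x A :=
      ⟨hj, hF, bF, fun τ hτ => (hc τ hτ).1, ret, fun τ hτ => (en τ hτ).1, x1, x2, x3, x4⟩
    have dd1 := dd_bv H hm hj (bx _ (hc 0 I0).2.2.1).2.1 (bx _ (hc 0 I0).2.2.1).2.2 bM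
    let ix : C.Ix m R1 := ⟨((fg j f, C.cf F L M), M * L - t i), ⟨hj, hFM, by linarith⟩,
      by linarith⟩
    let ix' : C.Ix m R1 := ⟨((C.cf F L M, fg j f), -(M * L - t i)), ⟨hFM, hj, by
      rw [C.dd_comm]; linarith⟩, by rw [abs_neg]; linarith⟩
    have mem : ∀ τ ∈ Icc (0 : ℝ) 1, (e i τ).1 ∈ C.dm (fg j f) (C.cf F L M) ∧ |(e i τ).2| < R1 :=
      fun τ hτ => ⟨(en τ hτ).1, by linarith [(bx _ (hc τ hτ).2.2.1).2.2]⟩
    have nx : ∀ τ ∈ Icc (0 : ℝ) 1, ‖x M τ‖ ≤ K * (K5 * w) := fun τ hτ => by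
      rw [x1]; exact (en τ hτ).2.trans (by gcongr; exact cl τ hτ)
    refine ⟨j, F, x, A, fun _ => ⟨dj, h, h.crv H hm g q (fun τ hτ => (hc τ hτ).2.1)
      (fun τ hτ => ⟨?_, ?_, fun j' hj' => ?_⟩) (ε := ε) (fun τ hτ => ?_) (by linarith)
      (by linarith), ⟨x4, fun τ hτ => ⟨?_, fun j' => ?_⟩⟩, fun τ hτ b => ?_⟩⟩
    · rw [x1]
      exact (C.contDiffAt_Lt H hm hj hFM (en τ hτ).1 _).comp τ (hc τ hτ).2.2.2.2.1
    · refine (nx τ hτ).trans ?_
      rw [← mul_assoc]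
      exact mul_le_mul (by rw [kK]; linarith) w1 w0.le (by linarith [ok.K])
    · rw [x1]
      refine (hd1 ix (e i) τ w w0.le (mem τ hτ) (hc τ hτ).2.2.2.2.1 (hc τ hτ).2.2.2.2.2 j').trans ?_
      have := d10 j'; have := d20 j'
      exact mul_le_mul (le_add_of_nonneg_right this) (by gcongr) (by positivity) (ok.d j')
    · rw [(hz 0 I1).2, (hz τ hτ).2]; exact bd _ (hz 0 I1).1 _ (hz τ hτ).1
    · rw [x3]
      exact (ub2.at (i := ix) ⟨mem τ hτ, self_subset_thickening r'0 _ (hc τ hτ).2.2.1⟩).comp τ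
        (hc τ hτ).2.2.2.2.1
    · rw [x3]
      refine (hd2 ix (e i) τ w w0.le ⟨mem τ hτ, self_subset_thickening r'0 _ (hc τ hτ).2.2.1⟩
        (hc τ hτ).2.2.2.2.1 (hc τ hτ).2.2.2.2.2 j').trans ?_
      have := d10 j'; have := d20 j'
      rw [show k.α = 0 from rfl, zero_mul, Real.exp_zero, mul_one]
      exact mul_le_mul (le_add_of_nonneg_left ‹0 ≤ d1 j'›) (by gcongr) (by positivity) (ok.d j')
    · have a1 := hμ _ (bx _ (hc τ hτ).2.2.1).1 b
      have a2 : ‖nu (e i τ).1 b‖ ≤ ‖lfr nu (e i τ) b‖ := norm_fst_le (lfr nu (e i τ) b)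
      have a3 := C.fderiv_Lt_symm H hm (t := M * L - t i) hj hFM (en τ hτ).1 (lfr nu (e i τ) b)
      have a4 := ((hT ix').1 (x M τ) ⟨by
        rw [x1]; exact (C.Lt_symm H hm hj hFM (en τ hτ).1).1,
        (norm_snd_le (x M τ)).trans_lt ((nx τ hτ).trans_lt (by nlinarith [g.R1]))⟩).2
      have a5 : ‖lfr nu (e i τ) b‖ ≤ cT * ‖A M τ b‖ := by
        rw [← a3, x3]
        refine (ContinuousLinearMap.le_opNorm _ _).trans (mul_le_mul_of_nonneg_right ?_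
          (norm_nonneg _))
        rw [x1] at a4; exact a4
      calc ‖b‖ ≤ μ * (cT * ‖A M τ b‖) := a1.trans (by gcongr; exact a2.trans a5)
        _ = μ * cT * ‖A M τ b‖ := by ring
        _ ≤ _ := by gcongr; rw [kK]; linarith
  choose j F x A hn using nd
  have kD : 0 < k.D M := Real.exp_pos _
  have := @hM0 M M3 C.UP (C.ms ha.le).toPseudoMetricSpace kk (fun y => ‖y.1.1‖)
    (fun i => C.pb (F i) L) (fun i => C.hh (F i) (F (i + 1)) L)
    (fun i s => C.Lf (C.cf (F i) L s)) x A (fun i s τ => C.fu (-(s * L)) (c i τ)) ?_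
    (fun i hi => (hn i hi).2.2.1) fun i hi => ?_
  · obtain ⟨τ, a1, a2, s, a3⟩ := this
    exact ⟨τ, a1, a2, _, a3⟩
  · calc (kk : ℝ) * k.D M ≤ kk * (Real.exp (c1 * L) * D) := by gcongr
      _ = kk * D * Real.exp (c1 * L) := by ring
      _ ≤ K6 := by rw [hK6]; gcongr; exact hk.trans (le_abs_self _)
      _ ≤ _ := by rw [kK]; linarith
  obtain ⟨dj, h, -, fr⟩ := hn i hi.le
  obtain ⟨-, h', -, -⟩ := hn (i + 1) hi
  obtain ⟨-, -, hc, hz⟩ := hN i hi.le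
  obtain ⟨-, -, hc', hz'⟩ := hN (i + 1) hi
  have KD : K' * D ≤ K0 * D := by gcongr; exact le_abs_self _
  have cl : ∀ s : ℕ, (s : ℝ) ≤ k.κ0 * M →
      C.du (C.fu (s * L) (c i 0)) (C.fu (s * L) (c (i + 1) 0)) ≤ K * ε := fun s hs => by
    have b0 := bx _ (hz 0 I1).1
    have b1 := bx _ (hz' 0 I1).1
    have a1 := g.ps _ _ _ hf b0.2.1 b1.2.1 b0.2.2 b1.2.2
    rw [← (hz 0 I1).2, ← (hz' 0 I1).2, norm_sub_rev] at a1
    have a2 : Λ * |s * L| ≤ c1 / 2 * T := by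
      rw [abs_of_nonneg (by positivity)]
      have b2 : κ0 ≤ c1 / (2 * Λ) := min_le_right _ _
      calc Λ * (s * L) ≤ Λ * (c1 / (2 * Λ) * M * L) := by gcongr; exact hs.trans (by gcongr)
        _ = c1 / 2 * (M * L) := by field_simp
        _ ≤ _ := by gcongr
    refine (g.lip _ _ h.un0 h'.un0 _).trans ?_
    calc _ ≤ K * Real.exp (c1 / 2 * T) * (K * (K0 * D)) := by
          gcongr
          · exact C.du_nonneg _ _
          · exact a1.trans (by gcongr; exact (hL i hi 0 I1).1.trans KD)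
      _ = K * (K * K0 * (Real.exp (c1 / 2 * T) * D)) := by ring
      _ = K * (K * K0 * Real.exp (-(c1 / 2 * T))) := by
          rw [hD, ← Real.exp_add]; congr 3; ring
      _ ≤ _ := by gcongr
  have ds : ∀ {z : ℝ → ZL m} {c : ℝ → Euc n × Euc N}, (∀ τ ∈ Icc (0 : ℝ) τ0, z τ ∈ Bx ∧
      c τ = C.Ps f (z τ)) → ∀ τ ∈ Icc (0 : ℝ) τ0, C.du (c 0) (c τ) ≤ ε := fun hz τ hτ => by
    rw [(hz 0 I1).2, (hz τ hτ).2]; exact bd _ (hz 0 I1).1 _ (hz τ hτ).1
  refine ⟨fr, h.link H hm h' g q ok.κ1 (fun τ hτ => (hc' τ hτ).2.1) (ds hz') e5.le (by linarith)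
    (by linarith) cl fun τ hτ => ?_, h.bk H hm h' g q ok.κ1 (fun s hs => (cl s hs).trans
      (by linarith)) fun τ hτ b => ?_⟩
  · have hτ' := I2 τ hτ
    obtain ⟨-, u1, -⟩ := h.known H hm g hτ' (hc τ hτ').2.1 (ds hz τ hτ) (by linarith)
      (by linarith) 0 M.zero_le
    obtain ⟨-, u2, u3⟩ := h'.known H hm g hτ' (hc' τ hτ').2.1 (ds hz' τ hτ) (by linarith)
      (by linarith) 0 M.zero_le
    have b0 := bx _ (hz τ hτ).1
    have b1 := bx _ (hz' τ hτ).1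
    obtain ⟨v1, v2, v3, v4, v5⟩ := u1.zero H hm h hτ' hf b0.2.1 (hz τ hτ).2
    obtain ⟨v6, v7, -⟩ := u2.zero H hm h' hτ' hf b1.2.1 (hz' τ hτ).2
    have bF : bv (F i) = C.fu 0 (C.Ps f (z i 0)) := by rw [C.fu_zero, h.bv0, (hz 0 I1).2]
    have dd1 := dd_bv H hm hf (bx _ (hz 0 I1).1).2.1 (bx _ (hz 0 I1).1).2.2 bF
    rw [abs_zero] at dd1
    let ix : C.Ix m R1 := ⟨((f, F i), 0), ⟨hf, h.frF, by linarith⟩, by rw [abs_zero]; linarith⟩
    have sub : ∀ y ∈ Bx, y.1 ∈ C.dm f (F i) ∧ |y.2| < R1 := fun y hy =>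
      ⟨(g.enter H hm (t := 0) hf h.frF (bx y hy).2.1 (by
        rw [bF, C.fu_zero, C.fu_zero]; linarith [bd _ (hz 0 I1).1 y hy])).1,
        by linarith [(bx y hy).2.2]⟩
    have dm' := (g.ch _ _ h.frF h'.frF (by
      have := cl 0 (by have := ok.κ0; simp only [Nat.cast_zero]; positivity)
      simp only [Nat.cast_zero, zero_mul, C.fu_zero] at this
      rw [h.bv0, h'.bv0]; linarith) (x (i + 1) 0 τ) (mem_ball_zero_iff.2 (u3.trans_lt (by
        simp only [Nat.cast_zero, mul_zero, neg_zero, Real.exp_zero]; linarith)))).1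
    have e1 : C.hh (F i) (F (i + 1)) L 0 (x (i + 1) 0 τ) = C.Lt f (F i) 0 (z (i + 1) τ) := by
      rw [v7] at dm'
      rw [hh, C.cf_zero, C.cf_zero, v7, (C.Lt_comp H hm h'.frF h.frF v6 dm').2, add_zero]
    obtain ⟨y1, -, y3⟩ := (hT ix).2 Bx (convex_closedBall _ _) sub _ (hz τ hτ).1 _ (hz' τ hτ).1
    have y4 := ((hT ix).1 _ (sub _ (hz τ hτ).1)).2
    obtain ⟨l1, b, l2⟩ := hL i hi τ hτ
    have eT : C.Tf f (fg (j i) f) (z i τ).1 = (e i τ).1 := congrArg Prod.fst v4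
    obtain ⟨b', hb'⟩ := hq _ (hrU b0.1) _ (C.R_Tf dj v3) (by
      rw [eT]; exact hrU (bx _ (hc τ hτ').2.2.1).1) b
    have eA := v5 (lif (z i τ).1 (nu (z i τ).1 b)) b' (by
      rw [C.fderiv_Lt_lif H hm hf h.frm v3, hb', eT]; rfl)
    change ‖C.Lt f (F i) 0 _ - C.Lt f (F i) 0 _‖ ≤ _ at y1
    change ‖C.Lt f (F i) 0 _ - C.Lt f (F i) 0 _ - fderiv ℝ (C.Lt f (F i) 0) _ _‖ ≤ _ at y3
    change ‖fderiv ℝ (C.Lt f (F i) 0) _‖ ≤ _ at y4
    have l3 := l1.trans KD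
    have l4 := l2.trans (show K' * D ^ 2 ≤ K0 * D ^ 2 by gcongr; exact le_abs_self _)
    rw [e1, v2]
    refine ⟨y1.trans ?_, b', ?_⟩
    · calc _ ≤ cT * (K0 * k.D M) := by gcongr; exact l3.trans (by gcongr)
        _ = cT * K0 * k.D M := by ring
        _ ≤ _ := by gcongr; rw [kK]; linarith
    · rw [eA]
      have y5 := ((fderiv ℝ (C.Lt f (F i) 0) (z i τ)).le_opNorm
        (z (i + 1) τ - z i τ - lif (z i τ).1 (nu (z i τ).1 b)))
      rw [map_sub] at y5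
      calc _ ≤ cT * ‖z (i + 1) τ - z i τ‖ ^ 2 + cT * (K0 * D ^ 2) :=
            (norm_sub_le_norm_sub_add_norm_sub _ _ _).trans
              (add_le_add y3 (y5.trans (by gcongr)))
        _ ≤ cT * (K0 * k.D M) ^ 2 + cT * (K0 * k.D M ^ 2) := by
            gcongr; exact l3.trans (by gcongr)
        _ = (cT * K0 + cT * K0 ^ 2) * k.D M ^ 2 := by ring
        _ ≤ _ := by gcongr; rw [kK]; linarith
  · have b0 := bx _ (hc τ hτ).2.2.1
    have := hE _ (hrU b0.1) b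
    refine ⟨(nu (e i τ).1 b).1, ?_⟩
    rw [C.Su_fg H hf dj (C.Dm_lt H hm hf b0.2.1)]
    exact congrArg (lif (e i τ).1) (Prod.ext rfl ((LinearMap.mem_graph_iff _ _).1 this))

end Crest.Agent.N221
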