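import Crest.Agent.N221.Ni.Pol
import Crest.Agent.N221.Ni.Ps
import Crest.Agent.N221.Ni.Bk
import Crest.Agent.N221.Ni.Chn
import Crest.Agent.N221.NC.CoreF
import Crest.Agent.N221.NC.AngG
import Crest.Agent.N221.NC.AngF1
import Crest.Agent.N221.NC.CmpG
import Crest.Agent.N221.NC.KnF
import Crest.Agent.N221.NC.Ap
import Crest.Agent.N221.NC.Esc
import Crest.Agent.N221.NC.Ext
import Crest.Agent.N221.NC.Gram
import Crest.Agent.N221.NC.Grid

/-! Row 221, block Ni (helper84): `polyS`, closed. -/

namespace Crest.Agent.N221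

open NC in
theorem coreFT : NC.CoreF :=
  coreF escS (cmpF' (apS escS extS))
    (angF (angF1 gramS gridS (apS escS extS) knF) (cmpF' (apS escS extS))) avgS

theorem polyS : PolyS := polyS_core coreFT flS psS (bkS flS psS) chnS

end Crest.Agent.N221
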